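import Crest.Agent.R160.ScalarDefs

/-! Row 160: magnetisation algebra, scalar lemmas. -/

noncomputable section

namespace Crest.Agent.R160

lemma op_comm (x y : ℝ) : op x y = op y x := by
  unfold op; rw [add_comm x y, mul_comm x y]

@[simp] lemma op_zero (x : ℝ) : op x 0 = x := by
  simp [op]

lemma one_add_mul_pos {x y : ℝ} (hx : |x| ≤ 1) (hy : |y| ≤ 3 / 4) : 1 / 4 ≤ 1 + x * y := by
  have h : |x * y| ≤ 1 * (3 / 4) := by
    rw [abs_mul]; exact mul_le_mul hx hy (abs_nonneg _) zero_le_one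
  have := neg_abs_le (x * y)
  linarith

lemma one_add_mul_le {x y : ℝ} (hx : |x| ≤ 1) (hy : |y| ≤ 3 / 4) : 1 + x * y ≤ 7 / 4 := by
  have h : |x * y| ≤ 1 * (3 / 4) := by
    rw [abs_mul]; exact mul_le_mul hx hy (abs_nonneg _) zero_le_one
  have := le_abs_self (x * y)
  linarith

lemma abs_op_le_one {x y : ℝ} (hx : |x| ≤ 1) (hy : |y| ≤ 3 / 4) : |op x y| ≤ 1 := by
  have hp : 0 < 1 + x * y := by linarith [one_add_mul_pos hx hy]
  obtain ⟨hx1, hx2⟩ := abs_le.1 hx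
  obtain ⟨hy1, hy2⟩ := abs_le.1 hy
  unfold op
  rw [abs_le, le_div_iff₀ hp, div_le_iff₀ hp]
  constructor
  · nlinarith [mul_nonneg (show 0 ≤ 1 + x by linarith) (show 0 ≤ 1 + y by linarith)]
  · nlinarith [mul_nonneg (show 0 ≤ 1 - x by linarith) (show 0 ≤ 1 - y by linarith)]

lemma abs_op_le_add {x y : ℝ} (hx : |x| ≤ 1) (hy : |y| ≤ 3 / 4) : |op x y| ≤ |x| + |y| := by
  have hp : 0 < 1 + x * y := by linarith [one_add_mul_pos hx hy]
  obtain ⟨hx1, hx2⟩ := abs_le.1 hx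
  obtain ⟨hy1, hy2⟩ := abs_le.1 hy
  unfold op
  rw [abs_div, abs_of_pos hp, div_le_iff₀ hp]
  rcases le_total 0 x with h1 | h1 <;> rcases le_total 0 y with h2 | h2
  · rw [abs_of_nonneg h1, abs_of_nonneg h2, abs_of_nonneg (add_nonneg h1 h2)]
    nlinarith [mul_nonneg (add_nonneg h1 h2) (mul_nonneg h1 h2)]
  · rw [abs_of_nonneg h1, abs_of_nonpos h2, abs_le]
    have h2' : 0 ≤ -y := by linarith
    constructor
    · nlinarith [mul_nonneg h1 (show 0 ≤ 2 - (-y) * (x - y) by nlinarith)]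
    · nlinarith [mul_nonneg h2' (show 0 ≤ 2 - x * (x - y) by nlinarith)]
  · rw [abs_of_nonpos h1, abs_of_nonneg h2, abs_le]
    have h1' : 0 ≤ -x := by linarith
    constructor
    · nlinarith [mul_nonneg h2 (show 0 ≤ 2 - (-x) * (y - x) by nlinarith)]
    · nlinarith [mul_nonneg h1' (show 0 ≤ 2 - y * (y - x) by nlinarith)]
  · rw [abs_of_nonpos h1, abs_of_nonpos h2, abs_of_nonpos (add_nonpos h1 h2)]
    nlinarith [mul_nonneg (show 0 ≤ -(x + y) by linarith) (mul_nonneg_of_nonpos_of_nonpos h1 h2)]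

lemma one_sub_abs_op {x y : ℝ} (hx : |x| ≤ 1) (hy : |y| ≤ 3 / 4) :
    (1 - |x|) / 8 ≤ 1 - |op x y| := by
  have hp : 0 < 1 + x * y := by linarith [one_add_mul_pos hx hy]
  have hq := one_add_mul_le hx hy
  obtain ⟨hy1, hy2⟩ := abs_le.1 hy
  have h1 := le_abs_self x
  have h2 := neg_abs_le x
  have ha : 0 ≤ 1 - |x| := by linarith
  have key : |op x y| ≤ 1 - (1 - |x|) / 8 := by
    unfold op
    rw [abs_le, le_div_iff₀ hp, div_le_iff₀ hp]
    have e1 : (1 - |x|) * (1 / 4) ≤ (1 + x) * (1 + y) :=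
      mul_le_mul (by linarith) (by linarith) (by norm_num) (by linarith)
    have e2 : (1 - |x|) * (1 / 4) ≤ (1 - x) * (1 - y) :=
      mul_le_mul (by linarith) (by linarith) (by norm_num) (by linarith)
    have e3 : (1 - |x|) * (1 + x * y) ≤ (1 - |x|) * (7 / 4) := mul_le_mul_of_nonneg_left hq ha
    constructor <;> nlinarith
  linarith

lemma spin_mul_op {s : ℝ} (hs : s = 1 ∨ s = -1) (x y : ℝ) : s * op x y = op (s * x) (s * y) := by
  unfold op
  rcases hs with rfl | rfl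
  · simp
  · rw [show (-1 * x) * (-1 * y) = x * y by ring]; ring

lemma op_expand {x y : ℝ} (hx : |x| ≤ 1) (hy : |y| ≤ 3 / 4) :
    op x y = x + y - x * y * (x + y) + x ^ 2 * y ^ 2 * op x y := by
  have hp : 1 + x * y ≠ 0 := by linarith [one_add_mul_pos hx hy] |> ne_of_gt
  unfold op
  field_simp
  ring

lemma one_sub_sq_mul_pos {θ n : ℝ} (hθ : θ ^ 2 ≤ 9 / 16) (hn : |n| ≤ 1) :
    7 / 16 ≤ 1 - θ ^ 2 * n ^ 2 := by
  have h1 : n ^ 2 ≤ 1 := by rwa [sq_le_one_iff_abs_le_one]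
  nlinarith [sq_nonneg θ, sq_nonneg n]

lemma op_spin {θ s n : ℝ} (hs : s = 1 ∨ s = -1) (h0 : 0 ≤ θ) (hθ : θ ≤ 3 / 4) (hn : |n| ≤ 1) :
    op n (θ * s) = n * (1 - θ ^ 2) / (1 - θ ^ 2 * n ^ 2) + θ * rho θ n * s := by
  have hd : 1 - θ ^ 2 * n ^ 2 ≠ 0 := by
    have := one_sub_sq_mul_pos (θ := θ) (by nlinarith) hn
    linarith |> ne_of_gt
  have hs' : |θ * s| ≤ 3 / 4 := by
    rcases hs with rfl | rfl <;> simp [abs_of_nonneg h0, hθ]
  have hp : 1 + n * (θ * s) ≠ 0 := by linarith [one_add_mul_pos hn hs'] |> ne_of_gt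
  unfold op rho
  rw [show n * (1 - θ ^ 2) / (1 - θ ^ 2 * n ^ 2) + θ * ((1 - n ^ 2) / (1 - θ ^ 2 * n ^ 2)) * s =
    (n * (1 - θ ^ 2) + θ * (1 - n ^ 2) * s) / (1 - θ ^ 2 * n ^ 2) by ring, div_eq_div_iff hp hd]
  rcases hs with rfl | rfl <;> ring

lemma rho_nonneg {θ n : ℝ} (hθ : θ ^ 2 ≤ 1 / 2) (hn : |n| ≤ 1) : 0 ≤ rho θ n := by
  have h1 : n ^ 2 ≤ 1 := by rwa [sq_le_one_iff_abs_le_one]
  have := one_sub_sq_mul_pos (θ := θ) (by linarith) hn
  exact div_nonneg (by linarith) (by linarith)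

lemma rho_le_one {θ n : ℝ} (hθ : θ ^ 2 ≤ 1 / 2) (hn : |n| ≤ 1) : rho θ n ≤ 1 := by
  have := one_sub_sq_mul_pos (θ := θ) (by linarith) hn
  unfold rho
  rw [div_le_one (by linarith)]
  nlinarith [sq_nonneg n]

lemma rho_pos {θ n : ℝ} (hθ : θ ^ 2 ≤ 1 / 2) (hn : |n| < 1) : 0 < rho θ n := by
  have h1 : n ^ 2 < 1 := by rwa [sq_lt_one_iff_abs_lt_one]
  have := one_sub_sq_mul_pos (θ := θ) (by linarith) hn.le
  exact div_pos (by linarith) (by linarith)

lemma rho_spin {θ s : ℝ} (hs : s = 1 ∨ s = -1) (n : ℝ) : rho θ (s * n) = rho θ n := by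
  rcases hs with rfl | rfl <;> simp [rho]

lemma rho_le_one_sub {θ w : ℝ} (hθ : θ ^ 2 ≤ 1 / 2) (hw : |w| ≤ 1) : rho θ w ≤ 1 - w ^ 2 / 2 := by
  have := one_sub_sq_mul_pos (θ := θ) (by linarith) hw
  unfold rho
  rw [div_le_iff₀ (by linarith)]
  nlinarith [sq_nonneg w, mul_nonneg (sq_nonneg θ) (sq_nonneg (w ^ 2)),
    mul_nonneg (sq_nonneg w) (show 0 ≤ 1 / 2 - θ ^ 2 by linarith)]

lemma rho_op_le {θ z y : ℝ} (hθ : θ ^ 2 ≤ 1 / 2) (hz : |z| ≤ 1) (hy : |y| ≤ 3 / 4) :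
    rho θ (op z y) ≤ 1 - (z + y) ^ 2 / 8 := by
  have h1 := rho_le_one_sub hθ (abs_op_le_one hz hy)
  have hp := one_add_mul_pos hz hy
  have hq := one_add_mul_le hz hy
  have h2 : (z + y) ^ 2 / 4 ≤ op z y ^ 2 := by
    unfold op
    rw [div_pow]
    exact div_le_div_of_nonneg_left (sq_nonneg _) (by positivity) (by nlinarith)
  linarith

/-- The inverse hyperbolic tangent. -/
def ath (x : ℝ) : ℝ := (Real.log (1 + x) - Real.log (1 - x)) / 2

lemma hasDerivAt_ath {x : ℝ} (hx : |x| < 1) : HasDerivAt ath (1 / (1 - x ^ 2)) x := by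
  obtain ⟨h1, h2⟩ := abs_lt.1 hx
  have a1 : (1 + x) ≠ 0 := by linarith |> ne_of_gt
  have a2 : (1 - x) ≠ 0 := by linarith |> ne_of_gt
  have d1 : HasDerivAt (fun x : ℝ => Real.log (1 + x)) (1 / (1 + x)) x :=
    ((hasDerivAt_id x).const_add 1).log a1
  have d2 : HasDerivAt (fun x : ℝ => Real.log (1 - x)) (-1 / (1 - x)) x :=
    ((hasDerivAt_id x).const_sub 1).log a2
  have a3 : 1 - x ^ 2 ≠ 0 := by
    rw [show 1 - x ^ 2 = (1 + x) * (1 - x) by ring]; exact mul_ne_zero a1 a2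
  have e : 1 / (1 - x ^ 2) = (1 / (1 + x) - -1 / (1 - x)) / 2 := by
    field_simp
    ring
  rw [e]
  exact (d1.sub d2).div_const 2

lemma ath_op {x y : ℝ} (hx : |x| < 1) (hy : |y| ≤ 3 / 4) : ath (op x y) = ath x + ath y := by
  have hp : 1 + x * y ≠ 0 := by linarith [one_add_mul_pos hx.le hy] |> ne_of_gt
  obtain ⟨h1, h2⟩ := abs_lt.1 hx
  obtain ⟨h3, h4⟩ := abs_le.1 hy
  have a1 : (1 + x) ≠ 0 := by linarith |> ne_of_gt
  have a2 : (1 - x) ≠ 0 := by linarith |> ne_of_gt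
  have a3 : (1 + y) ≠ 0 := by linarith |> ne_of_gt
  have a4 : (1 - y) ≠ 0 := by linarith |> ne_of_gt
  have e1 : 1 + op x y = (1 + x) * (1 + y) / (1 + x * y) := by
    unfold op; field_simp; ring
  have e2 : 1 - op x y = (1 - x) * (1 - y) / (1 + x * y) := by
    unfold op; field_simp; ring
  unfold ath
  rw [e1, e2, Real.log_div (mul_ne_zero a1 a3) hp, Real.log_div (mul_ne_zero a2 a4) hp,
    Real.log_mul a1 a3, Real.log_mul a2 a4]
  ring

lemma le_of_deriv_nonneg {F F' : ℝ → ℝ} {r x y : ℝ}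
    (hF : ∀ t, |t| ≤ r → HasDerivAt F (F' t) t) (hF' : ∀ t, |t| ≤ r → 0 ≤ F' t)
    (hx : |x| ≤ r) (hy : |y| ≤ r) (hxy : x ≤ y) : F x ≤ F y := by
  have hm : MonotoneOn F (Set.Icc (-r) r) := by
    refine monotoneOn_of_deriv_nonneg (convex_Icc _ _) ?_ ?_ ?_
    · intro t ht
      exact (hF t (abs_le.2 ht)).continuousAt.continuousWithinAt
    · intro t ht
      have ht0 : t ∈ Set.Icc (-r) r := interior_subset ht
      exact (hF t (abs_le.2 ht0)).differentiableAt.differentiableWithinAt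
    · intro t ht
      have ht0 : t ∈ Set.Icc (-r) r := interior_subset ht
      have ht' : |t| ≤ r := abs_le.2 ht0
      rw [(hF t ht').deriv]
      exact hF' t ht'
  exact hm (abs_le.1 hx) (abs_le.1 hy) hxy

/-- Comparison of increments from a comparison of derivatives. -/
lemma abs_sub_le_of_deriv {F F' G G' : ℝ → ℝ} {r x y : ℝ}
    (hF : ∀ t, |t| ≤ r → HasDerivAt F (F' t) t) (hG : ∀ t, |t| ≤ r → HasDerivAt G (G' t) t)
    (h0 : ∀ t, |t| ≤ r → 0 ≤ F' t) (h1 : ∀ t, |t| ≤ r → F' t ≤ G' t)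
    (hx : |x| ≤ r) (hy : |y| ≤ r) : |F x - F y| ≤ |G x - G y| := by
  wlog hxy : y ≤ x generalizing x y
  · rw [abs_sub_comm (F x), abs_sub_comm (G x)]
    exact this hy hx (le_of_not_ge hxy)
  have a := le_of_deriv_nonneg hF h0 hy hx hxy
  have b := le_of_deriv_nonneg (F := fun t => G t - F t) (F' := fun t => G' t - F' t)
    (fun t ht => (hG t ht).sub (hF t ht)) (fun t ht => sub_nonneg.2 (h1 t ht)) hy hx hxy
  rw [abs_of_nonneg (sub_nonneg.2 a)]
  refine le_trans ?_ (le_abs_self _)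
  linarith

lemma sq_lt_one_of_le {t r : ℝ} (ht : |t| ≤ r) (hr : r < 1) : t ^ 2 < 1 := by
  rw [sq_lt_one_iff_abs_lt_one]; exact ht.trans_lt hr

lemma abs_sub_le_ath {r x y : ℝ} (hr : r < 1) (hx : |x| ≤ r) (hy : |y| ≤ r) :
    |x - y| ≤ |ath x - ath y| := by
  refine abs_sub_le_of_deriv (F := fun t => t) (F' := fun _ => 1) (G := ath)
    (G' := fun t => 1 / (1 - t ^ 2)) (fun t _ => hasDerivAt_id t)
    (fun t ht => hasDerivAt_ath (ht.trans_lt hr)) (fun _ _ => zero_le_one) (fun t ht => ?_) hx hy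
  have := sq_lt_one_of_le ht hr
  rw [le_div_iff₀ (by linarith)]
  nlinarith [sq_nonneg t]

lemma ath_sub_le {r x y : ℝ} (hr : r < 1) (hx : |x| ≤ r) (hy : |y| ≤ r) :
    |ath x - ath y| ≤ 1 / (1 - r ^ 2) * |x - y| := by
  have hr0 : 0 ≤ r := (abs_nonneg _).trans hx
  have hr2 : 0 < 1 - r ^ 2 := by nlinarith
  have := abs_sub_le_of_deriv (G := fun t => 1 / (1 - r ^ 2) * t)
    (G' := fun _ => 1 / (1 - r ^ 2) * 1) (F := ath)
    (F' := fun t => 1 / (1 - t ^ 2)) (fun t ht => hasDerivAt_ath (ht.trans_lt hr))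
    (fun t _ => (hasDerivAt_id t).const_mul _) (fun t ht => ?_) (fun t ht => ?_) hx hy
  · rwa [← mul_sub, abs_mul, abs_of_pos (one_div_pos.2 hr2)] at this
  · have := sq_lt_one_of_le ht hr
    exact div_nonneg zero_le_one (by linarith)
  · rw [mul_one]
    have : t ^ 2 ≤ r ^ 2 := by rw [← sq_abs t]; exact pow_le_pow_left₀ (abs_nonneg _) ht 2
    exact one_div_le_one_div_of_le hr2 (by linarith)

lemma ath_mul_sub_le {θ r x y : ℝ} (h0 : 0 ≤ θ) (h1 : θ ≤ 1) (hr : r < 1) (hx : |x| ≤ r)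
    (hy : |y| ≤ r) : |ath (θ * x) - ath (θ * y)| ≤ θ * |ath x - ath y| := by
  have hb : ∀ t, |t| ≤ r → |θ * t| ≤ r := fun t ht => by
    rw [abs_mul, abs_of_nonneg h0]
    exact (mul_le_of_le_one_left (abs_nonneg _) h1).trans ht
  have := abs_sub_le_of_deriv (G := fun t => θ * ath t)
    (G' := fun t => θ * (1 / (1 - t ^ 2))) (F := fun t => ath (θ * t))
    (F' := fun t => 1 / (1 - (θ * t) ^ 2) * (θ * 1))
    (fun t ht => (hasDerivAt_ath ((hb t ht).trans_lt hr)).comp t ((hasDerivAt_id t).const_mul θ))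
    (fun t ht => (hasDerivAt_ath (ht.trans_lt hr)).const_mul θ) (fun t ht => ?_) (fun t ht => ?_)
    hx hy
  · rwa [← mul_sub, abs_mul, abs_of_nonneg h0] at this
  · have := sq_lt_one_of_le (hb t ht) hr
    exact mul_nonneg (div_nonneg zero_le_one (by linarith)) (by linarith)
  · have a := sq_lt_one_of_le ht hr
    rw [mul_one, mul_comm]
    refine mul_le_mul_of_nonneg_left (one_div_le_one_div_of_le (by linarith) ?_) h0
    have : θ ^ 2 ≤ 1 := by nlinarith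
    rw [mul_pow]
    nlinarith [sq_nonneg t]

lemma cavity_est {θ ν : ℝ} (h0 : 0 ≤ θ) (hθ : θ ≤ 3 / 4) (hν : ν < 1) :
    ∃ L : ℝ, 0 ≤ L ∧ ∀ n n' k k' : ℝ, |n| ≤ ν → |n'| ≤ ν → |k| ≤ ν → |k'| ≤ ν →
      |n - k| ≤ L * (|op n' (θ * n) - op k' (θ * k)| + |op n (θ * n') - op k (θ * k')|) := by
  set r : ℝ := 1 - (1 - ν) / 8 with hr
  have hr1 : r < 1 := by rw [hr]; linarith
  refine ⟨3 * |1 / (1 - r ^ 2)|, by positivity, fun n n' k k' hn hn' hk hk' => ?_⟩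
  have hb : ∀ t, |t| ≤ ν → |θ * t| ≤ 3 / 4 := fun t ht => by
    rw [abs_mul, abs_of_nonneg h0]
    exact (mul_le_of_le_one_right h0 (ht.trans hν.le)).trans hθ
  have hop : ∀ a b, |a| ≤ ν → |b| ≤ ν → |op a (θ * b)| ≤ r := fun a b ha hb' => by
    have := one_sub_abs_op (ha.trans hν.le) (hb b hb')
    rw [hr]; linarith
  have e1 := ath_sub_le hr1 (hop n' n hn' hn) (hop k' k hk' hk)
  have e2 := ath_sub_le hr1 (hop n n' hn hn') (hop k k' hk hk')
  rw [ath_op (hn'.trans_lt hν) (hb n hn), ath_op (hk'.trans_lt hν) (hb k hk)] at e1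
  rw [ath_op (hn.trans_lt hν) (hb n' hn'), ath_op (hk.trans_lt hν) (hb k' hk')] at e2
  have c1 := ath_mul_sub_le h0 (by linarith) hν hn hk
  have c2 := ath_mul_sub_le h0 (by linarith) hν hn' hk'
  have c3 := abs_sub_le_ath hν hn hk
  set C := 1 / (1 - r ^ 2)
  set A := |op n' (θ * n) - op k' (θ * k)|
  set B := |op n (θ * n') - op k (θ * k')|
  have hA : 0 ≤ A := abs_nonneg _
  have hB : 0 ≤ B := abs_nonneg _
  have e1' : C * A ≤ |C| * A := mul_le_mul_of_nonneg_right (le_abs_self _) hA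
  have e2' : C * B ≤ |C| * B := mul_le_mul_of_nonneg_right (le_abs_self _) hB
  have hCA : 0 ≤ |C| * A := by positivity
  have hCB : 0 ≤ |C| * B := by positivity
  set u := |ath n - ath k|
  set v := |ath n' - ath k'|
  have hu : 0 ≤ u := abs_nonneg _
  have hv : 0 ≤ v := abs_nonneg _
  have c1' : θ * u ≤ 3 / 4 * u := mul_le_mul_of_nonneg_right hθ hu
  have c2' : θ * v ≤ 3 / 4 * v := mul_le_mul_of_nonneg_right hθ hv
  have f1 : v ≤ |C| * A + 3 / 4 * u := by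
    have : ath n' - ath k' = (ath n' + ath (θ * n) - (ath k' + ath (θ * k))) -
      (ath (θ * n) - ath (θ * k)) := by ring
    calc v = |(ath n' + ath (θ * n) - (ath k' + ath (θ * k))) -
      (ath (θ * n) - ath (θ * k))| := by rw [← this]
      _ ≤ _ := abs_sub _ _
      _ ≤ _ := by linarith
  have f2 : u ≤ |C| * B + 3 / 4 * v := by
    have : ath n - ath k = (ath n + ath (θ * n') - (ath k + ath (θ * k'))) -
      (ath (θ * n') - ath (θ * k')) := by ring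
    calc u = |(ath n + ath (θ * n') - (ath k + ath (θ * k'))) -
      (ath (θ * n') - ath (θ * k'))| := by rw [← this]
      _ ≤ _ := abs_sub _ _
      _ ≤ _ := by linarith
  nlinarith

/-- The cavity magnetisation is a Lipschitz function of the two endpoint magnetisations.
Proof: in the coordinate `artanh`, `op` is addition and `x ↦ θ x` is a `θ`-contraction; extend
with `LipschitzOnWith.extend_real`. -/
lemma exists_cavity_inverse {θ ν : ℝ} (h0 : 0 ≤ θ) (hθ : θ ≤ 3 / 4) (hν : ν < 1) :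
    ∃ (Λ : ℝ × ℝ → ℝ) (L : ℝ), 0 ≤ L ∧
      (∀ p q : ℝ × ℝ, |Λ p - Λ q| ≤ L * (|p.1 - q.1| + |p.2 - q.2|)) ∧
      ∀ n n' : ℝ, |n| ≤ ν → |n'| ≤ ν → Λ (op n' (θ * n), op n (θ * n')) = n := by
  obtain ⟨L, hL, hest⟩ := cavity_est h0 hθ hν
  let Φ : ℝ × ℝ → ℝ × ℝ := fun z => (op z.2 (θ * z.1), op z.1 (θ * z.2))
  let S : Set (ℝ × ℝ) := {z | |z.1| ≤ ν ∧ |z.2| ≤ ν}
  let f : ℝ × ℝ → ℝ := fun p => (Function.invFunOn Φ S p).1
  have hf : ∀ z ∈ S, f (Φ z) = z.1 := by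
    intro z hz
    have h1 : Function.invFunOn Φ S (Φ z) ∈ S := Function.invFunOn_apply_mem hz
    have h2 : Φ (Function.invFunOn Φ S (Φ z)) = Φ z := Function.invFunOn_apply_eq hz
    have h3 := hest _ _ _ _ h1.1 h1.2 hz.1 hz.2
    have h4 := congrArg Prod.fst h2
    have h5 := congrArg Prod.snd h2
    simp only [Φ] at h4 h5
    simp only [Φ] at h3
    rw [h4, h5] at h3
    simpa [sub_eq_zero] using h3
  have hlip : LipschitzOnWith (⟨2 * L, by positivity⟩ : NNReal) f (Φ '' S) := by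
    refine LipschitzOnWith.of_dist_le_mul ?_
    rintro _ ⟨z, hz, rfl⟩ _ ⟨w, hw, rfl⟩
    rw [hf z hz, hf w hw, Real.dist_eq]
    have h3 := hest _ _ _ _ hz.1 hz.2 hw.1 hw.2
    have a1 : |(Φ z).1 - (Φ w).1| ≤ dist (Φ z) (Φ w) := by
      rw [← Real.dist_eq, Prod.dist_eq]; exact le_max_left _ _
    have a2 : |(Φ z).2 - (Φ w).2| ≤ dist (Φ z) (Φ w) := by
      rw [← Real.dist_eq, Prod.dist_eq]; exact le_max_right _ _
    refine h3.trans ?_
    have : L * (|(Φ z).1 - (Φ w).1| + |(Φ z).2 - (Φ w).2|) ≤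
        L * (dist (Φ z) (Φ w) + dist (Φ z) (Φ w)) := mul_le_mul_of_nonneg_left (by linarith) hL
    change L * (|(Φ z).1 - (Φ w).1| + |(Φ z).2 - (Φ w).2|) ≤ 2 * L * dist (Φ z) (Φ w)
    linarith
  obtain ⟨g, hg, hfg⟩ := hlip.extend_real
  refine ⟨g, 2 * L, by positivity, fun p q => ?_, fun n n' hn hn' => ?_⟩
  · have := hg.dist_le_mul p q
    rw [Real.dist_eq] at this
    refine this.trans ?_
    change 2 * L * dist p q ≤ _
    refine mul_le_mul_of_nonneg_left ?_ (by positivity)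
    rw [Prod.dist_eq, Real.dist_eq, Real.dist_eq]
    exact max_le (le_add_of_nonneg_right (abs_nonneg _)) (le_add_of_nonneg_left (abs_nonneg _))
  · have hz : ((n, n') : ℝ × ℝ) ∈ S := ⟨hn, hn'⟩
    have := hfg (Set.mem_image_of_mem Φ hz)
    rw [hf _ hz] at this
    exact this.symm

lemma abs_log_sub_log_le {a b δ : ℝ} (hδ : 0 < δ) (ha : δ ≤ a) (hb : δ ≤ b) :
    |Real.log a - Real.log b| ≤ |a - b| / δ := by
  wlog h : b ≤ a generalizing a b
  · rw [abs_sub_comm (Real.log a), abs_sub_comm a]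
    exact this hb ha (le_of_not_ge h)
  have hb0 : 0 < b := hδ.trans_le hb
  have ha0 : 0 < a := hδ.trans_le ha
  rw [abs_of_nonneg (sub_nonneg.2 (Real.log_le_log hb0 h)), abs_of_nonneg (sub_nonneg.2 h),
    ← Real.log_div ha0.ne' hb0.ne']
  calc Real.log (a / b) ≤ a / b - 1 := Real.log_le_sub_one_of_pos (div_pos ha0 hb0)
    _ = (a - b) / b := by field_simp
    _ ≤ (a - b) / δ := div_le_div_of_nonneg_left (sub_nonneg.2 h) hδ hb

lemma exists_log_rho_bound {θ ν : ℝ} (hθ : θ ^ 2 ≤ 1 / 2) (hν : ν < 1) :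
    ∃ c : ℝ, 0 ≤ c ∧ (∀ n, |n| ≤ ν → |Real.log (rho θ n)| ≤ c) ∧
      (∀ n n' M : ℝ, |n| ≤ ν → |n'| ≤ ν → |n| ≤ M → |n'| ≤ M →
        |Real.log (rho θ n) - Real.log (rho θ n')| ≤ c * M * |n - n'|) := by
  rcases lt_or_ge ν 0 with hν0 | hν0
  · exact ⟨0, le_rfl, fun n hn => absurd ((abs_nonneg _).trans hn) (not_le.2 hν0),
      fun n _ _ hn => absurd ((abs_nonneg _).trans hn) (not_le.2 hν0)⟩
  set δ : ℝ := 1 - ν ^ 2 with hδ
  have hδ0 : 0 < δ := by rw [hδ]; nlinarith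
  have h1 : ∀ n, |n| ≤ ν → δ ≤ 1 - n ^ 2 := fun n hn => by
    have : n ^ 2 ≤ ν ^ 2 := by rw [← sq_abs n]; exact pow_le_pow_left₀ (abs_nonneg _) hn 2
    rw [hδ]; linarith
  have h2 : ∀ n, |n| ≤ ν → 1 / 2 ≤ 1 - θ ^ 2 * n ^ 2 := fun n hn => by
    have := sq_lt_one_of_le hn hν
    nlinarith [sq_nonneg θ, sq_nonneg n]
  have main : ∀ n n' M : ℝ, |n| ≤ ν → |n'| ≤ ν → |n| ≤ M → |n'| ≤ M →
        |Real.log (rho θ n) - Real.log (rho θ n')| ≤ (2 / δ + 2) * M * |n - n'| := by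
    intro n n' M hn hn' hM hM'
    have a1 := abs_log_sub_log_le hδ0 (h1 n hn) (h1 n' hn')
    have a2 := abs_log_sub_log_le (by norm_num) (h2 n hn) (h2 n' hn')
    have hsq : |n ^ 2 - n' ^ 2| ≤ 2 * M * |n - n'| := by
      rw [show n ^ 2 - n' ^ 2 = (n + n') * (n - n') by ring, abs_mul]
      exact mul_le_mul_of_nonneg_right ((abs_add_le _ _).trans (by linarith)) (abs_nonneg _)
    have b1 : |1 - n ^ 2 - (1 - n' ^ 2)| = |n ^ 2 - n' ^ 2| := by
      rw [abs_sub_comm]; congr 1; ring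
    have b2 : |1 - θ ^ 2 * n ^ 2 - (1 - θ ^ 2 * n' ^ 2)| = θ ^ 2 * |n ^ 2 - n' ^ 2| := by
      rw [abs_sub_comm, show 1 - θ ^ 2 * n' ^ 2 - (1 - θ ^ 2 * n ^ 2) =
        θ ^ 2 * (n ^ 2 - n' ^ 2) by ring, abs_mul, abs_of_nonneg (sq_nonneg θ)]
    rw [b1] at a1
    rw [b2] at a2
    unfold rho
    rw [Real.log_div (by linarith [h1 n hn]) (by linarith [h2 n hn]),
      Real.log_div (by linarith [h1 n' hn']) (by linarith [h2 n' hn'])]
    have c1 : |n ^ 2 - n' ^ 2| / δ ≤ 2 * M * |n - n'| / δ :=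
      div_le_div_of_nonneg_right hsq hδ0.le
    have c2 : θ ^ 2 * |n ^ 2 - n' ^ 2| ≤ 1 / 2 * |n ^ 2 - n' ^ 2| :=
      mul_le_mul_of_nonneg_right hθ (abs_nonneg _)
    calc _ = |(Real.log (1 - n ^ 2) - Real.log (1 - n' ^ 2)) -
          (Real.log (1 - θ ^ 2 * n ^ 2) - Real.log (1 - θ ^ 2 * n' ^ 2))| := by congr 1; ring
      _ ≤ _ := abs_sub _ _
      _ ≤ 2 * M * |n - n'| / δ + 2 * M * |n - n'| := by
        have : θ ^ 2 * |n ^ 2 - n' ^ 2| / (1 / 2) = 2 * (θ ^ 2 * |n ^ 2 - n' ^ 2|) := by ring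
        linarith
      _ = _ := by ring
  refine ⟨2 / δ + 2, by positivity, fun n hn => ?_, main⟩
  have := main n 0 1 hn (by simpa using hν0) (hn.trans hν.le) (by simp)
  simp only [rho, ne_eq, OfNat.ofNat_ne_zero, not_false_eq_true, zero_pow, sub_zero, mul_zero,
    div_one, Real.log_one, mul_one] at this
  refine this.trans ?_
  exact mul_le_of_le_one_right (by positivity) (hn.trans hν.le)

lemma exp_mul_le {θ x : ℝ} (h0 : 0 ≤ θ) (h1 : θ ≤ 1) (hx : 0 ≤ x) :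
    Real.exp (θ * x) ≤ 1 + θ * x + θ ^ 2 * x ^ 2 / 2 + θ ^ 3 * (Real.exp x - 1) := by
  have hs : ∀ y : ℝ, HasSum (fun k : ℕ => y ^ (k + 3) / ((k + 3).factorial : ℝ))
      (Real.exp y - (1 + y + y ^ 2 / 2)) := by
    intro y
    have h := NormedSpace.expSeries_div_hasSum_exp (𝔸 := ℝ) y
    rw [← Real.exp_eq_exp_ℝ] at h
    have := (hasSum_nat_add_iff' 3).2 h
    have e : ∑ i ∈ Finset.range 3, y ^ i / (i.factorial : ℝ) = 1 + y + y ^ 2 / 2 := by
      simp [Finset.sum_range_succ, Nat.factorial]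
    rw [e] at this
    exact this
  have hle := hasSum_le (fun k => ?_) (hs (θ * x)) ((hs x).mul_left (θ ^ 3))
  · have : 0 ≤ θ ^ 3 * (x + x ^ 2 / 2) := by positivity
    rw [mul_pow] at hle
    nlinarith
  · rw [mul_pow, mul_div_assoc]
    refine mul_le_mul_of_nonneg_right ?_ (by positivity)
    exact pow_le_pow_of_le_one h0 h1 (by omega)

end Crest.Agent.R160

end
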