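import Crest.Agent.R160.Model
import Crest.Agent.R160.Scalar2

/-! Row 160: measurability, pointwise facts, order of the σ-algebras, local inclusions. -/

noncomputable section

namespace Crest.Agent.R160

open Classical MeasureTheory ProbabilityTheory

universe u

/-! ### Records -/

lemma measurable_act {V : Type u} (ε : ℝ) : Measurable (act ε : Data V → Data V) := by
  exact measurable_pi_lambda _ fun w =>
    (measurable_pi_apply w).fst.prodMk (measurable_const.mul (measurable_pi_apply w).snd)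

lemma measurable_act₂ {V : Type u} {α : Type*} {m : MeasurableSpace α} {f : α → ℝ}
    {g : α → Data V} (hf : Measurable[m] f) (hg : Measurable[m] g) :
    Measurable[m] (fun x => act (f x) (g x)) := by
  exact measurable_pi_lambda _ fun w =>
    ((measurable_pi_apply w).comp hg).fst.prodMk (hf.mul ((measurable_pi_apply w).comp hg).snd)

lemma act_act {V : Type u} (ε ε' : ℝ) (d : Data V) : act ε (act ε' d) = act (ε * ε') d := by
  funext w
  simp only [act, mul_assoc]

@[simp] lemma act_one {V : Type u} (d : Data V) : act 1 d = d := by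
  funext w
  simp [act]

lemma supp_res {V : Type u} (th : V × ℕ → ℝ) (B : Set V) : Supp (res th B) B := by
  intro w hw
  by_contra h
  simp [res, h] at hw

lemma Supp.mono {V : Type u} {th : V × ℕ → ℝ} {B B' : Set V} (h : Supp th B) (hB : B ⊆ B') :
    Supp th B' := by
  exact fun w hw => hB (h w hw)

lemma res_res {V : Type u} (th : V × ℕ → ℝ) (B B' : Set V) :
    res (res th B) B' = res th (B ∩ B') := by
  funext w
  by_cases h : w.1 ∈ B <;> by_cases h' : w.1 ∈ B' <;> simp [res, h, h']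

/-- Forget everything revealed at or after time `r`. -/
def trunc {V : Type u} (r : ℝ) (d : Data V) : Data V :=
  fun w => if 0 ≤ (d w).1 ∧ (d w).1 < r then d w else (-1, 0)

lemma measurable_trunc {V : Type u} {α : Type*} {m : MeasurableSpace α} {f : α → ℝ}
    {g : α → Data V} (hf : Measurable[m] f) (hg : Measurable[m] g) :
    Measurable[m] (fun x => trunc (f x) (g x)) := by
  refine measurable_pi_lambda _ fun w => ?_
  have hw : Measurable[m] (fun x => g x w) := (measurable_pi_apply w).comp hg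
  exact Measurable.ite ((measurableSet_le measurable_const hw.fst).inter
    (measurableSet_lt hw.fst hf)) hw measurable_const

/-! ### Local inclusions of σ-algebras -/

section Loc

variable {Ω : Type*} {E E' : Set Ω} {m m' m'' : MeasurableSpace Ω}

lemma Loc.of_le (h : m ≤ m') (hE : MeasurableSet[m'] E) : Loc E m m' := by
  exact ⟨hE, fun A hA => MeasurableSet.inter (h A hA) hE⟩

lemma Loc.mono (h : Loc E m m') {m₁ m₂ : MeasurableSpace Ω} (h₁ : m₁ ≤ m) (h₂ : m' ≤ m₂) :
    Loc E m₁ m₂ := by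
  exact ⟨h₂ _ h.1, fun A hA => h₂ _ (h.2 A (h₁ _ hA))⟩

/-- Shrinking the event. -/
lemma Loc.subset (h : Loc E m m') (hE : E' ⊆ E) (hE' : MeasurableSet[m'] E') : Loc E' m m' := by
  refine ⟨hE', fun A hA => ?_⟩
  have := MeasurableSet.inter (h.2 A hA) hE'
  rwa [Set.inter_assoc, Set.inter_eq_right.2 hE] at this

lemma Loc.sup {m₁ m₂ : MeasurableSpace Ω} (h₁ : Loc E m₁ m') (h₂ : Loc E m₂ m') :
    Loc E (m₁ ⊔ m₂) m' := by
  refine ⟨h₁.1, ?_⟩
  let K : MeasurableSpace Ω :=
    { MeasurableSet' := fun A => MeasurableSet[m'] (A ∩ E)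
      measurableSet_empty := by simp
      measurableSet_compl := fun A hA => by
        have : Aᶜ ∩ E = E \ (A ∩ E) := by
          ext ω; simp only [Set.mem_inter_iff, Set.mem_compl_iff, Set.mem_sdiff]; tauto
        rw [this]
        exact MeasurableSet.diff h₁.1 hA
      measurableSet_iUnion := fun f hf => by
        rw [Set.iUnion_inter]
        exact MeasurableSet.iUnion hf }
  have : m₁ ⊔ m₂ ≤ K := sup_le (fun A hA => h₁.2 A hA) (fun A hA => h₂.2 A hA)
  exact fun A hA => this A hA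

lemma Loc.trans (h : Loc E m m') (h' : Loc E m' m'') : Loc E m m'' := by
  refine ⟨h'.1, fun A hA => ?_⟩
  have := h'.2 _ (h.2 A hA)
  rwa [Set.inter_assoc, Set.inter_self] at this

/-- A variable that agrees on `E` with an `m'`-measurable one. -/
lemma Loc.comap {β : Type*} [mβ : MeasurableSpace β] {X X' : Ω → β} (hE : MeasurableSet[m'] E)
    (hX' : Measurable[m'] X') (h : ∀ ω ∈ E, X ω = X' ω) : Loc E (mβ.comap X) m' := by
  refine ⟨hE, ?_⟩
  rintro A ⟨B, hB, rfl⟩
  have : X ⁻¹' B ∩ E = X' ⁻¹' B ∩ E := by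
    ext ω
    simp only [Set.mem_inter_iff, Set.mem_preimage]
    constructor
    · rintro ⟨h1, h2⟩; exact ⟨h ω h2 ▸ h1, h2⟩
    · rintro ⟨h1, h2⟩; exact ⟨(h ω h2).symm ▸ h1, h2⟩
  rw [this]
  exact MeasurableSet.inter (hX' hB) hE

lemma Loc.measurable_ite (h : Loc E m m') {β : Type*} [mβ : MeasurableSpace β] {f : Ω → β}
    (hf : Measurable[m] f) (c : β) :
    Measurable[m'] (fun ω => if ω ∈ E then f ω else c) := by
  intro B hB
  by_cases hc : c ∈ B
  · have : (fun ω => if ω ∈ E then f ω else c) ⁻¹' B = (f ⁻¹' B ∩ E) ∪ Eᶜ := by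
      ext ω
      by_cases hω : ω ∈ E <;> simp [hω, hc]
    rw [this]
    exact MeasurableSet.union (h.2 _ (hf hB)) (MeasurableSet.compl h.1)
  · have : (fun ω => if ω ∈ E then f ω else c) ⁻¹' B = f ⁻¹' B ∩ E := by
      ext ω
      by_cases hω : ω ∈ E <;> simp [hω, hc]
    rw [this]
    exact h.2 _ (hf hB)

lemma Loc.measurable_indicator (h : Loc E m m') {f : Ω → ℝ} (hf : Measurable[m] f) :
    Measurable[m'] (E.indicator f) := by
  have := h.measurable_ite hf 0
  convert this using 2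
  simp [Set.indicator]

/-- A function vanishing off `E`. -/
lemma Loc.measurable_of_zero (h : Loc E m m') {f : Ω → ℝ} (hf : Measurable[m] f)
    (h0 : ∀ ω, ω ∉ E → f ω = 0) : Measurable[m'] f := by
  have h1 : f = E.indicator f := by
    funext ω
    by_cases hω : ω ∈ E
    · simp [hω]
    · simp [hω, h0 ω hω]
  rw [h1]
  exact h.measurable_indicator hf

/-- Conditional expectations are local. -/
lemma Loc.condExp_eq {mΩ : MeasurableSpace Ω} {P : Measure Ω} [IsProbabilityMeasure P]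
    {m m' : MeasurableSpace Ω} (hm : m ≤ mΩ) (hm' : m' ≤ mΩ) (h : Loc E m m') (h' : Loc E m' m)
    {f : Ω → ℝ} (hf : Integrable f P) :
    ∀ᵐ ω ∂P, ω ∈ E → P[f | m] ω = P[f | m'] ω := by
  have hE : MeasurableSet[mΩ] E := hm' _ h.1
  have key : E.indicator (P[f | m]) =ᵐ[P] E.indicator (P[f | m']) := by
    refine ae_eq_of_forall_setIntegral_eq_of_sigmaFinite' hm' ?_ ?_ ?_ ?_ ?_
    · intro s _ _
      exact (integrable_condExp.indicator hE).integrableOn
    · intro s _ _
      exact (integrable_condExp.indicator hE).integrableOn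
    · intro s hs _
      rw [setIntegral_indicator hE, setIntegral_indicator hE,
        setIntegral_condExp hm hf (h'.2 s hs),
        setIntegral_condExp hm' hf (MeasurableSet.inter hs h.1)]
    · exact (h.measurable_indicator
        (stronglyMeasurable_condExp (m := m)).measurable).stronglyMeasurable.aestronglyMeasurable
    · exact ((stronglyMeasurable_condExp (m := m')).indicator h.1).aestronglyMeasurable
  filter_upwards [key] with ω hω hωE
  simpa [hωE] using hω

end Loc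

namespace Setup

variable {V : Type u} (S : Setup V)

/-! ### Pointwise facts -/

lemma tau_symm (x y : V) (ω : S.Om) : S.tau x y ω = S.tau y x ω := by
  unfold tau
  by_cases h : S.G.Adj x y
  · have e : (⟨s(x, y), h⟩ : S.G.edgeSet) = ⟨s(y, x), h.symm⟩ := Subtype.ext Sym2.eq_swap
    rw [dif_pos h, dif_pos h.symm, e]
  · rw [dif_neg h, dif_neg (fun h' => h h'.symm)]

lemma tau_cases (x y : V) (ω : S.Om) : S.tau x y ω = 1 ∨ S.tau x y ω = -1 := by
  unfold tau
  split_ifs <;> simp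

lemma σ_cases (v : V) (ω : S.Om) : S.σ v ω = 1 ∨ S.σ v ω = -1 := by
  have h1 : S.Pi (fun x y => S.tau x y ω) S.o v = 1 ∨ S.Pi (fun x y => S.tau x y ω) S.o v = -1 := by
    unfold Pi
    refine Finset.prod_induction _ (fun r : ℝ => r = 1 ∨ r = -1) ?_ (Or.inl rfl) ?_
    · rintro a b (rfl | rfl) (rfl | rfl) <;> simp
    · intro i _; exact S.tau_cases _ _ _
  unfold σ sgn
  rcases h1 with h | h <;> rw [h] <;> split_ifs <;> simp

lemma σ_mul_self (v : V) (ω : S.Om) : S.σ v ω * S.σ v ω = 1 := by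
  rcases S.σ_cases v ω with h | h <;> simp [h]

lemma abs_σ (v : V) (ω : S.Om) : |S.σ v ω| = 1 := by
  rcases S.σ_cases v ω with h | h <;> simp [h]

lemma σ_o (ω : S.Om) : S.σ S.o ω = sgn ω.1 := by
  simp [σ]

lemma σ_mul_adj {x y : V} (h : S.G.Adj x y) (ω : S.Om) :
    S.σ x ω * S.σ y ω = S.tau x y ω := by
  have key : ∀ {x y : V}, S.G.Adj x y → S.o ∈ S.sub y x → S.σ x ω * S.σ y ω = S.tau x y ω := by
    intro x y h ho
    have h1 : S.σ y ω = S.σ x ω * S.tau x y ω := by
      unfold σ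
      rw [S.Pi_snoc _ h ho, mul_assoc]
    rw [h1, ← mul_assoc, S.σ_mul_self, one_mul]
  by_cases ho : S.o ∈ S.sub y x
  · exact key h ho
  · rw [mul_comm, S.tau_symm]
    exact key h.symm ((S.not_mem_sub_iff h.symm _).1 ho)

lemma σ_mul (x y : V) (ω : S.Om) :
    S.σ x ω * S.σ y ω = S.Pi (fun p q => S.tau p q ω) x y := by
  refine S.induction_from x
    (p := fun v => S.σ x ω * S.σ v ω = S.Pi (fun p q => S.tau p q ω) x v) ?_ ?_ y
  · rw [S.σ_mul_self, S.Pi_self]
  · intro y z h hx ih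
    rw [S.Pi_snoc _ h hx, ← ih, ← S.σ_mul_adj h, mul_assoc, ← mul_assoc (S.σ y ω), S.σ_mul_self,
      one_mul]

lemma T_nonneg (w : V × ℕ) (ω : S.Om) : 0 ≤ S.T w ω := (ω.2 (S.iT w)).2.1
lemma T_le_one (w : V × ℕ) (ω : S.Om) : S.T w ω ≤ 1 := (ω.2 (S.iT w)).2.2
lemma eta_nonneg (w : V × ℕ) (ω : S.Om) : 0 ≤ S.eta w ω := (ω.2 (S.iN w)).2.1
lemma eta_le_one (w : V × ℕ) (ω : S.Om) : S.eta w ω ≤ 1 := (ω.2 (S.iN w)).2.2

lemma tm_nonneg (w : V × ℕ) (ω : S.Om) : 0 ≤ S.tm w ω := by
  have := S.T_nonneg w ω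
  unfold tm
  positivity

lemma le_tm (w : V × ℕ) (ω : S.Om) : (w.2 : ℝ) ≤ S.tm w ω := by
  have := S.T_nonneg w ω
  unfold tm
  linarith

lemma tm_le (w : V × ℕ) (ω : S.Om) : S.tm w ω ≤ w.2 + 1 := by
  have := S.T_le_one w ω
  unfold tm
  linarith

lemma a_nonneg (w : V × ℕ) (ω : S.Om) : 0 ≤ S.a w ω := by
  exact aa_nonneg (S.T_nonneg w ω) (S.T_le_one w ω)

lemma a_le (w : V × ℕ) (ω : S.Om) : S.a w ω ≤ 1 / 4 := by
  exact aa_le _

lemma abs_Yh_le (w : V × ℕ) (ω : S.Om) : |S.Yh w ω| ≤ 1 := by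
  exact abs_Qi_le (S.eta_nonneg w ω) (S.eta_le_one w ω)
    (by rw [abs_of_nonneg (S.a_nonneg w ω)]; exact S.a_le w ω)

lemma abs_Y_le (w : V × ℕ) (ω : S.Om) : |S.Y w ω| ≤ 1 := by
  unfold Y
  rw [abs_mul, S.abs_σ, one_mul]
  exact S.abs_Yh_le w ω

lemma abs_M_le (w : V × ℕ) (ω : S.Om) : |S.M w ω| ≤ 1 := abs_cE_le _ _ _

lemma abs_aM_le (w : V × ℕ) (ω : S.Om) : |S.a w ω * S.M w ω| ≤ 1 / 4 := by
  exact abs_mul_le_quarter (S.a_nonneg w ω) (S.a_le w ω) (S.abs_M_le w ω)

lemma U_nonneg (w : V × ℕ) (ω : S.Om) : 0 ≤ S.U w ω := by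
  exact Fc_nonneg (S.abs_Y_le w ω) (S.abs_aM_le w ω)

lemma U_le_one (w : V × ℕ) (ω : S.Om) : S.U w ω ≤ 1 := by
  exact Fc_le_one (S.abs_Y_le w ω) (S.abs_aM_le w ω)

lemma Xi_snd (ω : S.Om) (v : V) (i : ℕ) : ((S.Xi ω v i).2 : ℝ) = S.U (v, i) ω := by
  unfold Xi
  simp only
  rw [Set.projIcc_of_mem _ ⟨S.U_nonneg _ _, S.U_le_one _ _⟩]

lemma abs_m_le (th : V × ℕ → ℝ) (v : V) (ω : S.Om) : |S.m th v ω| ≤ 1 := abs_cE_le _ _ _

lemma abs_pp_le (th : V × ℕ → ℝ) (x y : V) (ω : S.Om) : |S.pp th x y ω| ≤ 1 := abs_cE_le _ _ _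

lemma abs_C_le (th : V × ℕ → ℝ) (x y : V) (ω : S.Om) : |S.C th x y ω| ≤ 2 := by
  unfold C
  have h1 := S.abs_pp_le th x y ω
  have h2 : |S.m th x ω * S.m th y ω| ≤ 1 := by
    rw [abs_mul]
    exact mul_le_one₀ (S.abs_m_le _ _ _) (abs_nonneg _) (S.abs_m_le _ _ _)
  have := abs_sub (S.pp th x y ω) (S.m th x ω * S.m th y ω)
  linarith

lemma abs_n_le (th : V × ℕ → ℝ) (x y : V) (ω : S.Om) : |S.n th x y ω| ≤ 1 := abs_cE_le _ _ _

lemma measurable_mfun (th : V × ℕ → ℝ) (v : V) : Measurable (S.mfun th v) :=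
  (S.exists_mfun th v).choose_spec.1

lemma abs_mfun_le (th : V × ℕ → ℝ) (v : V) (d : Data V) : |S.mfun th v d| ≤ 1 :=
  (S.exists_mfun th v).choose_spec.2.1 d

lemma m_eq_mfun (th : V × ℕ → ℝ) (v : V) (ω : S.Om) : S.m th v ω = S.mfun th v (S.D th ω) :=
  (S.exists_mfun th v).choose_spec.2.2 ω

lemma abs_mh_le (th : V × ℕ → ℝ) (v : V) (ω : S.Om) : |S.mh th v ω| ≤ 1 := by
  unfold mh
  have h1 := S.abs_mfun_le th v (S.Dh th v ω)
  have h2 := S.abs_mfun_le th v (act (-1) (S.Dh th v ω))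
  rw [abs_le] at *
  constructor <;> linarith [h1.1, h1.2, h2.1, h2.2]

lemma abs_nh_le (th : V × ℕ → ℝ) (x y : V) (ω : S.Om) : |S.nh th x y ω| ≤ 1 :=
  S.abs_mh_le _ _ _

lemma rh_nonneg (th : V × ℕ → ℝ) (x y : V) (ω : S.Om) : 0 ≤ S.rh th x y ω := by
  exact rho_nonneg S.theta_sq_le (S.abs_nh_le _ _ _ _)

lemma rh_le_one (th : V × ℕ → ℝ) (x y : V) (ω : S.Om) : S.rh th x y ω ≤ 1 := by
  exact rho_le_one S.theta_sq_le (S.abs_nh_le _ _ _ _)

lemma Pr_nonneg (th : V × ℕ → ℝ) (x y : V) (ω : S.Om) : 0 ≤ S.Pr th x y ω := by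
  unfold Pr Pi
  exact Finset.prod_nonneg fun i _ => S.rh_nonneg _ _ _ _

lemma Pr_le_one (th : V × ℕ → ℝ) (x y : V) (ω : S.Om) : S.Pr th x y ω ≤ 1 := by
  unfold Pr Pi
  exact Finset.prod_le_one (fun i _ => S.rh_nonneg _ _ _ _) (fun i _ => S.rh_le_one _ _ _ _)

/-- Dropping an initial piece of the geodesic increases the product. -/
lemma Pr_le_Pr_geo (th : V × ℕ → ℝ) (x y : V) {i : ℕ} (hi : i ≤ S.G.dist x y) (ω : S.Om) :
    S.Pr th x y ω ≤ S.Pr th (S.geo x y i) y ω := by
  have h1 : S.Pr th x y ω = S.Pr th x (S.geo x y i) ω * S.Pr th (S.geo x y i) y ω :=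
    S.Pi_split _ x y hi
  rw [h1]
  exact mul_le_of_le_one_left (S.Pr_nonneg _ _ _ _) (S.Pr_le_one _ _ _ _)

lemma abs_Nw_le (th : V × ℕ → ℝ) (w : V × ℕ) (ω : S.Om) : |S.Nw th w ω| ≤ 1 / 4 := by
  unfold Nw
  split_ifs
  · exact abs_mul_le_quarter (S.a_nonneg w ω) (S.a_le w ω) (S.abs_Y_le w ω)
  · simp

lemma ind_cases (w : V × ℕ) (s δ : ℝ) (ω : S.Om) : S.ind w s δ ω = 0 ∨ S.ind w s δ ω = 1 := by
  unfold ind
  split_ifs <;> simp

lemma D_eq_act (th : V × ℕ → ℝ) (y : V) (ω : S.Om) :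
    S.D th ω = act (S.σ y ω) (S.Dh th y ω) := by
  unfold Dh
  rw [act_act, S.σ_mul_self, act_one]

lemma adj_o' : S.G.Adj S.o S.o' := (S.exists_adj S.o).choose_spec

/-! ### Measurability for the ambient σ-algebra -/

@[fun_prop] lemma measurable_tau (x y : V) : Measurable (S.tau x y) := by
  unfold tau
  by_cases h : S.G.Adj x y
  · simp only [dif_pos h]
    refine Measurable.ite ?_ measurable_const measurable_const
    exact measurableSet_le (measurable_subtype_coe.comp ((measurable_pi_apply _).comp measurable_snd))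
      measurable_const
  · simp only [dif_neg h]
    exact measurable_const

@[fun_prop] lemma measurable_σ (v : V) : Measurable (S.σ v) := by
  unfold σ Pi
  refine Measurable.mul ((measurable_of_countable sgn).comp measurable_fst) ?_
  exact Finset.measurable_fun_prod _ fun i _ => S.measurable_tau _ _

@[fun_prop] lemma measurable_T (w : V × ℕ) : Measurable (S.T w) := by
  exact measurable_subtype_coe.comp ((measurable_pi_apply _).comp measurable_snd)

@[fun_prop] lemma measurable_eta (w : V × ℕ) : Measurable (S.eta w) := by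
  exact measurable_subtype_coe.comp ((measurable_pi_apply _).comp measurable_snd)

@[fun_prop] lemma measurable_tm (w : V × ℕ) : Measurable (S.tm w) := by
  exact measurable_const.add (S.measurable_T w)

@[fun_prop] lemma measurable_a (w : V × ℕ) : Measurable (S.a w) := by
  exact Measurable.aa' (S.measurable_T w)

@[fun_prop] lemma measurable_Yh (w : V × ℕ) : Measurable (S.Yh w) := by
  exact Measurable.Qi' (S.measurable_eta w) (S.measurable_a w)

@[fun_prop] lemma measurable_Y (w : V × ℕ) : Measurable (S.Y w) := by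
  exact (S.measurable_σ w.1).mul (S.measurable_Yh w)

@[fun_prop] lemma measurable_D (th : V × ℕ → ℝ) : Measurable (S.D th) := by
  refine measurable_pi_lambda _ fun w => ?_
  exact Measurable.ite (measurableSet_lt (S.measurable_tm w) measurable_const)
    ((S.measurable_tm w).prodMk (S.measurable_Y w)) measurable_const

@[fun_prop] lemma measurable_Dlt (w : V × ℕ) : Measurable (S.Dlt w) := by
  refine (S.measurable_tm w).prodMk (measurable_pi_lambda _ fun w' => ?_)
  exact Measurable.ite (measurableSet_lt (S.measurable_tm w') (S.measurable_tm w))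
    ((S.measurable_tm w').prodMk (S.measurable_Y w')) measurable_const

lemma F_le (th : V × ℕ → ℝ) : S.F th ≤ (inferInstance : MeasurableSpace S.Om) :=
  (S.measurable_D th).comap_le

lemma Flt_le (w : V × ℕ) : S.Flt w ≤ (inferInstance : MeasurableSpace S.Om) :=
  (S.measurable_Dlt w).comap_le

lemma Fle_le (w : V × ℕ) : S.Fle w ≤ (inferInstance : MeasurableSpace S.Om) :=
  sup_le (S.Flt_le w) (S.measurable_Y w).comap_le

@[fun_prop] lemma measurable_M (w : V × ℕ) : Measurable (S.M w) :=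
  (measurable_cE _ _).mono (S.Flt_le w) le_rfl

@[fun_prop] lemma measurable_U (w : V × ℕ) : Measurable (S.U w) := by
  exact Measurable.Fc' (S.measurable_Y w) ((S.measurable_a w).mul (S.measurable_M w))

@[fun_prop] lemma measurable_Gam (s : ℝ) : Measurable (S.Gam s) := by
  refine measurable_pi_lambda _ fun w => ?_
  exact Measurable.ite (measurableSet_lt (S.measurable_tm w) measurable_const)
    ((S.measurable_tm w).prodMk (S.measurable_U w)) measurable_const

lemma Gs_le (s : ℝ) : S.Gs s ≤ (inferInstance : MeasurableSpace S.Om) :=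
  (S.measurable_Gam s).comap_le

@[fun_prop] lemma measurable_Xi : Measurable S.Xi := by
  refine measurable_pi_lambda _ fun v => measurable_pi_lambda _ fun i => ?_
  exact ((measurable_pi_apply _).comp measurable_snd).prodMk
    (continuous_projIcc.measurable.comp (S.measurable_U (v, i)))

lemma I1_le (i : S.Idx) : S.I1 i ≤ (inferInstance : MeasurableSpace S.Om) := by
  exact ((measurable_pi_apply i).comp measurable_snd).comap_le

lemma I_le (A : Set S.Idx) : S.I A ≤ (inferInstance : MeasurableSpace S.Om) := by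
  exact iSup₂_le fun i _ => S.I1_le i

lemma Sg_le (y : V) : S.Sg y ≤ (inferInstance : MeasurableSpace S.Om) :=
  (S.measurable_σ y).comap_le

lemma Sp_le : S.Sp ≤ (inferInstance : MeasurableSpace S.Om) := iSup_le S.Sg_le

lemma Kx_le (i : S.Idx) : S.Kx i ≤ (inferInstance : MeasurableSpace S.Om) :=
  sup_le (S.Sg_le _) (S.I_le _)

lemma I_mono {A B : Set S.Idx} (h : A ⊆ B) : S.I A ≤ S.I B := by
  exact iSup₂_le fun i hi => le_iSup₂_of_le (f := fun i (_ : i ∈ B) => S.I1 i) i (h hi) le_rfl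

lemma I1_le_I {A : Set S.Idx} {i : S.Idx} (h : i ∈ A) : S.I1 i ≤ S.I A := by
  exact le_iSup₂_of_le (f := fun i (_ : i ∈ A) => S.I1 i) i h le_rfl

lemma I_singleton (i : S.Idx) : S.I {i} = S.I1 i := by
  refine le_antisymm (iSup₂_le fun j hj => ?_) (S.I1_le_I rfl)
  rw [Set.mem_singleton_iff.1 hj]

lemma measurable_m_F (th : V × ℕ → ℝ) (v : V) : Measurable[S.F th] (S.m th v) :=
  measurable_cE _ _

lemma measurable_pp_F (th : V × ℕ → ℝ) (x y : V) : Measurable[S.F th] (S.pp th x y) :=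
  measurable_cE _ _

lemma measurable_C_F (th : V × ℕ → ℝ) (x y : V) : Measurable[S.F th] (S.C th x y) := by
  exact Measurable.sub (S.measurable_pp_F th x y)
    (Measurable.mul (S.measurable_m_F th x) (S.measurable_m_F th y))

@[fun_prop] lemma measurable_m (th : V × ℕ → ℝ) (v : V) : Measurable (S.m th v) :=
  (S.measurable_m_F th v).mono (S.F_le th) le_rfl

@[fun_prop] lemma measurable_pp (th : V × ℕ → ℝ) (x y : V) : Measurable (S.pp th x y) :=
  (S.measurable_pp_F th x y).mono (S.F_le th) le_rfl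

@[fun_prop] lemma measurable_C (th : V × ℕ → ℝ) (x y : V) : Measurable (S.C th x y) :=
  (S.measurable_C_F th x y).mono (S.F_le th) le_rfl

@[fun_prop] lemma measurable_n (th : V × ℕ → ℝ) (x y : V) : Measurable (S.n th x y) :=
  S.measurable_m _ _

@[fun_prop] lemma measurable_Dh (th : V × ℕ → ℝ) (y : V) : Measurable (S.Dh th y) := by
  exact measurable_act₂ (S.measurable_σ y) (S.measurable_D th)

@[fun_prop] lemma measurable_mh (th : V × ℕ → ℝ) (y : V) : Measurable (S.mh th y) := by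
  exact (((S.measurable_mfun th y).comp (S.measurable_Dh th y)).sub
    ((S.measurable_mfun th y).comp ((measurable_act (-1)).comp (S.measurable_Dh th y)))).div_const 2

@[fun_prop] lemma measurable_nh (th : V × ℕ → ℝ) (x y : V) : Measurable (S.nh th x y) :=
  S.measurable_mh _ _

@[fun_prop] lemma measurable_rh (th : V × ℕ → ℝ) (x y : V) : Measurable (S.rh th x y) := by
  exact Measurable.rho' _ (S.measurable_nh th x y)

@[fun_prop] lemma measurable_Pr (th : V × ℕ → ℝ) (x y : V) : Measurable (S.Pr th x y) := by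
  unfold Pr Pi
  exact Finset.measurable_fun_prod _ fun i _ => S.measurable_rh _ _ _

@[fun_prop] lemma measurable_Nw (th : V × ℕ → ℝ) (w : V × ℕ) : Measurable (S.Nw th w) := by
  exact Measurable.ite (measurableSet_lt (S.measurable_tm w) measurable_const)
    ((S.measurable_a w).mul (S.measurable_Y w)) measurable_const

@[fun_prop] lemma measurable_ind (w : V × ℕ) (s δ : ℝ) : Measurable (S.ind w s δ) := by
  exact Measurable.ite ((measurableSet_le measurable_const (S.measurable_tm w)).inter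
    (measurableSet_lt (S.measurable_tm w) measurable_const)) measurable_const measurable_const

@[fun_prop] lemma measurable_av (s : ℝ) (x y : V) : Measurable (S.av s x y) := by
  exact (S.measurable_rh _ x y).log

@[fun_prop] lemma measurable_a0 (s : ℝ) (x : V) : Measurable (S.a0 s x) := by
  exact (measurable_const.sub ((S.measurable_m _ x).pow_const 2)).log

lemma measurable_Θ (g : S.G ≃g S.G) : Measurable (S.Θ g) := by
  refine Measurable.prodMk ?_
    (measurable_pi_lambda _ fun i => (measurable_pi_apply _).comp measurable_snd)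
  refine measurable_to_bool ?_
  have : (fun ω : S.Om => decide (0 < S.σ (g S.o) ω)) ⁻¹' {true} = {ω | 0 < S.σ (g S.o) ω} := by
    ext ω; simp
  rw [this]
  exact measurableSet_lt measurable_const (S.measurable_σ _)

lemma measurable_flip : Measurable S.flip := by
  exact ((measurable_of_countable (fun b : Bool => !b)).comp measurable_fst).prodMk measurable_snd

/-! ### Boundedness -/

lemma bdd_σ (v : V) : Bdd S.P (S.σ v) :=
  Bdd.of_meas (S.measurable_σ v) (fun ω => (S.abs_σ v ω).le)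

lemma bdd_σσ (x y : V) : Bdd S.P (fun ω => S.σ x ω * S.σ y ω) := (S.bdd_σ x).mul (S.bdd_σ y)

lemma bdd_tau (x y : V) : Bdd S.P (S.tau x y) := by
  refine Bdd.of_meas (S.measurable_tau x y) (K := 1) fun ω => ?_
  rcases S.tau_cases x y ω with h | h <;> simp [h]

lemma bdd_m (th : V × ℕ → ℝ) (v : V) : Bdd S.P (S.m th v) :=
  Bdd.of_meas (S.measurable_m th v) (S.abs_m_le th v)

lemma bdd_pp (th : V × ℕ → ℝ) (x y : V) : Bdd S.P (S.pp th x y) :=
  Bdd.of_meas (S.measurable_pp th x y) (S.abs_pp_le th x y)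

lemma bdd_C (th : V × ℕ → ℝ) (x y : V) : Bdd S.P (S.C th x y) :=
  Bdd.of_meas (S.measurable_C th x y) (S.abs_C_le th x y)

lemma bdd_n (th : V × ℕ → ℝ) (x y : V) : Bdd S.P (S.n th x y) := S.bdd_m _ _

lemma bdd_mh (th : V × ℕ → ℝ) (v : V) : Bdd S.P (S.mh th v) :=
  Bdd.of_meas (S.measurable_mh th v) (S.abs_mh_le th v)

lemma bdd_nh (th : V × ℕ → ℝ) (x y : V) : Bdd S.P (S.nh th x y) := S.bdd_mh _ _

lemma bdd_rh (th : V × ℕ → ℝ) (x y : V) : Bdd S.P (S.rh th x y) := by
  refine Bdd.of_meas (S.measurable_rh th x y) (K := 1) fun ω => ?_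
  rw [abs_of_nonneg (S.rh_nonneg _ _ _ _)]
  exact S.rh_le_one _ _ _ _

lemma bdd_Pr (th : V × ℕ → ℝ) (x y : V) : Bdd S.P (S.Pr th x y) := by
  refine Bdd.of_meas (S.measurable_Pr th x y) (K := 1) fun ω => ?_
  rw [abs_of_nonneg (S.Pr_nonneg _ _ _ _)]
  exact S.Pr_le_one _ _ _ _

lemma bdd_M (w : V × ℕ) : Bdd S.P (S.M w) := Bdd.of_meas (S.measurable_M w) (S.abs_M_le w)

lemma bdd_a (w : V × ℕ) : Bdd S.P (S.a w) := by
  refine Bdd.of_meas (S.measurable_a w) (K := 1 / 4) fun ω => ?_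
  rw [abs_of_nonneg (S.a_nonneg _ _)]
  exact S.a_le _ _

lemma bdd_Y (w : V × ℕ) : Bdd S.P (S.Y w) := Bdd.of_meas (S.measurable_Y w) (S.abs_Y_le w)

lemma bdd_Yh (w : V × ℕ) : Bdd S.P (S.Yh w) := Bdd.of_meas (S.measurable_Yh w) (S.abs_Yh_le w)

lemma bdd_Nw (th : V × ℕ → ℝ) (w : V × ℕ) : Bdd S.P (S.Nw th w) :=
  Bdd.of_meas (S.measurable_Nw th w) (S.abs_Nw_le th w)

lemma bdd_ind (w : V × ℕ) (s δ : ℝ) : Bdd S.P (S.ind w s δ) := by
  refine Bdd.of_meas (S.measurable_ind w s δ) (K := 1) fun ω => ?_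
  rcases S.ind_cases w s δ ω with h | h <;> simp [h]

lemma bdd_til (s : ℝ) {f : S.Om → ℝ} (hf : Bdd S.P f) : Bdd S.P (S.til s f) :=
  hf.sub (hf.condExp _ (S.Gs_le s))

lemma m_ae_eq (th : V × ℕ → ℝ) (v : V) : S.m th v =ᵐ[S.P] S.P[S.σ v | S.F th] :=
  cE_ae_eq _ (Filter.Eventually.of_forall fun ω => (S.abs_σ v ω).le)

lemma pp_ae_eq (th : V × ℕ → ℝ) (x y : V) :
    S.pp th x y =ᵐ[S.P] S.P[fun ω => S.σ x ω * S.σ y ω | S.F th] := by
  refine cE_ae_eq _ (Filter.Eventually.of_forall fun ω => ?_)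
  rw [abs_mul, S.abs_σ, S.abs_σ, one_mul]

lemma M_ae_eq (w : V × ℕ) : S.M w =ᵐ[S.P] S.P[S.σ w.1 | S.Flt w] :=
  cE_ae_eq _ (Filter.Eventually.of_forall fun ω => (S.abs_σ w.1 ω).le)

lemma phi_nonneg (s : ℝ) : 0 ≤ S.phi s := integral_nonneg fun _ => sq_nonneg _

lemma psi_nonneg (s : ℝ) (u : V) : 0 ≤ S.psi s u := by
  exact add_nonneg (integral_nonneg fun _ => sq_nonneg _)
    (integral_nonneg fun _ => mul_nonneg (sq_nonneg _) (sq_nonneg _))

lemma q_nonneg (s : ℝ) : 0 ≤ S.q s := integral_nonneg fun _ => sq_nonneg _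

lemma q_le_one (s : ℝ) : S.q s ≤ 1 := by
  have h : ∫ ω, S.n (cst s) S.o S.o' ω ^ 2 ∂S.P ≤ ∫ _ω, (1 : ℝ) ∂S.P := by
    refine integral_mono ((S.bdd_n _ _ _).pow 2).integrable (integrable_const _) fun ω => ?_
    have := S.abs_n_le (cst s) S.o S.o' ω
    show S.n (cst s) S.o S.o' ω ^ 2 ≤ 1
    rw [← sq_abs]
    nlinarith [abs_nonneg (S.n (cst s) S.o S.o' ω)]
  simpa [q] using h

lemma vt_nonneg (s : ℝ) : 0 ≤ S.vt s := by
  have h1 := S.q_le_one s
  have h2 := S.q_nonneg s
  have h3 := S.theta_sq_le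
  unfold vt
  nlinarith [sq_nonneg S.θ]

lemma vt_le_one (s : ℝ) : S.vt s ≤ 1 := by
  have h2 := S.q_nonneg s
  unfold vt
  have := mul_nonneg (sq_nonneg S.θ) h2
  linarith

lemma kappa_nonneg : 0 ≤ S.kappa := by
  unfold kappa
  positivity

lemma kappa_le_one : S.kappa ≤ 1 := S.crit

/-! ### Order of the σ-algebras -/

lemma measurable_D_F (th : V × ℕ → ℝ) : Measurable[S.F th] (S.D th) := comap_measurable _

lemma measurable_Dlt_Flt (w : V × ℕ) : Measurable[S.Flt w] (S.Dlt w) := comap_measurable _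

lemma F_le_of {th : V × ℕ → ℝ} {K : MeasurableSpace S.Om}
    (h : ∀ w, Measurable[K] (fun ω => S.D th ω w)) : S.F th ≤ K :=
  Measurable.comap_le (measurable_pi_lambda _ h)

lemma D_fst_nonneg_iff (th : V × ℕ → ℝ) (w : V × ℕ) (ω : S.Om) :
    0 ≤ (S.D th ω w).1 ↔ S.tm w ω < th w := by
  have h0 := S.tm_nonneg w ω
  unfold D
  split_ifs with h
  · simp [h, h0]
  · simp [h]

lemma trunc_D {th th' : V × ℕ → ℝ} {w : V × ℕ} {ω : S.Om}
    (h : S.tm w ω < th w → S.tm w ω < th' w) : trunc (th w) (S.D th' ω) w = S.D th ω w := by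
  have h0 := S.tm_nonneg w ω
  unfold trunc D
  by_cases a1 : S.tm w ω < th w
  · rw [if_pos a1, if_pos (h a1), if_pos ⟨h0, a1⟩]
  · rw [if_neg a1]
    by_cases a2 : S.tm w ω < th' w
    · rw [if_pos a2, if_neg (fun h => a1 h.2)]
    · rw [if_neg a2, if_neg (by norm_num)]

lemma D_eq_off' {th : V × ℕ → ℝ} {w : V × ℕ} {ω : S.Om} (h : th w ≤ S.tm w ω) :
    S.D th ω = S.D (off th w) ω := by
  funext w'
  unfold D off
  by_cases hw : w' = w
  · subst hw
    rw [Function.update_self, if_neg (not_lt.2 h), if_neg (not_lt.2 (S.tm_nonneg _ ω))]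
  · rw [Function.update_of_ne hw]

lemma D_congr {th th' : V × ℕ → ℝ} (h : ∀ w ω, S.tm w ω < th w ↔ S.tm w ω < th' w) :
    S.D th = S.D th' := by
  funext ω w
  unfold D
  simp only [h w ω]

lemma F_congr {th th' : V × ℕ → ℝ} (h : ∀ w ω, S.tm w ω < th w ↔ S.tm w ω < th' w) :
    S.F th = S.F th' := by
  unfold F; rw [S.D_congr h]

lemma m_congr {th th' : V × ℕ → ℝ} (h : ∀ w ω, S.tm w ω < th w ↔ S.tm w ω < th' w) (v : V) :
    S.m th v = S.m th' v := by
  unfold m; rw [S.F_congr h]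

lemma F_mono' {th th' : V × ℕ → ℝ} (h : ∀ w ω, S.tm w ω < th w → S.tm w ω < th' w) :
    S.F th ≤ S.F th' := by
  refine S.F_le_of fun w => ?_
  have : (fun ω => S.D th ω w) = fun ω => trunc (th w) (S.D th' ω) w := by
    funext ω
    exact (S.trunc_D (h w ω)).symm
  rw [this]
  exact (measurable_pi_apply w).comp (measurable_trunc measurable_const (S.measurable_D_F th'))

lemma F_mono {th th' : V × ℕ → ℝ} (h : ∀ w, th w ≤ th' w) : S.F th ≤ S.F th' :=
  S.F_mono' fun w _ h1 => h1.trans_le (h w)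

lemma F_res_le (th : V × ℕ → ℝ) (B : Set V) : S.F (res th B) ≤ S.F th := by
  refine S.F_mono' fun w ω h => ?_
  unfold res at h
  split_ifs at h with hw
  · exact h
  · exact absurd h (not_lt.2 (S.tm_nonneg w ω))

lemma F_res_mono (th : V × ℕ → ℝ) {B B' : Set V} (h : B ⊆ B') :
    S.F (res th B) ≤ S.F (res th B') := by
  refine S.F_mono' fun w ω h1 => ?_
  unfold res at h1 ⊢
  split_ifs at h1 with hw
  · rw [if_pos (h hw)]; exact h1
  · exact absurd h1 (not_lt.2 (S.tm_nonneg w ω))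

lemma F_off_le (th : V × ℕ → ℝ) (w : V × ℕ) : S.F (off th w) ≤ S.F th := by
  refine S.F_mono' fun w' ω h => ?_
  unfold off at h
  by_cases hw : w' = w
  · subst hw
    rw [Function.update_self] at h
    exact absurd h (not_lt.2 (S.tm_nonneg _ ω))
  · rwa [Function.update_of_ne hw] at h

lemma F_sup' {th th₁ th₂ : V × ℕ → ℝ}
    (h : ∀ w ω, S.tm w ω < th w ↔ S.tm w ω < th₁ w ∨ S.tm w ω < th₂ w) :
    S.F th = S.F th₁ ⊔ S.F th₂ := by
  refine le_antisymm (S.F_le_of fun w => ?_)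
    (sup_le (S.F_mono' fun w ω h1 => (h w ω).2 (Or.inl h1))
      (S.F_mono' fun w ω h1 => (h w ω).2 (Or.inr h1)))
  have h1 : Measurable[S.F th₁ ⊔ S.F th₂] (fun ω => S.D th₁ ω w) :=
    ((measurable_pi_apply w).comp (S.measurable_D_F th₁)).mono le_sup_left le_rfl
  have h2 : Measurable[S.F th₁ ⊔ S.F th₂] (fun ω => S.D th₂ ω w) :=
    ((measurable_pi_apply w).comp (S.measurable_D_F th₂)).mono le_sup_right le_rfl
  have : (fun ω => S.D th ω w) =
      fun ω => if 0 ≤ (S.D th₁ ω w).1 then S.D th₁ ω w else S.D th₂ ω w := by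
    funext ω
    have h0 := S.tm_nonneg w ω
    have h3 := h w ω
    unfold D
    by_cases a1 : S.tm w ω < th₁ w
    · rw [if_pos a1, if_pos (h3.2 (Or.inl a1)), if_pos h0]
    · rw [if_neg a1, if_neg (show ¬ (0 : ℝ) ≤ ((-1, 0) : ℝ × ℝ).1 by norm_num)]
      simp only [h3, a1, false_or]
  rw [this]
  exact Measurable.ite (measurableSet_le measurable_const h1.fst) h1 h2

/-- Increasing thresholds. -/
lemma F_iSup {th : V × ℕ → ℝ} {ths : ℕ → V × ℕ → ℝ}
    (h : ∀ w ω, S.tm w ω < th w ↔ ∃ k, S.tm w ω < ths k w)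
    (h' : ∀ w, ∃ k, ths k w = th w) : S.F th = ⨆ k, S.F (ths k) := by
  refine le_antisymm (S.F_le_of fun w => ?_)
    (iSup_le fun k => S.F_mono' fun w ω h1 => (h w ω).2 ⟨k, h1⟩)
  obtain ⟨k, hk⟩ := h' w
  have : (fun ω => S.D th ω w) = fun ω => S.D (ths k) ω w := by
    funext ω
    unfold D
    rw [hk]
  rw [this]
  exact ((measurable_pi_apply w).comp (S.measurable_D_F (ths k))).mono
    (le_iSup (fun k => S.F (ths k)) k) le_rfl

lemma measurable_tm_Flt (w : V × ℕ) : Measurable[S.Flt w] (S.tm w) := by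
  exact measurable_fst.comp (S.measurable_Dlt_Flt w)

lemma measurable_T_Flt (w : V × ℕ) : Measurable[S.Flt w] (S.T w) := by
  have : S.T w = fun ω => S.tm w ω - w.2 := by
    funext ω; simp [tm]
  rw [this]
  exact Measurable.sub (S.measurable_tm_Flt w) measurable_const

lemma measurable_a_Flt (w : V × ℕ) : Measurable[S.Flt w] (S.a w) := by
  exact Measurable.aa' (S.measurable_T_Flt w)

lemma measurable_M_Flt (w : V × ℕ) : Measurable[S.Flt w] (S.M w) := measurable_cE _ _

lemma measurable_ind_Flt (w : V × ℕ) (s δ : ℝ) : Measurable[S.Flt w] (S.ind w s δ) := by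
  exact Measurable.ite (MeasurableSet.inter (measurableSet_le measurable_const (S.measurable_tm_Flt w))
    (measurableSet_lt (S.measurable_tm_Flt w) measurable_const)) measurable_const measurable_const

lemma measurable_Y_Fle (w : V × ℕ) : Measurable[S.Fle w] (S.Y w) := by
  exact (comap_measurable (S.Y w)).mono le_sup_right le_rfl

lemma measurable_U_Fle (w : V × ℕ) : Measurable[S.Fle w] (S.U w) := by
  exact Measurable.Fc' (S.measurable_Y_Fle w)
    (Measurable.mul ((S.measurable_a_Flt w).mono le_sup_left le_rfl)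
      ((S.measurable_M_Flt w).mono le_sup_left le_rfl))

lemma measurable_T_I1 (w : V × ℕ) : Measurable[S.I1 (S.iT w)] (S.T w) := by
  exact measurable_subtype_coe.comp (comap_measurable (fun ω : S.Om => ω.2 (S.iT w)))

lemma measurable_tm_I1 (w : V × ℕ) : Measurable[S.I1 (S.iT w)] (S.tm w) := by
  exact Measurable.add measurable_const (S.measurable_T_I1 w)

lemma measurable_a_I1 (w : V × ℕ) : Measurable[S.I1 (S.iT w)] (S.a w) := by
  exact Measurable.aa' (S.measurable_T_I1 w)

lemma measurable_ind_I1 (w : V × ℕ) (s δ : ℝ) : Measurable[S.I1 (S.iT w)] (S.ind w s δ) := by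
  exact Measurable.ite (MeasurableSet.inter (measurableSet_le measurable_const (S.measurable_tm_I1 w))
    (measurableSet_lt (S.measurable_tm_I1 w) measurable_const)) measurable_const measurable_const

lemma I1_iT_le_Flt (w : V × ℕ) : S.I1 (S.iT w) ≤ S.Flt w := by
  have h : Measurable[S.Flt w] (fun ω : S.Om => ω.2 (S.iT w)) :=
    Measurable.subtype_mk (S.measurable_T_Flt w)
  exact h.comap_le

/-! ### Local inclusions in the model -/

lemma loc_F_Flt (w : V × ℕ) (s : ℝ) : Loc {ω | s ≤ S.tm w ω} (S.F (cst s)) (S.Flt w) := by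
  refine Loc.comap (X' := fun ω => trunc s (S.Dlt w ω).2)
    (measurableSet_le measurable_const (S.measurable_tm_Flt w))
    (measurable_trunc measurable_const (S.measurable_Dlt_Flt w).snd) fun ω hω => ?_
  funext w'
  exact (S.trunc_D (th := cst s) (th' := cst (S.tm w ω)) fun h => lt_of_lt_of_le h hω).symm

lemma loc_Fle_F (w : V × ℕ) (t : ℝ) : Loc {ω | S.tm w ω < t} (S.Fle w) (S.F (cst t)) := by
  have hw : Measurable[S.F (cst t)] (fun ω => S.D (cst t) ω w) :=
    (measurable_pi_apply w).comp (S.measurable_D_F _)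
  have hD : ∀ ω, S.tm w ω < t → S.D (cst t) ω w = (S.tm w ω, S.Y w ω) := fun ω h => if_pos h
  have hE : MeasurableSet[S.F (cst t)] {ω | S.tm w ω < t} := by
    have : {ω | S.tm w ω < t} = {ω | 0 ≤ (S.D (cst t) ω w).1} := by
      ext ω
      exact (S.D_fst_nonneg_iff (cst t) w ω).symm
    rw [this]
    exact measurableSet_le measurable_const hw.fst
  refine Loc.sup ?_ ?_
  · refine Loc.comap (X' := fun ω => ((S.D (cst t) ω w).1, trunc (S.D (cst t) ω w).1 (S.D (cst t) ω)))
      hE (hw.fst.prodMk (measurable_trunc hw.fst (S.measurable_D_F _))) fun ω hω => ?_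
    rw [hD ω hω]
    refine Prod.ext rfl ?_
    funext w'
    exact (S.trunc_D (th := cst (S.tm w ω)) (th' := cst t) fun h => lt_trans h hω).symm
  · refine Loc.comap (X' := fun ω => (S.D (cst t) ω w).2) hE hw.snd fun ω hω => ?_
    rw [hD ω hω]

lemma loc_Flt_off (w : V × ℕ) (t : ℝ) :
    Loc {ω | S.tm w ω < t} (S.Flt w) (S.F (off (cst t) w) ⊔ S.I1 (S.iT w)) := by
  have ht : Measurable[S.F (off (cst t) w) ⊔ S.I1 (S.iT w)] (S.tm w) :=
    (S.measurable_tm_I1 w).mono le_sup_right le_rfl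
  refine Loc.comap (X' := fun ω => (S.tm w ω, trunc (S.tm w ω) (S.D (off (cst t) w) ω)))
    (measurableSet_lt ht measurable_const)
    (ht.prodMk (measurable_trunc ht ((S.measurable_D_F _).mono le_sup_left le_rfl))) fun ω hω => ?_
  refine Prod.ext rfl ?_
  funext w'
  refine (S.trunc_D (th := cst (S.tm w ω)) (th' := off (cst t) w) fun h => ?_).symm
  have hne : w' ≠ w := by
    rintro rfl
    exact lt_irrefl _ h
  unfold off
  rw [Function.update_of_ne hne]
  exact lt_trans h hω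

lemma loc_Fle_Flt (w w' : V × ℕ) : Loc {ω | S.tm w' ω < S.tm w ω} (S.Fle w') (S.Flt w) := by
  have hd : Measurable[S.Flt w] (fun ω => (S.Dlt w ω).2) := (S.measurable_Dlt_Flt w).snd
  have hw : Measurable[S.Flt w] (fun ω => (S.Dlt w ω).2 w') := (measurable_pi_apply w').comp hd
  have hD : ∀ ω, S.tm w' ω < S.tm w ω → (S.Dlt w ω).2 w' = (S.tm w' ω, S.Y w' ω) :=
    fun ω h => if_pos h
  have hE : MeasurableSet[S.Flt w] {ω | S.tm w' ω < S.tm w ω} := by
    have : {ω | S.tm w' ω < S.tm w ω} = {ω | 0 ≤ ((S.Dlt w ω).2 w').1} := by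
      ext ω
      exact (S.D_fst_nonneg_iff (cst (S.tm w ω)) w' ω).symm
    rw [this]
    exact measurableSet_le measurable_const hw.fst
  refine Loc.sup ?_ ?_
  · refine Loc.comap
      (X' := fun ω => (((S.Dlt w ω).2 w').1, trunc ((S.Dlt w ω).2 w').1 (S.Dlt w ω).2))
      hE (hw.fst.prodMk (measurable_trunc hw.fst hd)) fun ω hω => ?_
    rw [hD ω hω]
    refine Prod.ext rfl ?_
    funext w''
    exact (S.trunc_D (th := cst (S.tm w' ω)) (th' := cst (S.tm w ω)) fun h => lt_trans h hω).symm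
  · refine Loc.comap (X' := fun ω => ((S.Dlt w ω).2 w').2) hE hw.snd fun ω hω => ?_
    rw [hD ω hω]

lemma loc_F_off (th : V × ℕ → ℝ) (w : V × ℕ) :
    Loc {ω | th w ≤ S.tm w ω} (S.F th) (S.F (off th w) ⊔ S.I1 (S.iT w)) := by
  have ht : Measurable[S.F (off th w) ⊔ S.I1 (S.iT w)] (S.tm w) :=
    (S.measurable_tm_I1 w).mono le_sup_right le_rfl
  refine Loc.comap (X' := S.D (off th w)) (measurableSet_le measurable_const ht)
    ((S.measurable_D_F _).mono le_sup_left le_rfl) fun ω hω => ?_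
  exact S.D_eq_off' hω

/-- A function of the record equals a function of the switched-off record as long as `w` is not
revealed. -/
lemma D_eq_off {th : V × ℕ → ℝ} {w : V × ℕ} {ω : S.Om} (h : th w ≤ S.tm w ω) :
    S.D th ω = S.D (off th w) ω := by
  exact S.D_eq_off' h

/-- On `{tm w < t}` the time and the innovation of `w` are read off the innovation record. -/
lemma loc_U_Gs (w : V × ℕ) (t : ℝ) :
    Loc {ω | S.tm w ω < t}
      (S.I1 (S.iT w) ⊔ MeasurableSpace.comap (S.U w) inferInstance) (S.Gs t) := by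
  have hw : Measurable[S.Gs t] (fun ω => S.Gam t ω w) :=
    (measurable_pi_apply w).comp (comap_measurable (S.Gam t))
  have hD : ∀ ω, S.tm w ω < t → S.Gam t ω w = (S.tm w ω, S.U w ω) := fun ω h => if_pos h
  have hE : MeasurableSet[S.Gs t] {ω | S.tm w ω < t} := by
    have : {ω | S.tm w ω < t} = {ω | 0 ≤ (S.Gam t ω w).1} := by
      ext ω
      have h0 := S.tm_nonneg w ω
      simp only [Set.mem_ofPred_eq]
      unfold Gam
      split_ifs with h
      · simp [h, h0]
      · simp [h]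
    rw [this]
    exact measurableSet_le measurable_const hw.fst
  refine Loc.sup ?_ ?_
  · refine Loc.comap (X' := fun ω => Set.projIcc (0 : ℝ) 1 zero_le_one ((S.Gam t ω w).1 - w.2)) hE
      (continuous_projIcc.measurable.comp (Measurable.sub hw.fst measurable_const)) fun ω hω => ?_
    rw [hD ω hω]
    have : S.tm w ω - w.2 = (ω.2 (S.iT w) : ℝ) := by simp [tm, T]
    simp only [this, Set.projIcc_val]
  · refine Loc.comap (X' := fun ω => (S.Gam t ω w).2) hE hw.snd fun ω hω => ?_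
    rw [hD ω hω]

lemma Gs_le_F (s : ℝ) : S.Gs s ≤ S.F (cst s) := by
  refine Measurable.comap_le (@measurable_pi_lambda _ _ _ (S.F (cst s)) _ _ fun w => ?_)
  have h1 : Measurable[S.Fle w] (fun ω => (S.tm w ω, S.U w ω)) :=
    ((S.measurable_tm_Flt w).mono le_sup_left le_rfl).prodMk (S.measurable_U_Fle w)
  exact (S.loc_Fle_F w s).measurable_ite h1 (-1, 0)

lemma Gs_mono {s t : ℝ} (h : s ≤ t) : S.Gs s ≤ S.Gs t := by
  refine Measurable.comap_le ?_
  have : S.Gam s = fun ω => trunc s (S.Gam t ω) := by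
    funext ω w
    have h0 := S.tm_nonneg w ω
    unfold trunc Gam
    by_cases a1 : S.tm w ω < s
    · rw [if_pos a1, if_pos (lt_of_lt_of_le a1 h), if_pos ⟨h0, a1⟩]
    · rw [if_neg a1]
      by_cases a2 : S.tm w ω < t
      · rw [if_pos a2, if_neg (fun h => a1 h.2)]
      · rw [if_neg a2, if_neg (by norm_num)]
  rw [this]
  exact measurable_trunc measurable_const (comap_measurable (S.Gam t))

lemma Gs_le_Xi (s : ℝ) : S.Gs s ≤ MeasurableSpace.comap S.Xi inferInstance := by
  refine Measurable.comap_le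
    (@measurable_pi_lambda _ _ _ (MeasurableSpace.comap S.Xi inferInstance) _ _ fun w => ?_)
  have h1 : Measurable[MeasurableSpace.comap S.Xi inferInstance] (fun ω => S.Xi ω w.1 w.2) :=
    (measurable_pi_apply w.2).comp ((measurable_pi_apply w.1).comp (comap_measurable S.Xi))
  have ht : Measurable[MeasurableSpace.comap S.Xi inferInstance] (S.tm w) :=
    Measurable.add measurable_const (measurable_subtype_coe.comp h1.fst)
  have hU : Measurable[MeasurableSpace.comap S.Xi inferInstance] (S.U w) := by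
    have : S.U w = fun ω => ((S.Xi ω w.1 w.2).2 : ℝ) := by
      funext ω; rw [S.Xi_snd]
    rw [this]
    exact measurable_subtype_coe.comp h1.snd
  exact Measurable.ite (measurableSet_lt ht measurable_const) (ht.prodMk hU) measurable_const

end Setup

end Crest.Agent.R160

end
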