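import Crest.Agent.R160.CE

/-! Row 160: Bayes' formula for a conditionally independent block. -/

noncomputable section

namespace Crest.Agent.R160

open MeasureTheory ProbabilityTheory Filter

variable {Ω : Type*} {mΩ : MeasurableSpace Ω} {P : Measure Ω} [IsProbabilityMeasure P]

omit [IsProbabilityMeasure P] in
lemma bayes_meas_obs {α : Type*} [mα : MeasurableSpace α]
    {s : Ω → ℝ} (hs : Measurable[mΩ] s) (hs1 : ∀ ω, s ω = 1 ∨ s ω = -1)
    {Oh : Ω → α} (hOh : Measurable[mΩ] Oh) {act : ℝ → α → α} (hact : ∀ ε, Measurable (act ε))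
    {O : Ω → α} (hO : ∀ ω, O ω = act (s ω) (Oh ω)) : Measurable[mΩ] O := by
  classical
  have e : O = fun ω => if s ω = 1 then act 1 (Oh ω) else act (-1) (Oh ω) := by
    funext ω
    rw [hO]
    rcases hs1 ω with h | h
    · rw [if_pos h, h]
    · rw [if_neg (by rw [h]; norm_num), h]
  rw [e]
  exact Measurable.ite (hs (measurableSet_singleton 1)) ((hact 1).comp hOh) ((hact (-1)).comp hOh)

/-- Joint moments of a `K`-measurable variable and a function of the observation. -/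
lemma bayes_key {α : Type*} [mα : MeasurableSpace α] {K A : MeasurableSpace Ω}
    (hK : K ≤ mΩ) (hA : A ≤ mΩ) (hind : Indep K A P)
    {s : Ω → ℝ} (hs : Measurable[K] s) (hs1 : ∀ ω, s ω = 1 ∨ s ω = -1) (hs0 : ∫ ω, s ω ∂P = 0)
    {Oh : Ω → α} (hOh : Measurable[A] Oh) {act : ℝ → α → α} (hact : ∀ ε, Measurable (act ε))
    {O : Ω → α} (hO : ∀ ω, O ω = act (s ω) (Oh ω))
    {N : α → ℝ} (hNs : (fun ω => N (O ω)) =ᵐ[P] P[s | mα.comap O])
    {φ : α → ℝ} (hφ : Measurable φ) {b : ℝ} (hb : ∀ o, |φ o| ≤ b)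
    {Z : Ω → ℝ} (hZ : Bdd P Z) (hZm : AEStronglyMeasurable[K] Z P) :
    ∫ ω, Z ω * φ (O ω) ∂P = (∫ ω, Z ω ∂P) * (∫ ω, φ (O ω) ∂P) +
      (∫ ω, Z ω * s ω ∂P) * ∫ ω, φ (O ω) * N (O ω) ∂P := by
  have hsΩ : Measurable[mΩ] s := hs.mono hK le_rfl
  have hOm : Measurable[mΩ] O := bayes_meas_obs hsΩ hs1 (hOh.mono hA le_rfl) hact hO
  have hsb : Bdd P s := Bdd.of_meas hsΩ (K := 1) fun ω => by
    rcases hs1 ω with h | h <;> simp [h]
  let p : Ω → ℝ := fun ω => (φ (act 1 (Oh ω)) + φ (act (-1) (Oh ω))) / 2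
  let q : Ω → ℝ := fun ω => (φ (act 1 (Oh ω)) - φ (act (-1) (Oh ω))) / 2
  have m1 : ∀ ε, Measurable[A] fun ω => φ (act ε (Oh ω)) := fun ε =>
    hφ.comp ((hact ε).comp hOh)
  have b1 : ∀ ε, Bdd P fun ω => φ (act ε (Oh ω)) := fun ε =>
    Bdd.of_meas ((m1 ε).mono hA le_rfl) fun ω => hb _
  have pm : Measurable[A] p := ((m1 1).add (m1 (-1))).div_const 2
  have qm : Measurable[A] q := ((m1 1).sub (m1 (-1))).div_const 2
  have pb : Bdd P p := ((b1 1).add (b1 (-1))).div_const 2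
  have qb : Bdd P q := ((b1 1).sub (b1 (-1))).div_const 2
  have gen : ∀ {Z : Ω → ℝ}, Bdd P Z → AEStronglyMeasurable[K] Z P →
      ∫ ω, Z ω * φ (O ω) ∂P = (∫ ω, Z ω ∂P) * (∫ ω, p ω ∂P) +
        (∫ ω, Z ω * s ω ∂P) * ∫ ω, q ω ∂P := by
    intro Z hZ hZm
    have e : (fun ω => Z ω * φ (O ω)) = fun ω => Z ω * p ω + (Z ω * s ω) * q ω := by
      funext ω
      simp only [p, q, hO]
      rcases hs1 ω with h | h <;> rw [h] <;> ring
    rw [e, integral_add (hZ.mul pb).integrable ((hZ.mul hsb).mul qb).integrable,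
      integral_mul_of_indep hK hA hind hZ pb hZm pm.stronglyMeasurable.aestronglyMeasurable,
      integral_mul_of_indep hK hA hind (hZ.mul hsb) qb
        (hZm.mul hs.stronglyMeasurable.aestronglyMeasurable)
        qm.stronglyMeasurable.aestronglyMeasurable]
  have e1 := gen (Bdd.const 1) aestronglyMeasurable_const
  have e2 := gen hsb hs.stronglyMeasurable.aestronglyMeasurable
  have hss : (fun ω => s ω * s ω) = fun _ => (1 : ℝ) := by
    funext ω; rcases hs1 ω with h | h <;> simp [h]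
  simp only [one_mul, hs0, integral_const, probReal_univ, smul_eq_mul, zero_mul, add_zero] at e1
  rw [hss] at e2
  simp only [one_mul, hs0, integral_const, probReal_univ, smul_eq_mul, zero_mul, zero_add,
    mul_one] at e2
  have hφO : Measurable[mα.comap O] fun ω => φ (O ω) := hφ.comp (comap_measurable O)
  have e3 : ∫ ω, φ (O ω) * N (O ω) ∂P = ∫ ω, q ω ∂P := by
    rw [← e2]
    have := integral_mul_condExp (P := P) hOm.comap_le hsb
      (Bdd.of_meas (hφ.comp hOm) fun ω => hb _) hφO.stronglyMeasurable.aestronglyMeasurable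
    simp only [Function.comp_apply] at this
    calc ∫ ω, φ (O ω) * N (O ω) ∂P = ∫ ω, φ (O ω) * P[s | mα.comap O] ω ∂P := by
          refine integral_congr_ae ?_
          filter_upwards [hNs] with ω h
          rw [h]
      _ = ∫ ω, φ (O ω) * s ω ∂P := this
      _ = _ := by simp only [mul_comm]
  rw [gen hZ hZm, e1, e3]

/-- Dividing by the likelihood ratio decouples the observation from the rest. -/
lemma bayes_decouple {α : Type*} [mα : MeasurableSpace α] {O : Ω → α} (hOm : Measurable[mΩ] O)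
    {m : MeasurableSpace Ω} (hm : m ≤ mΩ) {t : Ω → ℝ} (ht : Measurable[m] t)
    {N : α → ℝ} (hN : Measurable N) {ν₁ ν₂ : ℝ} (hν : ν₁ * ν₂ < 1)
    (hN1 : ∀ o, |N o| ≤ ν₁) (ht2 : ∀ᵐ ω ∂P, |t ω| ≤ ν₂)
    (key : ∀ {φ : α → ℝ} {b : ℝ} {Z : Ω → ℝ}, Measurable φ → (∀ o, |φ o| ≤ b) → Bdd P Z →
      Measurable[m] Z → ∫ ω, Z ω * φ (O ω) ∂P = (∫ ω, Z ω ∂P) * (∫ ω, φ (O ω) ∂P) +
      (∫ ω, Z ω * t ω ∂P) * ∫ ω, φ (O ω) * N (O ω) ∂P)
    {φ : α → ℝ} {b : ℝ} (hφ : Measurable φ) (hb : ∀ o, |φ o| ≤ b)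
    {Z : Ω → ℝ} (hZ : Bdd P Z) (hZm : Measurable[m] Z) :
    ∫ ω, Z ω * φ (O ω) / (1 + N (O ω) * t ω) ∂P = (∫ ω, Z ω ∂P) * ∫ ω, φ (O ω) ∂P := by
  have htΩ : Measurable[mΩ] t := ht.mono hm le_rfl
  set r := ν₁ * ν₂ with hr
  have hden : ∀ᵐ ω ∂P, 1 - r ≤ 1 + N (O ω) * t ω := by
    filter_upwards [ht2] with ω h
    have : |N (O ω) * t ω| ≤ r := by
      rw [abs_mul]
      exact mul_le_mul (hN1 _) h (abs_nonneg _) ((abs_nonneg _).trans (hN1 (O ω)))
    linarith [neg_abs_le (N (O ω) * t ω)]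
  have hr0 : 0 ≤ r := by
    obtain ⟨ω, h⟩ := ht2.exists
    exact mul_nonneg ((abs_nonneg _).trans (hN1 (O ω))) ((abs_nonneg _).trans h)
  have hr1 : 0 < 1 - r := by linarith
  have hinv : Bdd P fun ω => (1 + N (O ω) * t ω)⁻¹ := by
    refine Bdd.of_ae (((hN.comp hOm).mul htΩ).const_add 1).inv (K := (1 - r)⁻¹) ?_
    filter_upwards [hden] with ω h
    rw [abs_of_pos (inv_pos.2 (hr1.trans_le h))]
    exact inv_anti₀ hr1 h
  have htb : Bdd P t := Bdd.of_ae htΩ ht2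
  have main : ∀ n : ℕ, ∀ {φ : α → ℝ} {a b : ℝ} {Z : Ω → ℝ}, Measurable φ → (∀ o, |φ o| ≤ b) →
      (∀ᵐ ω ∂P, |Z ω| ≤ a) → Measurable[m] Z →
      |∫ ω, Z ω * φ (O ω) / (1 + N (O ω) * t ω) ∂P - (∫ ω, Z ω ∂P) * ∫ ω, φ (O ω) ∂P| ≤
        a * b * ((1 - r)⁻¹ + 1) * r ^ n := by
    intro n
    induction n with
    | zero =>
      intro φ a b Z hφ hb ha hZm
      have ha0 : 0 ≤ a := by
        obtain ⟨ω, h⟩ := ha.exists
        exact (abs_nonneg _).trans h
      have i1 : |∫ ω, Z ω * φ (O ω) / (1 + N (O ω) * t ω) ∂P| ≤ a * b * (1 - r)⁻¹ := by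
        have := norm_integral_le_of_norm_le_const (μ := P)
          (f := fun ω => Z ω * φ (O ω) / (1 + N (O ω) * t ω)) (C := a * b * (1 - r)⁻¹) (by
            filter_upwards [ha, hden] with ω h1 h2
            rw [Real.norm_eq_abs, div_eq_mul_inv, abs_mul, abs_mul,
              abs_of_pos (inv_pos.2 (hr1.trans_le h2))]
            exact mul_le_mul (mul_le_mul h1 (hb _) (abs_nonneg _) ha0) (inv_anti₀ hr1 h2)
              (inv_pos.2 (hr1.trans_le h2)).le
              (mul_nonneg ha0 ((abs_nonneg _).trans (hb (O ω)))))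
        simpa using this
      have i2 : |∫ ω, Z ω ∂P| ≤ a := by
        have := norm_integral_le_of_norm_le_const (μ := P) (f := Z) (C := a) (by simpa using ha)
        simpa using this
      have i3 : |∫ ω, φ (O ω) ∂P| ≤ b := by
        have := norm_integral_le_of_norm_le_const (μ := P) (f := fun ω => φ (O ω)) (C := b)
          (Eventually.of_forall fun ω => by simpa using hb _)
        simpa using this
      have i4 : |(∫ ω, Z ω ∂P) * ∫ ω, φ (O ω) ∂P| ≤ a * b := by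
        rw [abs_mul]; exact mul_le_mul i2 i3 (abs_nonneg _) ha0
      refine (abs_sub _ _).trans ?_
      rw [pow_zero, mul_one, mul_add, mul_one]
      exact add_le_add i1 i4
    | succ n ih =>
      intro φ a b Z hφ hb ha hZm
      have ha0 : 0 ≤ a := by
        obtain ⟨ω, h⟩ := ha.exists
        exact (abs_nonneg _).trans h
      have hZ : Bdd P Z := Bdd.of_ae (hZm.mono hm le_rfl) ha
      have hφO : Bdd P fun ω => φ (O ω) := Bdd.of_meas (hφ.comp hOm) fun ω => hb _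
      have hNO : Bdd P fun ω => N (O ω) := Bdd.of_meas (hN.comp hOm) fun ω => hN1 _
      have h := ih (φ := fun o => φ o * N o) (a := a * ν₂) (b := b * ν₁)
        (Z := fun ω => Z ω * t ω) (hφ.mul hN)
        (fun o => by
          rw [abs_mul]; exact mul_le_mul (hb o) (hN1 o) (abs_nonneg _) ((abs_nonneg _).trans (hb o)))
        (by
          filter_upwards [ha, ht2] with ω h1 h2
          rw [abs_mul]; exact mul_le_mul h1 h2 (abs_nonneg _) ha0) (hZm.mul ht)
      have e : ∫ ω, Z ω * φ (O ω) / (1 + N (O ω) * t ω) ∂P = ∫ ω, Z ω * φ (O ω) ∂P -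
          ∫ ω, Z ω * t ω * (φ (O ω) * N (O ω)) / (1 + N (O ω) * t ω) ∂P := by
        rw [← integral_sub (hZ.mul hφO).integrable]
        · refine integral_congr_ae ?_
          filter_upwards [hden] with ω h
          have : 1 + N (O ω) * t ω ≠ 0 := (hr1.trans_le h).ne'
          field_simp
          ring
        · simpa [div_eq_mul_inv] using (((hZ.mul htb).mul (hφO.mul hNO)).mul hinv).integrable
      rw [e, key hφ hb hZ hZm]
      calc _ = |∫ ω, Z ω * t ω * (φ (O ω) * N (O ω)) / (1 + N (O ω) * t ω) ∂P -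
            (∫ ω, Z ω * t ω ∂P) * ∫ ω, φ (O ω) * N (O ω) ∂P| := by
            rw [abs_sub_comm]; congr 1; ring
        _ ≤ _ := h
        _ = _ := by rw [hr]; ring
  obtain ⟨_, a, ha⟩ := hZ
  have lim : Tendsto (fun n : ℕ => a * b * ((1 - r)⁻¹ + 1) * r ^ n) atTop (nhds 0) := by
    simpa using (tendsto_pow_atTop_nhds_zero_of_lt_one hr0 hν).const_mul (a * b * ((1 - r)⁻¹ + 1))
  have := ge_of_tendsto' lim fun n => main n hφ hb ha hZm
  exact sub_eq_zero.1 (abs_nonpos_iff.1 this)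

/-- Bayes' formula for a block of observations that is conditionally independent of the rest given
a fair spin `s`. The observation is `O = act s Ô` with `Ô` independent of `K ∋ s`, and
`N ∘ O` is the conditional mean of `s` given `O` alone.
Proof: for `K`-measurable bounded `Z` one has `∫ Z φ(O) = (∫ Z) ∫ φ(O) + (∫ Z s) ∫ φ(O) N(O)`;
a geometric series gives `∫ Z φ(O) / (1 + N(O) s̄) = (∫ Z) ∫ φ(O)` for `m`-measurable `Z`, and
the formula is checked on rectangles with `ae_eq_condExp_sup`. -/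
lemma bayes_block {α : Type*} [mα : MeasurableSpace α] {K A m : MeasurableSpace Ω}
    (hK : K ≤ mΩ) (hA : A ≤ mΩ) (hind : Indep K A P) (hm : m ≤ K)
    {s : Ω → ℝ} (hs : Measurable[K] s) (hs1 : ∀ ω, s ω = 1 ∨ s ω = -1) (hs0 : ∫ ω, s ω ∂P = 0)
    {Oh : Ω → α} (hOh : Measurable[A] Oh) {act : ℝ → α → α} (hact : ∀ ε, Measurable (act ε))
    {O : Ω → α} (hO : ∀ ω, O ω = act (s ω) (Oh ω))
    {N : α → ℝ} (hN : Measurable N) {ν₁ ν₂ : ℝ} (hν : ν₁ * ν₂ < 1) (hν₂ : 0 ≤ ν₂)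
    (hN1 : ∀ o, |N o| ≤ ν₁) (hNs : (fun ω => N (O ω)) =ᵐ[P] P[s | mα.comap O])
    (hs2 : ∀ᵐ ω ∂P, |P[s | m] ω| ≤ ν₂)
    {f : Ω → ℝ} (hf : Bdd P f) (hfm : AEStronglyMeasurable[K] f P) :
    P[f | m ⊔ mα.comap O] =ᵐ[P] fun ω =>
      (P[f | m] ω + N (O ω) * P[fun ω => f ω * s ω | m] ω) / (1 + N (O ω) * P[s | m] ω) := by
  classical
  have hmΩ : m ≤ mΩ := hm.trans hK
  have hsΩ : Measurable[mΩ] s := hs.mono hK le_rfl
  have hOm : Measurable[mΩ] O := bayes_meas_obs hsΩ hs1 (hOh.mono hA le_rfl) hact hO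
  have hsb : Bdd P s := Bdd.of_meas hsΩ (K := 1) fun ω => by
    rcases hs1 ω with h | h <;> simp [h]
  have hcm : ∀ g : Ω → ℝ, Measurable[m] (P[g | m]) := fun g =>
    stronglyMeasurable_condExp.measurable
  have key : ∀ {φ : α → ℝ} {b : ℝ} {Z : Ω → ℝ}, Measurable φ → (∀ o, |φ o| ≤ b) → Bdd P Z →
      Measurable[m] Z → ∫ ω, Z ω * φ (O ω) ∂P = (∫ ω, Z ω ∂P) * (∫ ω, φ (O ω) ∂P) +
      (∫ ω, Z ω * P[s | m] ω ∂P) * ∫ ω, φ (O ω) * N (O ω) ∂P := by
    intro φ b Z hφ hb hZ hZm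
    rw [integral_mul_condExp hmΩ hsb hZ hZm.stronglyMeasurable.aestronglyMeasurable]
    exact bayes_key hK hA hind hs hs1 hs0 hOh hact hO hNs hφ hb hZ
      (hZm.mono hm le_rfl).stronglyMeasurable.aestronglyMeasurable
  have dec := @bayes_decouple Ω mΩ P _ α mα O hOm m hmΩ _ (hcm s) N hN ν₁ ν₂ hν hN1 hs2 key
  have hNO : Bdd P fun ω => N (O ω) := Bdd.of_meas (hN.comp hOm) fun ω => hN1 _
  have hr1 : 0 < 1 - ν₁ * ν₂ := by linarith
  have hinv : Bdd P fun ω => (1 + N (O ω) * P[s | m] ω)⁻¹ := by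
    refine Bdd.of_ae (((hN.comp hOm).mul ((hcm s).mono hmΩ le_rfl)).const_add 1).inv
      (K := (1 - ν₁ * ν₂)⁻¹) ?_
    filter_upwards [hs2] with ω h
    have h1 : |N (O ω) * P[s | m] ω| ≤ ν₁ * ν₂ := by
      rw [abs_mul]
      exact mul_le_mul (hN1 _) h (abs_nonneg _) ((abs_nonneg _).trans (hN1 (O ω)))
    have h2 : 1 - ν₁ * ν₂ ≤ 1 + N (O ω) * P[s | m] ω := by
      linarith [neg_abs_le (N (O ω) * P[s | m] ω)]
    rw [abs_of_pos (inv_pos.2 (hr1.trans_le h2))]
    exact inv_anti₀ hr1 h2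
  have hfc := hf.condExp m hmΩ
  have hfsc := (hf.mul hsb).condExp m hmΩ
  refine EventuallyEq.symm (ae_eq_condExp_sup hmΩ hOm.comap_le hf.integrable ?_ ?_ ?_)
  · simpa [div_eq_mul_inv] using ((hfc.add (hNO.mul hfsc)).mul hinv).integrable
  · have a1 : ∀ g : Ω → ℝ, Measurable[m ⊔ mα.comap O] (P[g | m]) := fun g =>
      (hcm g).mono le_sup_left le_rfl
    have a2 : Measurable[m ⊔ mα.comap O] fun ω => N (O ω) :=
      (hN.comp (comap_measurable O)).mono le_sup_right le_rfl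
    exact (((a1 _).add (a2.mul (a1 _))).div
      ((a2.mul (a1 _)).const_add 1)).stronglyMeasurable.aestronglyMeasurable
  · rintro S _ hS ⟨B, hB, rfl⟩
    have hSΩ : MeasurableSet[mΩ] S := hmΩ _ hS
    have hSB : MeasurableSet[mΩ] (S ∩ O ⁻¹' B) := hSΩ.inter (hOm hB)
    let χ : Ω → ℝ := S.indicator 1
    let φ : α → ℝ := B.indicator 1
    have χm : Measurable[m] χ := measurable_const.indicator hS
    have φm : Measurable φ := measurable_const.indicator hB
    have χb : Bdd P χ := Bdd.of_meas (χm.mono hmΩ le_rfl) (K := 1) fun ω => by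
      by_cases h : ω ∈ S <;> simp [χ, h]
    have φb : ∀ o, |φ o| ≤ 1 := fun o => by
      by_cases h : o ∈ B <;> simp [φ, h]
    have φO : Bdd P fun ω => φ (O ω) := Bdd.of_meas (φm.comp hOm) fun ω => φb _
    have hind' : ∀ g : Ω → ℝ, ∫ ω in S ∩ O ⁻¹' B, g ω ∂P = ∫ ω, χ ω * g ω * φ (O ω) ∂P := by
      intro g
      rw [← integral_indicator hSB]
      congr 1
      funext ω
      by_cases h1 : ω ∈ S <;> by_cases h2 : O ω ∈ B <;> simp [χ, φ, h1, h2]
    rw [hind', hind',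
      bayes_key hK hA hind hs hs1 hs0 hOh hact hO hNs φm φb (χb.mul hf)
        ((χm.mono hm le_rfl).stronglyMeasurable.aestronglyMeasurable.mul hfm)]
    have d1 := dec φm φb (χb.mul hfc) (χm.mul (hcm f))
    have d2 := dec (φ := fun o => φ o * N o) (b := 1 * ν₁) (φm.mul hN)
      (fun o => by rw [abs_mul]; exact mul_le_mul (φb o) (hN1 o) (abs_nonneg _) zero_le_one)
      (χb.mul hfsc) (χm.mul (hcm _))
    rw [integral_mul_condExp hmΩ hf χb χm.stronglyMeasurable.aestronglyMeasurable] at d1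
    rw [integral_mul_condExp hmΩ (hf.mul hsb) χb χm.stronglyMeasurable.aestronglyMeasurable] at d2
    simp only [← mul_assoc] at d2
    rw [← d1, ← d2, ← integral_add]
    · congr 1
      funext ω
      ring
    · simpa [div_eq_mul_inv] using (((χb.mul hfc).mul φO).mul hinv).integrable
    · simpa [div_eq_mul_inv] using ((((χb.mul hfsc).mul φO).mul hNO).mul hinv).integrable

end Crest.Agent.R160

end
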