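import Crest.Agent.R160.Scalar

/-! Row 160: toolkit on bounded random variables and conditional expectations. -/

noncomputable section

namespace Crest.Agent.R160

open MeasureTheory ProbabilityTheory Filter

variable {Ω : Type*} {mΩ : MeasurableSpace Ω} {P : Measure Ω}

/-- Essentially bounded random variables. -/
def Bdd {Ω : Type*} {mΩ : MeasurableSpace Ω} (P : Measure Ω) (f : Ω → ℝ) : Prop :=
  AEStronglyMeasurable f P ∧ ∃ K : ℝ, ∀ᵐ ω ∂P, |f ω| ≤ K

namespace Bdd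

variable {f g : Ω → ℝ}

lemma of_meas (hf : Measurable f) {K : ℝ} (hK : ∀ ω, |f ω| ≤ K) : Bdd P f :=
  ⟨hf.aestronglyMeasurable, K, Eventually.of_forall hK⟩

lemma of_ae (hf : Measurable f) {K : ℝ} (hK : ∀ᵐ ω ∂P, |f ω| ≤ K) : Bdd P f :=
  ⟨hf.aestronglyMeasurable, K, hK⟩

lemma integrable [IsFiniteMeasure P] (hf : Bdd P f) : Integrable f P := by
  obtain ⟨h, K, hK⟩ := hf
  exact Integrable.of_bound h K (by simpa using hK)

lemma memLp [IsFiniteMeasure P] (hf : Bdd P f) (p : ENNReal) : MemLp f p P := by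
  obtain ⟨h, K, hK⟩ := hf
  exact MemLp.of_bound h K (by simpa using hK)

lemma const (c : ℝ) : Bdd P (fun _ => c) :=
  ⟨aestronglyMeasurable_const, |c|, Eventually.of_forall fun _ => le_rfl⟩

lemma congr (hf : Bdd P f) (h : f =ᵐ[P] g) : Bdd P g := by
  obtain ⟨h1, K, hK⟩ := hf
  refine ⟨h1.congr h, K, ?_⟩
  filter_upwards [hK, h] with ω h2 h3 using h3 ▸ h2

lemma add (hf : Bdd P f) (hg : Bdd P g) : Bdd P (fun ω => f ω + g ω) := by
  obtain ⟨h1, K, hK⟩ := hf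
  obtain ⟨h2, L, hL⟩ := hg
  refine ⟨h1.add h2, K + L, ?_⟩
  filter_upwards [hK, hL] with ω a b using (abs_add_le _ _).trans (add_le_add a b)

lemma neg (hf : Bdd P f) : Bdd P (fun ω => -f ω) := by
  obtain ⟨h1, K, hK⟩ := hf
  exact ⟨h1.neg, K, by simpa using hK⟩

lemma sub (hf : Bdd P f) (hg : Bdd P g) : Bdd P (fun ω => f ω - g ω) := by
  simpa [sub_eq_add_neg] using hf.add hg.neg

lemma mul (hf : Bdd P f) (hg : Bdd P g) : Bdd P (fun ω => f ω * g ω) := by
  obtain ⟨h1, K, hK⟩ := hf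
  obtain ⟨h2, L, hL⟩ := hg
  refine ⟨h1.mul h2, K * L, ?_⟩
  filter_upwards [hK, hL] with ω a b
  rw [abs_mul]
  exact mul_le_mul a b (abs_nonneg _) ((abs_nonneg _).trans a)

lemma pow (hf : Bdd P f) (n : ℕ) : Bdd P (fun ω => f ω ^ n) := by
  induction n with
  | zero => simpa using Bdd.const 1
  | succ n ih => simpa [pow_succ] using ih.mul hf

lemma abs (hf : Bdd P f) : Bdd P (fun ω => |f ω|) := by
  obtain ⟨h1, K, hK⟩ := hf
  exact ⟨continuous_abs.comp_aestronglyMeasurable h1, K, by simpa using hK⟩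

lemma const_mul (c : ℝ) (hf : Bdd P f) : Bdd P (fun ω => c * f ω) := (Bdd.const c).mul hf

lemma div_const (hf : Bdd P f) (c : ℝ) : Bdd P (fun ω => f ω / c) := by
  simpa [div_eq_mul_inv] using hf.mul (Bdd.const c⁻¹)

lemma exp (hf : Bdd P f) : Bdd P (fun ω => Real.exp (f ω)) := by
  obtain ⟨h1, K, hK⟩ := hf
  refine ⟨Real.continuous_exp.comp_aestronglyMeasurable h1, Real.exp K, ?_⟩
  filter_upwards [hK] with ω a
  rw [abs_of_pos (Real.exp_pos _)]
  exact Real.exp_le_exp.2 ((le_abs_self _).trans a)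

lemma sum {ι : Type*} (s : Finset ι) {F : ι → Ω → ℝ} (h : ∀ i ∈ s, Bdd P (F i)) :
    Bdd P (fun ω => ∑ i ∈ s, F i ω) := by
  classical
  induction s using Finset.induction_on with
  | empty => simpa using Bdd.const 0
  | insert a s ha ih =>
    simp only [Finset.sum_insert ha]
    exact (h a (by simp)).add (ih fun i hi => h i (by simp [hi]))

lemma prod {ι : Type*} (s : Finset ι) {F : ι → Ω → ℝ} (h : ∀ i ∈ s, Bdd P (F i)) :
    Bdd P (fun ω => ∏ i ∈ s, F i ω) := by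
  classical
  induction s using Finset.induction_on with
  | empty => simpa using Bdd.const 1
  | insert a s ha ih =>
    simp only [Finset.prod_insert ha]
    exact (h a (by simp)).mul (ih fun i hi => h i (by simp [hi]))

lemma condExp (hf : Bdd P f) (m : MeasurableSpace Ω) (hm : m ≤ mΩ) : Bdd P (P[f | m]) := by
  obtain ⟨_, K, hK⟩ := hf
  exact ⟨(stronglyMeasurable_condExp.mono hm).aestronglyMeasurable, K,
    ae_bdd_abs_condExp_of_ae_bdd_abs hK⟩

lemma comp_mp (hf : Bdd P f) {Θ : Ω → Ω} (hΘ : MeasurePreserving Θ P P) :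
    Bdd P (fun ω => f (Θ ω)) := by
  obtain ⟨h1, K, hK⟩ := hf
  exact ⟨h1.comp_measurePreserving hΘ, K, hΘ.quasiMeasurePreserving.ae hK⟩

end Bdd

/-- A version of the conditional expectation clipped to `[-1,1]`. -/
def cE {Ω : Type*} {mΩ : MeasurableSpace Ω} (P : Measure Ω) (m : MeasurableSpace Ω)
    (f : Ω → ℝ) : Ω → ℝ := fun ω => clip 1 (P[f | m] ω)

lemma abs_cE_le (m : MeasurableSpace Ω) (f : Ω → ℝ) (ω : Ω) : |cE P m f ω| ≤ 1 :=
  abs_clip_le zero_le_one _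

lemma measurable_cE (m : MeasurableSpace Ω) (f : Ω → ℝ) : Measurable[m] (cE P m f) :=
  Measurable.clip' 1 stronglyMeasurable_condExp.measurable

lemma cE_ae_eq (m : MeasurableSpace Ω) {f : Ω → ℝ} (hf : ∀ᵐ ω ∂P, |f ω| ≤ 1) :
    cE P m f =ᵐ[P] P[f | m] := by
  filter_upwards [ae_bdd_abs_condExp_of_ae_bdd_abs (m := m) hf] with ω h
  exact clip_of_abs_le h

lemma bdd_cE {m : MeasurableSpace Ω} (hm : m ≤ mΩ) (f : Ω → ℝ) : Bdd P (cE P m f) :=
  Bdd.of_meas ((measurable_cE m f).mono hm le_rfl) (abs_cE_le m f)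

section

variable [IsProbabilityMeasure P]

/-- Testing against a bounded `m`-measurable variable. -/
lemma integral_mul_condExp {m : MeasurableSpace Ω} (hm : m ≤ mΩ) {f Z : Ω → ℝ} (hf : Bdd P f)
    (hZ : Bdd P Z) (hZm : AEStronglyMeasurable[m] Z P) :
    ∫ ω, Z ω * P[f | m] ω ∂P = ∫ ω, Z ω * f ω ∂P := by
  have h1 := condExp_mul_of_aestronglyMeasurable_left (μ := P) (m := m) hZm
    (hZ.mul hf).integrable hf.integrable
  have h2 : ∫ ω, P[Z * f | m] ω ∂P = ∫ ω, (Z * f) ω ∂P := integral_condExp hm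
  rw [integral_congr_ae h1] at h2
  exact h2

/-- Characterisation of the conditional expectation on a generating π-system. -/
lemma ae_eq_condExp_of_piSystem {m : MeasurableSpace Ω} (hm : m ≤ mΩ) {C : Set (Set Ω)}
    (hC : IsPiSystem C) (hgen : m = MeasurableSpace.generateFrom C) {f g : Ω → ℝ}
    (hf : Integrable f P) (hg : Integrable g P) (hgm : AEStronglyMeasurable[m] g P)
    (huniv : ∫ ω, g ω ∂P = ∫ ω, f ω ∂P)
    (h : ∀ A ∈ C, ∫ ω in A, g ω ∂P = ∫ ω in A, f ω ∂P) : g =ᵐ[P] P[f | m] := by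
  refine ae_eq_condExp_of_forall_setIntegral_eq hm hf (fun s _ _ => hg.integrableOn)
    (fun s hs _ => ?_) hgm
  induction s, hs using MeasurableSpace.induction_on_inter hgen hC with
  | empty => simp
  | basic t ht => exact h t ht
  | compl t htm ih =>
    rw [setIntegral_compl (hm _ htm) hg, setIntegral_compl (hm _ htm) hf, huniv,
      ih (measure_lt_top _ _)]
  | iUnion F hd hF ih =>
    rw [integral_iUnion (fun n => hm _ (hF n)) hd hg.integrableOn,
      integral_iUnion (fun n => hm _ (hF n)) hd hf.integrableOn]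
    exact tsum_congr fun n => ih n (measure_lt_top _ _)

/-- Same, for the join of two σ-algebras. -/
lemma ae_eq_condExp_sup {m₁ m₂ : MeasurableSpace Ω} (h₁ : m₁ ≤ mΩ) (h₂ : m₂ ≤ mΩ) {f g : Ω → ℝ}
    (hf : Integrable f P) (hg : Integrable g P) (hgm : AEStronglyMeasurable[m₁ ⊔ m₂] g P)
    (h : ∀ A B, MeasurableSet[m₁] A → MeasurableSet[m₂] B →
      ∫ ω in A ∩ B, g ω ∂P = ∫ ω in A ∩ B, f ω ∂P) : g =ᵐ[P] P[f | m₁ ⊔ m₂] := by
  refine ae_eq_condExp_of_piSystem (sup_le h₁ h₂)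
    (C := {S | ∃ A B, MeasurableSet[m₁] A ∧ MeasurableSet[m₂] B ∧ S = A ∩ B}) ?_ ?_ hf hg hgm ?_ ?_
  · rintro _ ⟨A, B, hA, hB, rfl⟩ _ ⟨A', B', hA', hB', rfl⟩ -
    exact ⟨A ∩ A', B ∩ B', hA.inter hA', hB.inter hB', by ext; simp; tauto⟩
  · apply le_antisymm
    · refine sup_le (fun A hA => ?_) (fun B hB => ?_)
      · exact MeasurableSpace.measurableSet_generateFrom
          ⟨A, Set.univ, hA, MeasurableSet.univ, by simp⟩
      · exact MeasurableSpace.measurableSet_generateFrom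
          ⟨Set.univ, B, MeasurableSet.univ, hB, by simp⟩
    · refine MeasurableSpace.generateFrom_le ?_
      rintro _ ⟨A, B, hA, hB, rfl⟩
      exact MeasurableSet.inter ((le_sup_left : m₁ ≤ m₁ ⊔ m₂) _ hA)
        ((le_sup_right : m₂ ≤ m₁ ⊔ m₂) _ hB)
  · simpa using h Set.univ Set.univ MeasurableSet.univ MeasurableSet.univ
  · rintro _ ⟨A, B, hA, hB, rfl⟩
    exact h A B hA hB

omit [IsProbabilityMeasure P] in
lemma aesm_indicator {K : MeasurableSpace Ω} {f : Ω → ℝ} (hfm : AEStronglyMeasurable[K] f P)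
    {A : Set Ω} (hA : MeasurableSet[K] A) : AEStronglyMeasurable[K] (A.indicator f) P :=
  ⟨A.indicator (hfm.mk f), hfm.stronglyMeasurable_mk.indicator hA, hfm.ae_eq_mk.indicator⟩

/-- Product of independent variables (no integrability needed). -/
lemma integral_mul_of_indep' {m₁ m₂ : MeasurableSpace Ω} (h₁ : m₁ ≤ mΩ) (h₂ : m₂ ≤ mΩ)
    (hind : Indep m₁ m₂ P) {f g : Ω → ℝ}
    (hfm : AEStronglyMeasurable[m₁] f P) (hgm : AEStronglyMeasurable[m₂] g P) :
    ∫ ω, f ω * g ω ∂P = (∫ ω, f ω ∂P) * ∫ ω, g ω ∂P := by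
  have h1 : IndepFun (hfm.mk f) (hgm.mk g) P := by
    rw [IndepFun_iff_Indep]
    exact indep_of_indep_of_le_right (indep_of_indep_of_le_left hind
      hfm.stronglyMeasurable_mk.measurable.comap_le) hgm.stronglyMeasurable_mk.measurable.comap_le
  have h2 : IndepFun f g P := h1.congr hfm.ae_eq_mk.symm hgm.ae_eq_mk.symm
  exact h2.integral_fun_mul_eq_mul_integral (hfm.mono h₁) (hgm.mono h₂)

lemma setIntegral_inter_of_indep {K m₂ : MeasurableSpace Ω} (hK : K ≤ mΩ) (h₂ : m₂ ≤ mΩ)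
    (hind : Indep K m₂ P) {f : Ω → ℝ} (hfm : AEStronglyMeasurable[K] f P) {A B : Set Ω}
    (hA : MeasurableSet[K] A) (hB : MeasurableSet[m₂] B) :
    ∫ ω in A ∩ B, f ω ∂P = (∫ ω in A, f ω ∂P) * P.real B := by
  have h1 := integral_mul_of_indep' hK h₂ hind
    (aesm_indicator hfm hA)
    (g := B.indicator fun _ => (1 : ℝ))
    (stronglyMeasurable_const.indicator hB).aestronglyMeasurable
  rw [integral_indicator (hK _ hA), integral_indicator (h₂ _ hB)] at h1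
  rw [← integral_indicator ((hK _ hA).inter (h₂ _ hB))]
  simp only [setIntegral_const, smul_eq_mul, mul_one] at h1
  rw [← h1]
  congr 1
  ext ω
  by_cases hω : ω ∈ A <;> by_cases hω' : ω ∈ B <;> simp [hω, hω']

/-- Independent extra information does not change a conditional expectation. -/
lemma condExp_sup_indep {m₁ m₂ K : MeasurableSpace Ω} (hK : K ≤ mΩ) (h₂ : m₂ ≤ mΩ)
    (h₁ : m₁ ≤ K) (hind : Indep K m₂ P) {f : Ω → ℝ} (hf : Integrable f P)
    (hfm : AEStronglyMeasurable[K] f P) : P[f | m₁ ⊔ m₂] =ᵐ[P] P[f | m₁] := by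
  have h₁' : m₁ ≤ mΩ := h₁.trans hK
  refine (ae_eq_condExp_sup h₁' h₂ hf integrable_condExp
    (stronglyMeasurable_condExp.mono (le_sup_left : m₁ ≤ m₁ ⊔ m₂)).aestronglyMeasurable ?_).symm
  intro A B hA hB
  rw [setIntegral_inter_of_indep hK h₂ hind
      (stronglyMeasurable_condExp.mono h₁).aestronglyMeasurable (h₁ _ hA) hB,
    setIntegral_inter_of_indep hK h₂ hind hfm (h₁ _ hA) hB, setIntegral_condExp h₁' hf hA]

/-- Product of independent bounded variables. -/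
lemma integral_mul_of_indep {m₁ m₂ : MeasurableSpace Ω} (h₁ : m₁ ≤ mΩ) (h₂ : m₂ ≤ mΩ)
    (hind : Indep m₁ m₂ P) {f g : Ω → ℝ} (hf : Bdd P f) (hg : Bdd P g)
    (hfm : AEStronglyMeasurable[m₁] f P) (hgm : AEStronglyMeasurable[m₂] g P) :
    ∫ ω, f ω * g ω ∂P = (∫ ω, f ω ∂P) * ∫ ω, g ω ∂P := by
  exact integral_mul_of_indep' h₁ h₂ hind hfm hgm

/-- Multiplying by an independent factor: `E[f τ | m] = E[τ] E[f | m]`. -/
lemma condExp_mul_indep {m K m₂ : MeasurableSpace Ω} (hK : K ≤ mΩ) (h₂ : m₂ ≤ mΩ) (hm : m ≤ K)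
    (hind : Indep K m₂ P) {f τ : Ω → ℝ} (hf : Bdd P f) (hτ : Bdd P τ)
    (hfm : AEStronglyMeasurable[K] f P) (hτm : AEStronglyMeasurable[m₂] τ P) :
    P[fun ω => f ω * τ ω | m] =ᵐ[P] fun ω => (∫ ω, τ ω ∂P) * P[f | m] ω := by
  have hm' : m ≤ mΩ := hm.trans hK
  refine (ae_eq_condExp_of_forall_setIntegral_eq hm' (hf.mul hτ).integrable
    (fun s _ _ => (integrable_condExp.const_mul _).integrableOn) (fun s hs _ => ?_)
    (stronglyMeasurable_condExp.const_mul _).aestronglyMeasurable).symm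
  rw [integral_const_mul, setIntegral_condExp hm' hf.integrable hs]
  have h1 := integral_mul_of_indep' hK h₂ hind
    (aesm_indicator hfm (hm _ hs)) hτm
  rw [integral_indicator (hm' _ hs)] at h1
  rw [mul_comm, ← h1, ← integral_indicator (hm' _ hs)]
  congr 1
  ext ω
  by_cases hω : ω ∈ s <;> simp [hω]

omit [IsProbabilityMeasure P] in
lemma mp_integrable {Θ : Ω → Ω} (hΘ : MeasurePreserving Θ P P) {f : Ω → ℝ} (hf : Integrable f P) :
    Integrable (fun ω => f (Θ ω)) P := hΘ.integrable_comp_of_integrable hf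

omit [IsProbabilityMeasure P] in
lemma mp_setIntegral {Θ : Ω → Ω} (hΘ : MeasurePreserving Θ P P) {g : Ω → ℝ} (hg : Integrable g P)
    {A : Set Ω} (hA : MeasurableSet A) : ∫ ω in Θ ⁻¹' A, g (Θ ω) ∂P = ∫ ω in A, g ω ∂P := by
  have := setIntegral_map (μ := P) (g := Θ) (f := g) hA
    (by rw [hΘ.map_eq]; exact hg.aestronglyMeasurable) hΘ.measurable.aemeasurable
  rw [hΘ.map_eq] at this
  exact this.symm

/-- Conditional expectations commute with measure preserving maps. -/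
lemma condExp_comp_mp {Θ : Ω → Ω} (hΘ : MeasurePreserving Θ P P)
    {m : MeasurableSpace Ω} (hm : m ≤ mΩ) {f : Ω → ℝ} (hf : Integrable f P) :
    (fun ω => P[f | m] (Θ ω)) =ᵐ[P] P[fun ω => f (Θ ω) | m.comap Θ] := by
  have hΘm : @Measurable _ _ mΩ mΩ Θ := @MeasurePreserving.measurable _ _ mΩ mΩ _ _ _ hΘ
  have hm' : m.comap Θ ≤ mΩ := (MeasurableSpace.comap_mono hm).trans hΘm.comap_le
  refine ae_eq_condExp_of_forall_setIntegral_eq hm' (mp_integrable hΘ hf)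
    (fun s _ _ => (mp_integrable hΘ integrable_condExp).integrableOn)
    (fun s hs _ => ?_) ?_
  · obtain ⟨A, hA, rfl⟩ := hs
    have key : ∀ g : Ω → ℝ, Integrable g P → ∫ ω in Θ ⁻¹' A, g (Θ ω) ∂P = ∫ ω in A, g ω ∂P :=
      fun g hg => mp_setIntegral hΘ hg (hm _ hA)
    rw [key _ integrable_condExp, key _ hf, setIntegral_condExp hm hf hA]
  · have hΘm' : Measurable[m.comap Θ, m] Θ := Measurable.of_comap_le le_rfl
    exact (stronglyMeasurable_condExp.comp_measurable hΘm').aestronglyMeasurable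

/-- Two random variables that are almost surely functions of each other give the same
conditional expectations. -/
lemma condExp_comap_congr {β β' : Type*} [mβ : MeasurableSpace β] [mβ' : MeasurableSpace β']
    {X : Ω → β} {X' : Ω → β'} (hX : Measurable X) (hX' : Measurable X') {κ : β' → β}
    {κ' : β → β'} (hκ : Measurable κ) (hκ' : Measurable κ') (h : ∀ᵐ ω ∂P, X ω = κ (X' ω))
    (h' : ∀ᵐ ω ∂P, X' ω = κ' (X ω)) (f : Ω → ℝ) :
    P[f | mβ.comap X] =ᵐ[P] P[f | mβ'.comap X'] := by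
  by_cases hf : Integrable f P
  swap
  · rw [condExp_of_not_integrable hf, condExp_of_not_integrable hf]
  refine ae_eq_condExp_of_forall_setIntegral_eq hX'.comap_le hf
    (fun s _ _ => integrable_condExp.integrableOn) (fun s hs _ => ?_) ?_
  · obtain ⟨A, hA, rfl⟩ := hs
    have hs : X' ⁻¹' A =ᵐ[P] X ⁻¹' (κ' ⁻¹' A) := by
      filter_upwards [h'] with ω hω
      change (X' ω ∈ A) = (κ' (X ω) ∈ A)
      rw [← hω]
    rw [setIntegral_congr_set hs, setIntegral_congr_set hs]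
    exact setIntegral_condExp hX.comap_le hf ⟨_, hκ' hA, rfl⟩
  · obtain ⟨φ, hφ, hφe⟩ :=
      (stronglyMeasurable_condExp (m := mβ.comap X) (μ := P) (f := f)).exists_eq_measurable_comp
    refine ⟨fun ω => φ (κ (X' ω)), ?_, ?_⟩
    · have hX'm : Measurable[mβ'.comap X', mβ'] X' := Measurable.of_comap_le le_rfl
      exact hφ.comp_measurable (hκ.comp hX'm)
    · filter_upwards [h] with ω hω
      rw [hφe, ← hω]
      rfl

/-- Best approximation property. -/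
lemma integral_sq_sub_condExp_le {m : MeasurableSpace Ω} (hm : m ≤ mΩ) {f Z : Ω → ℝ}
    (hf : Bdd P f) (hZ : Bdd P Z) (hZm : AEStronglyMeasurable[m] Z P) :
    ∫ ω, (f ω - P[f | m] ω) ^ 2 ∂P ≤ ∫ ω, (f ω - Z ω) ^ 2 ∂P := by
  have hg := hf.condExp m hm
  have hgm : AEStronglyMeasurable[m] (P[f | m]) P :=
    stronglyMeasurable_condExp.aestronglyMeasurable
  have h1 := integral_mul_condExp hm hf (hg.sub hZ) (hgm.sub hZm)
  have h2 : ∫ ω, (f ω - Z ω) ^ 2 ∂P = ∫ ω, (f ω - P[f | m] ω) ^ 2 ∂P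
      + ∫ ω, (P[f | m] ω - Z ω) ^ 2 ∂P + 2 * (∫ ω, (P[f | m] ω - Z ω) * f ω ∂P
        - ∫ ω, (P[f | m] ω - Z ω) * P[f | m] ω ∂P) := by
    rw [← integral_sub ((hg.sub hZ).mul hf).integrable ((hg.sub hZ).mul hg).integrable,
      ← integral_const_mul,
      ← integral_add ((hf.sub hg).pow 2).integrable ((hg.sub hZ).pow 2).integrable,
      ← integral_add (((hf.sub hg).pow 2).add ((hg.sub hZ).pow 2)).integrable
        ((((hg.sub hZ).mul hf).sub ((hg.sub hZ).mul hg)).const_mul 2).integrable]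
    congr 1
    ext ω
    ring
  have h3 : 0 ≤ ∫ ω, (P[f | m] ω - Z ω) ^ 2 ∂P := integral_nonneg fun ω => sq_nonneg _
  rw [h2, h1]
  linarith

lemma integral_mul_self_condExp' {m : MeasurableSpace Ω} (hm : m ≤ mΩ) {f : Ω → ℝ}
    (hf : Bdd P f) : ∫ ω, f ω * P[f | m] ω ∂P = ∫ ω, P[f | m] ω ^ 2 ∂P := by
  have h1 := integral_mul_condExp hm hf (hf.condExp m hm)
    stronglyMeasurable_condExp.aestronglyMeasurable
  simp only [sq]
  rw [h1]
  simp only [mul_comm]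

lemma integral_sq_sub_condExp_eq {m : MeasurableSpace Ω} (hm : m ≤ mΩ) {f : Ω → ℝ}
    (hf : Bdd P f) : ∫ ω, (f ω - P[f | m] ω) ^ 2 ∂P =
      ∫ ω, f ω ^ 2 ∂P - ∫ ω, P[f | m] ω ^ 2 ∂P := by
  have hg := hf.condExp m hm
  have h1 := integral_mul_self_condExp' hm hf
  have h2 : ∫ ω, (f ω - P[f | m] ω) ^ 2 ∂P = ∫ ω, (f ω ^ 2 + P[f | m] ω ^ 2
      - 2 * (f ω * P[f | m] ω)) ∂P := by
    congr 1
    ext ω
    ring
  rw [h2, integral_sub ((hf.pow 2).add (hg.pow 2)).integrable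
    ((hf.mul hg).const_mul 2).integrable, integral_add (hf.pow 2).integrable (hg.pow 2).integrable,
    integral_const_mul, h1]
  ring

lemma integral_condExp_sq_le {m : MeasurableSpace Ω} (hm : m ≤ mΩ) {f : Ω → ℝ} (hf : Bdd P f) :
    ∫ ω, P[f | m] ω ^ 2 ∂P ≤ ∫ ω, f ω ^ 2 ∂P := by
  have h1 := integral_sq_sub_condExp_eq hm hf
  have h3 : 0 ≤ ∫ ω, (f ω - P[f | m] ω) ^ 2 ∂P := integral_nonneg fun ω => sq_nonneg _
  linarith

/-- Pythagoras for nested σ-algebras. -/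
lemma integral_sq_condExp_sub {m₁ m₂ : MeasurableSpace Ω} (h : m₁ ≤ m₂) (h₂ : m₂ ≤ mΩ)
    {f : Ω → ℝ} (hf : Bdd P f) :
    ∫ ω, (P[f | m₂] ω - P[f | m₁] ω) ^ 2 ∂P =
      ∫ ω, P[f | m₂] ω ^ 2 ∂P - ∫ ω, P[f | m₁] ω ^ 2 ∂P := by
  have hg := hf.condExp m₂ h₂
  have ht : P[P[f | m₂] | m₁] =ᵐ[P] P[f | m₁] := condExp_condExp_of_le h h₂
  have h1 := integral_sq_sub_condExp_eq (h.trans h₂) hg
  rw [integral_congr_ae (g := fun ω => (P[f | m₂] ω - P[f | m₁] ω) ^ 2)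
      (by filter_upwards [ht] with ω hω; rw [hω]),
    integral_congr_ae (f := fun ω => P[P[f | m₂] | m₁] ω ^ 2) (g := fun ω => P[f | m₁] ω ^ 2)
      (by filter_upwards [ht] with ω hω; rw [hω])] at h1
  exact h1

lemma integral_condExp_sq_mono {m₁ m₂ : MeasurableSpace Ω} (h : m₁ ≤ m₂) (h₂ : m₂ ≤ mΩ)
    {f : Ω → ℝ} (hf : Bdd P f) :
    ∫ ω, P[f | m₁] ω ^ 2 ∂P ≤ ∫ ω, P[f | m₂] ω ^ 2 ∂P := by
  have h1 := integral_sq_condExp_sub h h₂ hf
  have h3 : 0 ≤ ∫ ω, (P[f | m₂] ω - P[f | m₁] ω) ^ 2 ∂P := integral_nonneg fun ω => sq_nonneg _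
  linarith

lemma integral_mul_self_condExp {m : MeasurableSpace Ω} (hm : m ≤ mΩ) {f : Ω → ℝ}
    (hf : Bdd P f) : ∫ ω, f ω * P[f | m] ω ∂P = ∫ ω, P[f | m] ω ^ 2 ∂P := by
  exact integral_mul_self_condExp' hm hf

/-- Lévy's upward theorem in `L²`. -/
lemma tendsto_integral_sq_condExp {m : ℕ → MeasurableSpace Ω} (hmono : Monotone m)
    (hle : ∀ n, m n ≤ mΩ) {f : Ω → ℝ} (hf : Bdd P f) :
    Tendsto (fun n => ∫ ω, (P[f | m n] ω - P[f | ⨆ n, m n] ω) ^ 2 ∂P) atTop (nhds 0) := by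
  let ℱ : Filtration ℕ mΩ := ⟨m, hmono, hle⟩
  have hae := tendsto_ae_condExp (μ := P) (ℱ := ℱ) f
  obtain ⟨hf1, K, hK⟩ := hf
  have hb : ∀ n, ∀ᵐ ω ∂P, |P[f | m n] ω| ≤ K := fun n => ae_bdd_abs_condExp_of_ae_bdd_abs hK
  have hb' : ∀ᵐ ω ∂P, |P[f | ⨆ n, m n] ω| ≤ K := ae_bdd_abs_condExp_of_ae_bdd_abs hK
  have hsup : (⨆ n, m n) ≤ mΩ := iSup_le hle
  have := tendsto_integral_of_dominated_convergence (μ := P)
    (F := fun n ω => (P[f | m n] ω - P[f | ⨆ n, m n] ω) ^ 2) (f := fun _ => (0 : ℝ))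
    (fun _ => (2 * K) ^ 2)
    (fun n => (((stronglyMeasurable_condExp.mono (hle n)).sub
      (stronglyMeasurable_condExp.mono hsup)).pow 2).aestronglyMeasurable)
    (integrable_const _) (fun n => ?_) ?_
  · simpa using this
  · filter_upwards [hb n, hb'] with ω h1 h2
    rw [Real.norm_eq_abs, abs_pow]
    refine pow_le_pow_left₀ (abs_nonneg _) ?_ 2
    refine (abs_sub _ _).trans ?_
    linarith
  · filter_upwards [hae] with ω hω
    have h2 : Tendsto (fun n => P[f | m n] ω) atTop (nhds (P[f | ⨆ n, m n] ω)) := hω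
    have := (h2.sub_const (P[f | ⨆ n, m n] ω)).pow 2
    simpa using this

/-- Cauchy–Schwarz. -/
lemma abs_integral_mul_le {f g : Ω → ℝ} (hf : Bdd P f) (hg : Bdd P g) :
    |∫ ω, f ω * g ω ∂P| ≤ √(∫ ω, f ω ^ 2 ∂P) * √(∫ ω, g ω ^ 2 ∂P) := by
  have hA : 0 ≤ ∫ ω, f ω ^ 2 ∂P := integral_nonneg fun ω => sq_nonneg _
  rw [← Real.sqrt_mul hA]
  refine Real.abs_le_sqrt ?_
  have key : ∀ t : ℝ, 0 ≤ (∫ ω, f ω ^ 2 ∂P) * (t * t) + (2 * ∫ ω, f ω * g ω ∂P) * t
      + ∫ ω, g ω ^ 2 ∂P := by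
    intro t
    have h0 : 0 ≤ ∫ ω, (t * f ω + g ω) ^ 2 ∂P := integral_nonneg fun ω => sq_nonneg _
    have h1 : ∫ ω, (t * f ω + g ω) ^ 2 ∂P = ∫ ω, (t * t * f ω ^ 2 + 2 * t * (f ω * g ω)
        + g ω ^ 2) ∂P := by
      congr 1
      ext ω
      ring
    rw [h1, integral_add (((hf.pow 2).const_mul _).add ((hf.mul hg).const_mul _)).integrable
      (hg.pow 2).integrable, integral_add ((hf.pow 2).const_mul _).integrable
      ((hf.mul hg).const_mul _).integrable, integral_const_mul, integral_const_mul] at h0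
    linarith
  have := discrim_le_zero key
  rw [discrim] at this
  nlinarith

end

end Crest.Agent.R160

end
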