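import Crest.Agent.R160.Moments

/-! Row 160: decay of the geodesic products, plain and weighted. -/

noncomputable section

namespace Crest.Agent.R160

open Classical MeasureTheory ProbabilityTheory

universe u

namespace Setup

variable {V : Type u} (S : Setup V)

/-- One step: `z` is a child of `y` and `G ≥ 0` does not depend on the branch behind `z`.
`rh th x y = rho θ (op Z Yz)` with `Z = mh th₁ y`, `th₁ = res th (sub x y ∩ sub z y)`,
`Yz = mh (res th (sub y z)) y` (`m_merge`, `spin_mul_op`), `rho_op_le`, and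
`E[(Z+Yz)² G] ≥ Var(Yz) E G`, `Var Yz = x₂ - x₂² ≥ x₂/2`, `x₂ = θ² ∫ n th y z ^2 ≥ θ² q s`. -/
lemma integral_rh_mul_le {th : V × ℕ → ℝ} {s : ℝ} {x y z : V} (h : S.G.Adj x y)
    (hz : z ∈ S.ch x y) (hth : ∀ w, w.1 ∈ S.sub y z → s ≤ th w) {Z : S.Om → ℝ}
    (hZ : Bdd S.P Z) (hZ0 : ∀ ω, 0 ≤ Z ω) (hZm : Measurable[S.I (S.reg (S.sub z y))] Z) :
    ∫ ω, S.rh th x y ω * Z ω ∂S.P ≤ S.vt s * ∫ ω, Z ω ∂S.P := by
  have hyz : S.G.Adj y z := (S.mem_ch.1 hz).2
  have hzy : S.G.Adj z y := hyz.symm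
  set th₁ := res th (S.sub x y ∩ S.sub z y) with hth₁
  set th₂ := res th (S.sub y z) with hth₂
  have hsub : S.sub y z ⊆ S.sub x y := S.sub_ch_subset h hz
  have hsplit : ∀ w ω, S.tm w ω < res th (S.sub x y) w ↔
      S.tm w ω < th₁ w ∨ S.tm w ω < th₂ w := by
    intro w ω
    have h0 : ¬ S.tm w ω < 0 := not_lt.2 (S.tm_nonneg w ω)
    by_cases hw : w.1 ∈ S.sub y z
    · have h1 : w.1 ∉ S.sub z y := fun h' => ((S.not_mem_sub_iff hyz _).2 h') hw
      simp [hth₁, hth₂, res, hw, hsub hw, h1, h0]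
    · have h1 : w.1 ∈ S.sub z y := (S.not_mem_sub_iff hyz _).1 hw
      simp [hth₁, hth₂, res, hw, h1, h0]
  have hs₁ : Supp th₁ (S.sub z y) := (supp_res th _).mono Set.inter_subset_right
  have hs₂ : Supp th₂ (S.sub y z) := supp_res th _
  set X := S.mh th₁ y with hX
  set Y := S.mh th₂ y with hY
  have hXb : Bdd S.P X := S.bdd_mh _ _
  have hYb : Bdd S.P Y := S.bdd_mh _ _
  have hXm : Measurable[S.I (S.reg (S.sub z y))] X :=
    S.measurable_mh_of_Dh (S.measurable_Dh_reg hzy hs₁ (S.self_mem_sub hzy))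
  have hYm : Measurable[S.I (S.reg (S.sub z y))ᶜ] Y :=
    S.measurable_mh_of_Dh (S.measurable_Dh_creg hyz hs₂)
  have hind : Indep (S.I (S.reg (S.sub z y))) (S.I (S.reg (S.sub z y))ᶜ) S.P :=
    S.indep_I disjoint_compl_right
  -- the pointwise bound
  have hpt : ∀ᵐ ω ∂S.P, S.rh th x y ω * Z ω ≤ Z ω - (X ω + Y ω) ^ 2 * Z ω / 8 := by
    filter_upwards [S.m_merge hsplit hyz hs₁ hs₂, S.mh_ae_eq (res th (S.sub x y)) y,
      S.mh_ae_eq th₁ y, S.mh_ae_eq th₂ y, S.abs_m_edge_le hyz hs₂] with ω h1 h2 h3 h4 h5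
    have h6 : S.nh th x y ω = op (X ω) (Y ω) := by
      show S.mh (res th (S.sub x y)) y ω = op (S.mh th₁ y ω) (S.mh th₂ y ω)
      rw [h2, h1, spin_mul_op (S.σ_cases y ω), h3, h4]
    have h7 : |Y ω| ≤ 3 / 4 := by
      show |S.mh th₂ y ω| ≤ 3 / 4
      rw [h4, abs_mul, S.abs_σ, one_mul]; exact h5
    have h8 := rho_op_le S.theta_sq_le (S.abs_mh_le th₁ y ω) h7
    have h9 : S.rh th x y ω ≤ 1 - (X ω + Y ω) ^ 2 / 8 := by
      unfold rh; rw [h6]; exact h8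
    have := mul_le_mul_of_nonneg_right h9 (hZ0 ω)
    linarith
  -- second moment of the branch
  set c := ∫ ω, S.m th₂ y ω ^ 2 ∂S.P with hc
  have hY1 : ∫ ω, Y ω ∂S.P = c := S.integral_mh th₂ y
  have hY2 : ∫ ω, Y ω ^ 2 ∂S.P = c := S.integral_mh_sq th₂ y
  have hc' : c = S.θ ^ 2 * ∫ ω, S.n th y z ω ^ 2 ∂S.P := by
    rw [hc, ← integral_const_mul]
    refine integral_congr_ae ?_
    filter_upwards [S.m_edge hyz hs₂] with ω hω
    rw [hω, mul_pow]; rfl
  have hn1 : ∫ ω, S.n th y z ω ^ 2 ∂S.P ≤ 1 := by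
    have : ∫ ω, S.n th y z ω ^ 2 ∂S.P ≤ ∫ _ω, (1 : ℝ) ∂S.P := by
      refine integral_mono ((S.bdd_n th y z).pow 2).integrable (integrable_const _) fun ω => ?_
      exact (sq_le_one_iff_abs_le_one _).2 (S.abs_n_le th y z ω)
    simpa using this
  have hq := S.q_le_integral_n_sq hyz hth
  have hθ := S.theta_sq_le
  have hθ0 : 0 ≤ S.θ ^ 2 := sq_nonneg _
  have hq0 := S.q_nonneg s
  have hc1 : S.θ ^ 2 * S.q s ≤ c := by rw [hc']; exact mul_le_mul_of_nonneg_left hq hθ0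
  have hc2 : c ≤ 1 / 2 := by rw [hc']; nlinarith
  have hc0 : 0 ≤ c := le_trans (mul_nonneg hθ0 hq0) hc1
  have hZi : 0 ≤ ∫ ω, Z ω ∂S.P := integral_nonneg hZ0
  have e1 : ∫ ω, (X ω * Z ω) * Y ω ∂S.P = (∫ ω, X ω * Z ω ∂S.P) * c := by
    rw [← hY1]
    exact integral_mul_of_indep' (S.I_le _) (S.I_le _) hind
      (hXm.mul hZm).stronglyMeasurable.aestronglyMeasurable
      hYm.stronglyMeasurable.aestronglyMeasurable
  have e2 : ∫ ω, Z ω * Y ω ^ 2 ∂S.P = (∫ ω, Z ω ∂S.P) * c := by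
    rw [← hY2]
    exact integral_mul_of_indep' (S.I_le _) (S.I_le _) hind
      hZm.stronglyMeasurable.aestronglyMeasurable
      (hYm.pow_const 2).stronglyMeasurable.aestronglyMeasurable
  have e3 : ∫ ω, (X ω + Y ω) ^ 2 * Z ω ∂S.P =
      ∫ ω, X ω ^ 2 * Z ω ∂S.P + 2 * ∫ ω, (X ω * Z ω) * Y ω ∂S.P + ∫ ω, Z ω * Y ω ^ 2 ∂S.P := by
    rw [← integral_const_mul, ← integral_add ((hXb.pow 2).mul hZ).integrable
      (((hXb.mul hZ).mul hYb).const_mul 2).integrable,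
      ← integral_add (((hXb.pow 2).mul hZ).add (((hXb.mul hZ).mul hYb).const_mul 2)).integrable
        (hZ.mul (hYb.pow 2)).integrable]
    congr 1; ext ω; ring
  have e4 : 0 ≤ ∫ ω, X ω ^ 2 * Z ω ∂S.P + 2 * c * ∫ ω, X ω * Z ω ∂S.P
      + c ^ 2 * ∫ ω, Z ω ∂S.P := by
    rw [← integral_const_mul (2 * c), ← integral_const_mul (c ^ 2),
      ← integral_add ((hXb.pow 2).mul hZ).integrable ((hXb.mul hZ).const_mul _).integrable,
      ← integral_add (((hXb.pow 2).mul hZ).add ((hXb.mul hZ).const_mul _)).integrable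
        (hZ.const_mul _).integrable]
    refine integral_nonneg fun ω => ?_
    have : 0 ≤ (X ω + c) ^ 2 * Z ω := mul_nonneg (sq_nonneg _) (hZ0 ω)
    simp only [Pi.zero_apply]
    nlinarith
  have e5 : ∫ ω, S.rh th x y ω * Z ω ∂S.P ≤
      ∫ ω, Z ω ∂S.P - (∫ ω, (X ω + Y ω) ^ 2 * Z ω ∂S.P) / 8 := by
    rw [← integral_div, ← integral_sub hZ.integrable
      ((((hXb.add hYb).pow 2).mul hZ).div_const 8).integrable]
    exact integral_mono_ae ((S.bdd_rh th x y).mul hZ).integrable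
      (hZ.sub ((((hXb.add hYb).pow 2).mul hZ).div_const 8)).integrable hpt
  have e6 : S.θ ^ 2 * S.q s / 2 ≤ c - c ^ 2 := by nlinarith
  have e7 := mul_le_mul_of_nonneg_right e6 hZi
  rw [e3, e1, e2] at e5
  unfold vt
  nlinarith

/-- Induction on the distance with `Pi_cons`; at each vertex choose a child off the geodesic. -/
lemma integral_Pr_le {th : V × ℕ → ℝ} {s : ℝ} {v : V} (hth : ∀ w, w.1 ≠ v → s ≤ th w) (y : V) :
    ∫ ω, S.Pr th y v ω ∂S.P ≤ S.vt s ^ S.G.dist y v := by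
  induction y using S.induction_from v with
  | h0 => simp only [Pr, S.Pi_self]; simp
  | hs y z hyz hv ih =>
    have hzy : S.G.Adj z y := hyz.symm
    have hd : S.G.dist z v = S.G.dist y v + 1 := by
      rw [S.dc z v, S.dc y v]; exact (S.mem_sub_iff hzy v).1 hv
    -- a child of `y` off the geodesic
    obtain ⟨u, hu, huv⟩ : ∃ u ∈ S.ch z y, v ∉ S.sub y u := by
      have hcard : 1 < (S.ch z y).card := by rw [S.card_ch hzy]; exact S.hb
      obtain ⟨u₁, h₁, u₂, h₂, hne⟩ := Finset.one_lt_card.1 hcard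
      by_cases hv₁ : v ∈ S.sub y u₁
      · exact ⟨u₂, h₂, fun hv₂ => Set.disjoint_left.1
          (S.sub_disjoint (S.mem_ch.1 h₁).2 (S.mem_ch.1 h₂).2 hne) hv₁ hv₂⟩
      · exact ⟨u₁, h₁, hv₁⟩
    have hyu : S.G.Adj y u := (S.mem_ch.1 hu).2
    have h1 := S.integral_rh_mul_le (th := th) (s := s) hzy hu
      (fun w hw => hth w fun h' => huv (h' ▸ hw)) (S.bdd_Pr th y v) (S.Pr_nonneg th y v)
      (S.measurable_Pr_reg th hyu.symm ((S.not_mem_sub_iff hyu v).1 huv))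
    have h2 : ∀ ω, S.Pr th z v ω = S.rh th z y ω * S.Pr th y v ω := fun ω =>
      S.Pi_cons _ hzy hv
    simp only [h2]
    rw [hd, pow_succ']
    exact h1.trans (mul_le_mul_of_nonneg_left ih (S.vt_nonneg s))

lemma integral_C_sq_le {th : V × ℕ → ℝ} {s : ℝ} {v : V} (hth : ∀ w, w.1 ≠ v → s ≤ th w) (y : V) :
    ∫ ω, S.C th y v ω ^ 2 ∂S.P ≤ (S.θ ^ 2 * S.vt s) ^ S.G.dist y v := by
  have h1 : ∫ ω, S.C th y v ω ^ 2 ∂S.P ≤
      ∫ ω, S.θ ^ (2 * S.G.dist y v) * S.Pr th y v ω ∂S.P :=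
    integral_mono_ae ((S.bdd_C th y v).pow 2).integrable
      ((S.bdd_Pr th y v).const_mul _).integrable (S.C_sq_le th y v)
  rw [integral_const_mul] at h1
  rw [mul_pow, ← pow_mul]
  exact h1.trans (mul_le_mul_of_nonneg_left (S.integral_Pr_le hth y) (pow_nonneg S.θ0 _))

/-- Chernoff bound for an average of independent `[0,1]`-valued variables. -/
lemma integral_mul_avg_le {ι : Type*} (E : Finset ι) (hE : E.Nonempty) {A : ι → Set S.Idx}
    (hA : (E : Set ι).PairwiseDisjoint A) {H : ι → S.Om → ℝ}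
    (hH : ∀ e ∈ E, Measurable[S.I (A e)] (H e)) (hH0 : ∀ e ω, 0 ≤ H e ω) (hH1 : ∀ e ω, H e ω ≤ 1)
    {μ : ℝ} (hμ : ∀ e ∈ E, ∫ ω, H e ω ∂S.P ≤ μ) {γ : S.Om → ℝ} (hγ : Bdd S.P γ) {Γ : ℝ}
    (hγ0 : ∀ᵐ ω ∂S.P, 0 ≤ γ ω) (hγΓ : ∀ᵐ ω ∂S.P, γ ω ≤ Γ) {ξ : ℝ} (hξ : 0 ≤ ξ) :
    ∫ ω, γ ω * ((∑ e ∈ E, H e ω) / E.card) ∂S.P ≤
      (2 * μ + ξ) * ∫ ω, γ ω ∂S.P + Γ * Real.exp (-(E.card * ξ)) := by
  have hn : (0 : ℝ) < E.card := by exact_mod_cast hE.card_pos
  have hHb : ∀ e ∈ E, Bdd S.P (H e) := fun e he =>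
    Bdd.of_meas ((hH e he).mono (S.I_le _) le_rfl) (K := 1) fun ω => by
      rw [abs_of_nonneg (hH0 e ω)]; exact hH1 e ω
  have hμ0 : 0 ≤ μ := by
    obtain ⟨e, he⟩ := hE
    exact (integral_nonneg (hH0 e)).trans (hμ e he)
  have hΓ : 0 ≤ Γ := by
    obtain ⟨ω, h1, h2⟩ := (hγ0.and hγΓ).exists
    exact h1.trans h2
  set c := 2 * μ + ξ with hc
  have hc0 : 0 ≤ c := by positivity
  have hSb : Bdd S.P (fun ω => ∑ e ∈ E, H e ω) := Bdd.sum E hHb
  -- exponential moment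
  have hexp : ∫ ω, Real.exp (∑ e ∈ E, H e ω) ∂S.P ≤ Real.exp (E.card * (2 * μ)) := by
    simp only [Real.exp_sum]
    rw [S.integral_prod_of_disjoint E hA (f := fun e ω => Real.exp (H e ω))
      (fun e he => (hHb e he).exp)
      (fun e he => (Real.measurable_exp.comp (hH e he)).stronglyMeasurable.aestronglyMeasurable),
      Real.exp_nat_mul, ← Finset.prod_const]
    refine Finset.prod_le_prod (fun e _ => integral_nonneg fun ω => (Real.exp_pos _).le)
      fun e he => ?_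
    have h1 : ∫ ω, Real.exp (H e ω) ∂S.P ≤ ∫ ω, (1 + 2 * H e ω) ∂S.P := by
      refine integral_mono (hHb e he).exp.integrable
        ((Bdd.const 1).add ((hHb e he).const_mul 2)).integrable fun ω => ?_
      have h0 := hH0 e ω
      have h1 := hH1 e ω
      have h2 := Real.abs_exp_sub_one_sub_id_le (x := H e ω) (by rw [abs_of_nonneg h0]; exact h1)
      have h3 := (le_abs_self _).trans h2
      show Real.exp (H e ω) ≤ 1 + 2 * H e ω
      nlinarith
    rw [integral_add (integrable_const _) ((hHb e he).const_mul 2).integrable,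
      integral_const_mul] at h1
    have h2 := Real.add_one_le_exp (2 * μ)
    have h3 := hμ e he
    simp only [integral_const, probReal_univ, smul_eq_mul, mul_one] at h1
    linarith
  have hpt : ∀ᵐ ω ∂S.P, γ ω * ((∑ e ∈ E, H e ω) / E.card) ≤
      c * γ ω + Γ * Real.exp (-(E.card * c)) * Real.exp (∑ e ∈ E, H e ω) := by
    filter_upwards [hγ0, hγΓ] with ω h0 h1
    rw [mul_assoc, ← Real.exp_add]
    by_cases hle : (∑ e ∈ E, H e ω) / E.card ≤ c
    · have h2 := mul_le_mul_of_nonneg_left hle h0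
      have h3 : 0 ≤ Γ * Real.exp (-(E.card * c) + ∑ e ∈ E, H e ω) := by positivity
      linarith
    · have h2 : E.card * c < ∑ e ∈ E, H e ω := by
        rw [not_le, lt_div_iff₀ hn] at hle; linarith
      have h3 : 1 ≤ Real.exp (-(E.card * c) + ∑ e ∈ E, H e ω) :=
        Real.one_le_exp (by linarith)
      have h4 : (∑ e ∈ E, H e ω) / E.card ≤ 1 := by
        rw [div_le_one hn]
        calc ∑ e ∈ E, H e ω ≤ ∑ _e ∈ E, (1 : ℝ) := Finset.sum_le_sum fun e _ => hH1 e ω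
          _ = E.card := by simp
      have h5 := mul_le_mul_of_nonneg_left h4 h0
      have h6 := mul_le_mul_of_nonneg_left h3 hΓ
      have h7 : 0 ≤ c * γ ω := mul_nonneg hc0 h0
      linarith
  have h1 := integral_mono_ae (hγ.mul (hSb.div_const _)).integrable
    ((hγ.const_mul c).add (hSb.exp.const_mul _)).integrable hpt
  rw [integral_add (hγ.const_mul c).integrable (hSb.exp.const_mul _).integrable,
    integral_const_mul, integral_const_mul] at h1
  refine h1.trans (add_le_add le_rfl ?_)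
  calc Γ * Real.exp (-(E.card * c)) * ∫ ω, Real.exp (∑ e ∈ E, H e ω) ∂S.P
      ≤ Γ * Real.exp (-(E.card * c)) * Real.exp (E.card * (2 * μ)) :=
        mul_le_mul_of_nonneg_left hexp (by positivity)
    _ = Γ * Real.exp (-(E.card * ξ)) := by
        rw [mul_assoc, ← Real.exp_add, hc]; congr 2; ring

/-- The weighted decay lemma. `Pr y v ≤ Pr (geo y v j) v`; by invariance of `γ` this last factor can
be replaced by its average over one copy behind each `e ∈ desc j x y` (`exists_iso_desc`, `Pr_Θ`);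
the copies are independent (`measurable_Pr_reg`, `desc_disjoint`) with mean at most
`vt ^ (dist y v - j) ≤ vt ^ j`. -/
lemma integral_mul_Pr_le (s : ℝ) {x y v : V} (h : S.G.Adj x y) (hv : v ∈ S.sub x y) {j : ℕ}
    (hj : 2 * j ≤ S.G.dist y v) {γ : S.Om → ℝ} (hγ : Bdd S.P γ) {Γ : ℝ}
    (hγ0 : ∀ᵐ ω ∂S.P, 0 ≤ γ ω) (hγΓ : ∀ᵐ ω ∂S.P, γ ω ≤ Γ)
    (hinv : ∀ g : S.G ≃g S.G, g x = x → g y = y → (fun ω => γ (S.Θ g ω)) =ᵐ[S.P] γ)
    {ξ : ℝ} (hξ : 0 ≤ ξ) :
    ∫ ω, γ ω * S.Pr (cst s) y v ω ∂S.P ≤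
      min 1 (2 * S.vt s ^ j + ξ) * ∫ ω, γ ω ∂S.P + Γ * Real.exp (-(2 ^ j * ξ)) := by
  have hΓ : 0 ≤ Γ := by
    obtain ⟨ω, h1, h2⟩ := (hγ0.and hγΓ).exists
    exact h1.trans h2
  have hγi : 0 ≤ ∫ ω, γ ω ∂S.P := integral_nonneg_of_ae hγ0
  have hA : ∫ ω, γ ω * S.Pr (cst s) y v ω ∂S.P ≤ ∫ ω, γ ω ∂S.P := by
    refine integral_mono_ae (hγ.mul (S.bdd_Pr _ y v)).integrable hγ.integrable ?_
    filter_upwards [hγ0] with ω hω
    exact mul_le_of_le_one_right hω (S.Pr_le_one _ y v ω)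
  have hjd : j ≤ S.G.dist y v := by omega
  have hdx : S.G.dist x v = S.G.dist y v + 1 := by
    rw [S.dc x v, S.dc y v]; exact (S.mem_sub_iff h v).1 hv
  set p := S.geo x v j with hp
  set q := S.geo y v j with hq
  have hqs : q ∈ S.sub x y := S.geo_mem_sub h (S.self_mem_sub h) hv j
  have hyq : S.G.dist y q = j := S.dist_geo_l hjd
  have hqv : S.G.dist q v = S.G.dist y v - j := S.dist_geo_r hjd
  have hq' : q = S.geo x v (j + 1) := by
    refine S.geo_unique ?_ ?_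
    · rw [S.dc x q, (S.mem_sub_iff h q).1 hqs, S.dc q y, hyq]
    · omega
  have hpq : S.G.Adj p q := by rw [hq']; exact S.geo_adj (by omega)
  have he₀ : (p, q) ∈ S.desc j x y :=
    (S.mem_desc h).2 ⟨hpq, hqs, hyq, S.dist_geo_l (by omega)⟩
  have hvs : v ∈ S.sub p q := by
    have := S.mem_sub_geo (x := x) (y := v) (i := j) (j := S.G.dist x v) (by omega) le_rfl
    rwa [S.geo_of_le le_rfl, ← hq'] at this
  have : Nonempty (S.G ≃g S.G) := ⟨SimpleGraph.Iso.refl⟩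
  have hex : ∀ e ∈ S.desc j x y,
      ∃ g : S.G ≃g S.G, g x = x ∧ g y = y ∧ g p = e.1 ∧ g q = e.2 :=
    fun e he => S.exists_iso_desc h he₀ he
  choose! g hgx hgy hgp hgq using hex
  set E := S.desc j x y with hE
  have hcard : E.card = S.b ^ j := S.card_desc h j
  have hEne : E.Nonempty := ⟨_, he₀⟩
  have hn : (0 : ℝ) < E.card := by exact_mod_cast hEne.card_pos
  set H : V × V → S.Om → ℝ := fun e => S.Pr (cst s) e.2 (g e v) with hH
  have hadj : ∀ e ∈ E, S.G.Adj e.1 e.2 := fun e he => ((S.mem_desc h).1 he).1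
  have hgv : ∀ e ∈ E, g e v ∈ S.sub e.1 e.2 := fun e he => by
    rw [← hgp e he, ← hgq e he]; exact (S.mem_sub_map (g e) p q v).2 hvs
  have hcopy : ∀ e ∈ E, ∫ ω, γ ω * H e ω ∂S.P = ∫ ω, γ ω * S.Pr (cst s) q v ω ∂S.P := by
    intro e he
    have hmp := S.mp_Θ (g e)
    have h1 : ∫ ω, γ ω * S.Pr (cst s) q v ω ∂S.P =
        ∫ ω, γ (S.Θ (g e) ω) * S.Pr (cst s) q v (S.Θ (g e) ω) ∂S.P := by
      have := integral_map (μ := S.P) (φ := S.Θ (g e)) hmp.measurable.aemeasurable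
        (f := fun ω => γ ω * S.Pr (cst s) q v ω)
        (by rw [hmp.map_eq]; exact (hγ.mul (S.bdd_Pr _ q v)).1)
      rwa [hmp.map_eq] at this
    rw [h1]
    refine integral_congr_ae ?_
    filter_upwards [hinv (g e) (hgx e he) (hgy e he), S.Pr_Θ (g e) (cst s) q v] with ω h2 h3
    rw [h2, h3, push_cst, hgq e he]
  have hB : ∫ ω, γ ω * S.Pr (cst s) y v ω ∂S.P ≤ ∫ ω, γ ω * S.Pr (cst s) q v ω ∂S.P := by
    refine integral_mono_ae (hγ.mul (S.bdd_Pr _ y v)).integrable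
      (hγ.mul (S.bdd_Pr _ q v)).integrable ?_
    filter_upwards [hγ0] with ω hω
    exact mul_le_mul_of_nonneg_left (S.Pr_le_Pr_geo _ y v hjd ω) hω
  have hC : ∫ ω, γ ω * S.Pr (cst s) q v ω ∂S.P =
      ∫ ω, γ ω * ((∑ e ∈ E, H e ω) / E.card) ∂S.P := by
    have h1 : ∀ ω, γ ω * ((∑ e ∈ E, H e ω) / E.card) = (∑ e ∈ E, γ ω * H e ω) / E.card := by
      intro ω; rw [← Finset.mul_sum, mul_div_assoc]
    simp only [h1]
    rw [integral_div, integral_finsetSum _ fun e _ => (hγ.mul (S.bdd_Pr _ _ _)).integrable,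
      Finset.sum_congr rfl hcopy, Finset.sum_const, nsmul_eq_mul]
    field_simp
  have hD := S.integral_mul_avg_le E hEne (A := fun e => S.reg (S.sub e.1 e.2))
    (fun e he e' he' hne => S.reg_disjoint (S.desc_disjoint h he he' hne)) (H := H)
    (fun e he => S.measurable_Pr_reg _ (hadj e he) (hgv e he))
    (fun e ω => S.Pr_nonneg _ _ _ ω) (fun e ω => S.Pr_le_one _ _ _ ω) (μ := S.vt s ^ j)
    (fun e he => by
      refine (S.integral_Pr_le (s := s) (fun w _ => le_rfl) e.2).trans ?_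
      rw [← hgq e he, S.dist_map, hqv]
      exact pow_le_pow_of_le_one (S.vt_nonneg s) (S.vt_le_one s) (by omega))
    hγ hγ0 hγΓ hξ
  have hF : Γ * Real.exp (-(E.card * ξ)) ≤ Γ * Real.exp (-(2 ^ j * ξ)) := by
    refine mul_le_mul_of_nonneg_left (Real.exp_le_exp.2 (neg_le_neg ?_)) hΓ
    refine mul_le_mul_of_nonneg_right ?_ hξ
    rw [hcard]
    exact_mod_cast Nat.pow_le_pow_left S.hb j
  have hG : 0 ≤ Γ * Real.exp (-(2 ^ j * ξ)) := by positivity
  rcases le_total 1 (2 * S.vt s ^ j + ξ) with hm | hm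
  · rw [min_eq_left hm]; linarith
  · rw [min_eq_right hm]; linarith

end Setup

end Crest.Agent.R160

end
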