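import Crest.Agent.R160.CE

/-! Row 160: decorrelation of symmetric functionals of independent variables
(Efron–Stein / Hoeffding decomposition). -/

noncomputable section

namespace Crest.Agent.R160

open MeasureTheory ProbabilityTheory Filter

variable {Ω : Type*} {mΩ : MeasurableSpace Ω} {P : Measure Ω}

/-- `f` has `n` symmetries that move the index set `A` to pairwise disjoint sets. -/
def HasCopies {Ω : Type*} {mΩ : MeasurableSpace Ω} (P : Measure Ω) {ι : Type*}
    (m : ι → MeasurableSpace Ω) (f : Ω → ℝ) (A : Set ι) (n : ℕ) : Prop :=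
  ∃ (Θ : Fin n → Ω → Ω) (π : Fin n → ι ≃ ι),
    (∀ k, MeasurePreserving (Θ k) P P) ∧ (∀ k i, (m i).comap (Θ k) = m (π k i)) ∧
    (∀ k, (fun ω => f (Θ k ω)) =ᵐ[P] f) ∧
    Pairwise (fun k k' => Disjoint (π k '' A) (π k' '' A))

namespace ES

section comb

variable {ι : Type*} [DecidableEq ι]

/-- Möbius transform on the Boolean lattice. -/
def mob (φ : Finset ι → ℝ) (S : Finset ι) : ℝ :=
  ∑ T ∈ S.powerset, (-1 : ℝ) ^ (S.card + T.card) * φ T

lemma sum_powerset_insert' {a : ι} {S : Finset ι} (ha : a ∉ S) (F : Finset ι → ℝ) :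
    ∑ T ∈ (insert a S).powerset, F T = ∑ T ∈ S.powerset, (F T + F (insert a T)) := by
  rw [Finset.sum_powerset_insert ha, Finset.sum_add_distrib]

lemma mob_insert {a : ι} {S : Finset ι} (ha : a ∉ S) (φ : Finset ι → ℝ) :
    mob φ (insert a S) = mob (fun T => φ (insert a T)) S - mob φ S := by
  unfold mob
  rw [sum_powerset_insert' ha, ← Finset.sum_sub_distrib]
  refine Finset.sum_congr rfl fun T hT => ?_
  have haT : a ∉ T := fun h => ha (Finset.mem_powerset.1 hT h)
  rw [Finset.card_insert_of_notMem ha, Finset.card_insert_of_notMem haT]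
  ring

lemma mob_empty (φ : Finset ι → ℝ) : mob φ ∅ = φ ∅ := by
  simp [mob]

lemma sum_mob (J : Finset ι) : ∀ φ : Finset ι → ℝ, ∑ S ∈ J.powerset, mob φ S = φ J := by
  induction J using Finset.induction_on with
  | empty => intro φ; simp [mob]
  | insert a J ha ih =>
    intro φ
    rw [sum_powerset_insert' ha, ← ih (fun T => φ (insert a T))]
    refine Finset.sum_congr rfl fun S hS => ?_
    have haS : a ∉ S := fun h => ha (Finset.mem_powerset.1 hS h)
    rw [mob_insert haS]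
    ring

lemma pair_sum (S : Finset ι) : ∀ φ : Finset ι → ℝ,
    ∑ T ∈ S.powerset, ∑ T' ∈ S.powerset, (-1 : ℝ) ^ T.card * (-1) ^ T'.card * φ (T ∩ T') =
      mob φ S := by
  induction S using Finset.induction_on with
  | empty => intro φ; simp [mob]
  | insert a S ha ih =>
    intro φ
    rw [mob_insert ha, ← ih, ← ih, sum_powerset_insert' ha, ← Finset.sum_sub_distrib]
    refine Finset.sum_congr rfl fun T hT => ?_
    have haT : a ∉ T := fun h => ha (Finset.mem_powerset.1 hT h)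
    rw [sum_powerset_insert' ha, sum_powerset_insert' ha, ← Finset.sum_add_distrib,
      ← Finset.sum_sub_distrib]
    refine Finset.sum_congr rfl fun T' hT' => ?_
    have haT' : a ∉ T' := fun h => ha (Finset.mem_powerset.1 hT' h)
    rw [Finset.card_insert_of_notMem haT, Finset.card_insert_of_notMem haT',
      Finset.inter_insert_of_notMem haT, Finset.insert_inter_of_notMem haT',
      ← Finset.insert_inter_distrib]
    ring

lemma mob_map (φ : Finset ι → ℝ) (π : ι ≃ ι) (hφ : ∀ T, φ (T.map π.toEmbedding) = φ T)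
    (S : Finset ι) : mob φ (S.map π.toEmbedding) = mob φ S := by
  unfold mob
  symm
  refine Finset.sum_bij (fun T _ => T.map π.toEmbedding) ?_ ?_ ?_ ?_
  · intro T hT
    exact Finset.mem_powerset.2 (Finset.map_subset_map.2 (Finset.mem_powerset.1 hT))
  · intro T _ T' _ h
    exact Finset.map_injective _ h
  · intro U hU
    refine ⟨U.map π.symm.toEmbedding, ?_, ?_⟩
    · refine Finset.mem_powerset.2 fun x hx => ?_
      obtain ⟨y, hy, rfl⟩ := Finset.mem_map.1 hx
      obtain ⟨z, hz, rfl⟩ := Finset.mem_map.1 (Finset.mem_powerset.1 hU hy)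
      simpa using hz
    · simp [Finset.map_map]
  · intro T _
    rw [Finset.card_map, Finset.card_map, hφ]

open Classical in
/-- The proportion of `S` inside `A`. -/
def wt (A : Set ι) (S : Finset ι) : ℝ := ((S.filter (· ∈ A)).card : ℝ) / S.card

omit [DecidableEq ι] in
lemma wt_nonneg (A : Set ι) (S : Finset ι) : 0 ≤ wt A S := by
  unfold wt; positivity

omit [DecidableEq ι] in
lemma wt_le_one (A : Set ι) (S : Finset ι) : wt A S ≤ 1 := by
  classical
  unfold wt
  refine div_le_one_of_le₀ ?_ (by positivity)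
  exact_mod_cast Finset.card_filter_le _ _

omit [DecidableEq ι] in
lemma wt_add_compl (A : Set ι) {S : Finset ι} (hS : S.Nonempty) : wt A S + wt Aᶜ S = 1 := by
  classical
  unfold wt
  have h0 : (S.card : ℝ) ≠ 0 := by exact_mod_cast hS.card_pos.ne'
  rw [← add_div, div_eq_one_iff_eq h0]
  have := Finset.card_filter_add_card_filter_not (s := S) (fun x => x ∈ A)
  rw [← this]
  push_cast
  congr 2
  congr 1
  ext x
  simp

omit [DecidableEq ι] in
lemma wt_map (A : Set ι) (π : ι ≃ ι) (S : Finset ι) :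
    wt (π '' A) (S.map π.toEmbedding) = wt A S := by
  classical
  unfold wt
  rw [Finset.card_map, Finset.filter_map, Finset.card_map]
  congr 3
  ext x
  simp

omit [DecidableEq ι] in
lemma sum_wt_le {n : ℕ} (B : Fin n → Set ι) (hB : Pairwise fun k k' => Disjoint (B k) (B k'))
    (S : Finset ι) : ∑ k, wt (B k) S ≤ 1 := by
  classical
  unfold wt
  rw [← Finset.sum_div]
  refine div_le_one_of_le₀ ?_ (by positivity)
  have h : ∑ k, (S.filter (· ∈ B k)).card ≤ S.card := by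
    rw [← Finset.card_biUnion]
    · exact Finset.card_le_card (Finset.biUnion_subset.2 fun k _ => Finset.filter_subset _ _)
    · intro k _ k' _ hkk'
      refine Finset.disjoint_left.2 fun x hx hx' => ?_
      exact Set.disjoint_left.1 (hB hkk') (Finset.mem_filter.1 hx).2 (Finset.mem_filter.1 hx').2
  exact_mod_cast h

/-- The weighted sum is at most `M / n` when there are `n` symmetries. -/
lemma sum_wt_mob_le (φ : Finset ι → ℝ) (hpos : ∀ S, 0 ≤ mob φ S) {M : ℝ} (hM : ∀ T, φ T ≤ M)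
    {A : Set ι} {n : ℕ} (hn : 0 < n) (π : Fin n → ι ≃ ι)
    (hφ : ∀ k T, φ (T.map (π k).toEmbedding) = φ T)
    (hdisj : Pairwise fun k k' => Disjoint (π k '' A) (π k' '' A)) (J : Finset ι) :
    ∑ S ∈ J.powerset, wt A S * mob φ S ≤ M / n := by
  have hn' : (0 : ℝ) < n := by exact_mod_cast hn
  obtain ⟨J', hJ'⟩ : ∃ J' : Finset ι, ∀ k, J.map (π k).toEmbedding ⊆ J' :=
    ⟨Finset.univ.biUnion fun k => J.map (π k).toEmbedding, fun k =>
      Finset.subset_biUnion_of_mem (fun k => J.map (π k).toEmbedding) (Finset.mem_univ k)⟩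
  have h1 : ∀ k, ∑ S ∈ J.powerset, wt A S * mob φ S ≤
      ∑ S ∈ J'.powerset, wt (π k '' A) S * mob φ S := by
    intro k
    have e : ∑ S ∈ J.powerset, wt A S * mob φ S =
        ∑ S ∈ J.powerset.image (fun S => S.map (π k).toEmbedding), wt (π k '' A) S * mob φ S := by
      rw [Finset.sum_image (fun S _ S' _ h => Finset.map_injective _ h)]
      refine Finset.sum_congr rfl fun S _ => ?_
      rw [wt_map, mob_map φ (π k) (hφ k)]
    rw [e]
    refine Finset.sum_le_sum_of_subset_of_nonneg ?_ fun S _ _ =>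
      mul_nonneg (wt_nonneg _ _) (hpos _)
    intro U hU
    obtain ⟨S, hS, rfl⟩ := Finset.mem_image.1 hU
    exact Finset.mem_powerset.2
      ((Finset.map_subset_map.2 (Finset.mem_powerset.1 hS)).trans (hJ' k))
  have h2 : ∑ k : Fin n, ∑ S ∈ J'.powerset, wt (π k '' A) S * mob φ S ≤ M := by
    rw [Finset.sum_comm]
    calc ∑ S ∈ J'.powerset, ∑ k : Fin n, wt (π k '' A) S * mob φ S
        ≤ ∑ S ∈ J'.powerset, mob φ S := by
          refine Finset.sum_le_sum fun S _ => ?_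
          rw [← Finset.sum_mul]
          exact mul_le_of_le_one_left (hpos S) (sum_wt_le _ hdisj S)
      _ = φ J' := sum_mob J' φ
      _ ≤ M := hM _
  have h3 : (n : ℝ) * ∑ S ∈ J.powerset, wt A S * mob φ S ≤ M := by
    calc (n : ℝ) * ∑ S ∈ J.powerset, wt A S * mob φ S
        = ∑ _k : Fin n, ∑ S ∈ J.powerset, wt A S * mob φ S := by simp
      _ ≤ _ := Finset.sum_le_sum fun k _ => h1 k
      _ ≤ M := h2
  rw [le_div_iff₀ hn']
  linarith

/-- Weighted Cauchy–Schwarz. -/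
lemma abs_sum_wt_le {α : Type*} (s : Finset α) (w a b c : α → ℝ) (hw : ∀ x, 0 ≤ w x)
    (ha : ∀ x, 0 ≤ a x) (hb : ∀ x, 0 ≤ b x) (hc : ∀ x, |c x| ≤ √(a x) * √(b x)) :
    |∑ x ∈ s, w x * c x| ≤ √(∑ x ∈ s, w x * a x) * √(∑ x ∈ s, w x * b x) := by
  calc |∑ x ∈ s, w x * c x| ≤ ∑ x ∈ s, |w x * c x| := Finset.abs_sum_le_sum_abs _ _
    _ ≤ ∑ x ∈ s, √(w x * a x) * √(w x * b x) := by
        refine Finset.sum_le_sum fun x _ => ?_
        rw [abs_mul, abs_of_nonneg (hw x), Real.sqrt_mul (hw x), Real.sqrt_mul (hw x)]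
        calc w x * |c x| ≤ w x * (√(a x) * √(b x)) := mul_le_mul_of_nonneg_left (hc x) (hw x)
          _ = (√(w x) * √(w x)) * (√(a x) * √(b x)) := by rw [Real.mul_self_sqrt (hw x)]
          _ = _ := by ring
    _ ≤ _ := Real.sum_sqrt_mul_sqrt_le s (fun x => mul_nonneg (hw x) (ha x))
          (fun x => mul_nonneg (hw x) (hb x))

end comb

section prob

variable [IsProbabilityMeasure P] {ι : Type*} [DecidableEq ι] {m : ι → MeasurableSpace Ω}

/-- The σ-algebra of a finite index set. -/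
def mS (m : ι → MeasurableSpace Ω) (T : Finset ι) : MeasurableSpace Ω := ⨆ i ∈ (T : Set ι), m i

omit [DecidableEq ι] in
lemma mS_le (hle : ∀ i, m i ≤ mΩ) (T : Finset ι) : mS m T ≤ mΩ :=
  iSup₂_le fun i _ => hle i

omit [DecidableEq ι] in
lemma mS_mono {T T' : Finset ι} (h : T ⊆ T') : mS m T ≤ mS m T' :=
  iSup₂_le fun i hi => le_iSup₂_of_le (f := fun i (_ : i ∈ (T' : Set ι)) => m i) i (h hi) le_rfl

lemma mS_split (T T' : Finset ι) : mS m T' = mS m (T ∩ T') ⊔ mS m (T' \ T) := by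
  apply le_antisymm
  · refine iSup₂_le fun i hi => ?_
    by_cases h : i ∈ T
    · refine le_sup_of_le_left ?_
      exact le_iSup₂_of_le (f := fun i (_ : i ∈ ((T ∩ T' : Finset ι) : Set ι)) => m i) i
        (by simpa using ⟨h, hi⟩) le_rfl
    · refine le_sup_of_le_right ?_
      exact le_iSup₂_of_le (f := fun i (_ : i ∈ ((T' \ T : Finset ι) : Set ι)) => m i) i
        (by simpa using ⟨hi, h⟩) le_rfl
  · exact sup_le (mS_mono Finset.inter_subset_right) (mS_mono Finset.sdiff_subset)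

/-- The bilinear form at level `T`. -/
def BB (P : Measure Ω) (m : ι → MeasurableSpace Ω) (f g : Ω → ℝ) (T : Finset ι) : ℝ :=
  ∫ ω, P[f | mS m T] ω * P[g | mS m T] ω ∂P

lemma cross (hle : ∀ i, m i ≤ mΩ) (hind : iIndep m P) {f g : Ω → ℝ} (hf : Bdd P f)
    (hg : Bdd P g) (T T' : Finset ι) :
    ∫ ω, P[f | mS m T] ω * P[g | mS m T'] ω ∂P = BB P m f g (T ∩ T') := by
  have hT := mS_le hle T
  have hT' := mS_le hle T'
  have hI := mS_le hle (T ∩ T')
  have hD := mS_le hle (T' \ T)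
  have hfT := hf.condExp _ hT
  have hgT' := hg.condExp _ hT'
  have hfI := hf.condExp _ hI
  have hindep : Indep (mS m T) (mS m (T' \ T)) P :=
    indep_iSup_of_disjoint hle hind (by
      rw [Finset.disjoint_coe]; exact Finset.disjoint_sdiff)
  have h1 : P[P[f | mS m T] | mS m T'] =ᵐ[P] P[f | mS m (T ∩ T')] := by
    rw [mS_split T T']
    refine (condExp_sup_indep hT hD (mS_mono Finset.inter_subset_left) hindep hfT.integrable
      stronglyMeasurable_condExp.aestronglyMeasurable).trans ?_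
    exact condExp_condExp_of_le (mS_mono Finset.inter_subset_left) hT
  calc ∫ ω, P[f | mS m T] ω * P[g | mS m T'] ω ∂P
      = ∫ ω, P[g | mS m T'] ω * P[f | mS m T] ω ∂P := by simp_rw [mul_comm]
    _ = ∫ ω, P[g | mS m T'] ω * P[P[f | mS m T] | mS m T'] ω ∂P :=
        (integral_mul_condExp hT' hfT hgT' stronglyMeasurable_condExp.aestronglyMeasurable).symm
    _ = ∫ ω, P[f | mS m (T ∩ T')] ω * P[g | mS m T'] ω ∂P := by
        refine integral_congr_ae ?_
        filter_upwards [h1] with ω h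
        rw [h, mul_comm]
    _ = ∫ ω, P[f | mS m (T ∩ T')] ω * g ω ∂P :=
        integral_mul_condExp hT' hg hfI
          (stronglyMeasurable_condExp.mono (mS_mono Finset.inter_subset_right)).aestronglyMeasurable
    _ = BB P m f g (T ∩ T') :=
        (integral_mul_condExp hI hg hfI stronglyMeasurable_condExp.aestronglyMeasurable).symm

/-- The Hoeffding component (up to sign). -/
def comp (P : Measure Ω) (m : ι → MeasurableSpace Ω) (f : Ω → ℝ) (S : Finset ι) : Ω → ℝ :=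
  fun ω => ∑ T ∈ S.powerset, (-1 : ℝ) ^ T.card * P[f | mS m T] ω

omit [IsProbabilityMeasure P] [DecidableEq ι] in
lemma bdd_comp (hle : ∀ i, m i ≤ mΩ) {f : Ω → ℝ} (hf : Bdd P f) (S : Finset ι) :
    Bdd P (comp P m f S) :=
  Bdd.sum _ fun T _ => (hf.condExp _ (mS_le hle T)).const_mul _

lemma integral_comp_mul (hle : ∀ i, m i ≤ mΩ) (hind : iIndep m P) {f g : Ω → ℝ} (hf : Bdd P f)
    (hg : Bdd P g) (S : Finset ι) :
    ∫ ω, comp P m f S ω * comp P m g S ω ∂P = mob (BB P m f g) S := by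
  rw [← pair_sum]
  have hint : ∀ T T' : Finset ι, Integrable (fun ω => (-1 : ℝ) ^ T.card * (-1) ^ T'.card *
      (P[f | mS m T] ω * P[g | mS m T'] ω)) P := fun T T' =>
    (((hf.condExp _ (mS_le hle T)).mul (hg.condExp _ (mS_le hle T'))).const_mul _).integrable
  have e : ∀ ω, comp P m f S ω * comp P m g S ω = ∑ T ∈ S.powerset, ∑ T' ∈ S.powerset,
      (-1 : ℝ) ^ T.card * (-1) ^ T'.card * (P[f | mS m T] ω * P[g | mS m T'] ω) := by
    intro ω
    unfold comp
    rw [Finset.sum_mul_sum]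
    refine Finset.sum_congr rfl fun T _ => Finset.sum_congr rfl fun T' _ => by ring
  simp_rw [e]
  rw [integral_finsetSum _ fun T _ => integrable_finsetSum _ fun T' _ => hint T T']
  refine Finset.sum_congr rfl fun T _ => ?_
  rw [integral_finsetSum _ fun T' _ => hint T T']
  refine Finset.sum_congr rfl fun T' _ => ?_
  rw [integral_const_mul, cross hle hind hf hg]

lemma mob_self_eq (hle : ∀ i, m i ≤ mΩ) (hind : iIndep m P) {f : Ω → ℝ} (hf : Bdd P f)
    (S : Finset ι) : mob (BB P m f f) S = ∫ ω, comp P m f S ω ^ 2 ∂P := by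
  rw [← integral_comp_mul hle hind hf hf]
  simp_rw [sq]

lemma mob_self_nonneg (hle : ∀ i, m i ≤ mΩ) (hind : iIndep m P) {f : Ω → ℝ} (hf : Bdd P f)
    (S : Finset ι) : 0 ≤ mob (BB P m f f) S := by
  rw [mob_self_eq hle hind hf]
  exact integral_nonneg fun ω => sq_nonneg _

lemma abs_mob_le (hle : ∀ i, m i ≤ mΩ) (hind : iIndep m P) {f g : Ω → ℝ} (hf : Bdd P f)
    (hg : Bdd P g) (S : Finset ι) :
    |mob (BB P m f g) S| ≤ √(mob (BB P m f f) S) * √(mob (BB P m g g) S) := by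
  rw [mob_self_eq hle hind hf, mob_self_eq hle hind hg, ← integral_comp_mul hle hind hf hg]
  exact abs_integral_mul_le (bdd_comp hle hf S) (bdd_comp hle hg S)

omit [DecidableEq ι] in
lemma BB_self_le (hle : ∀ i, m i ≤ mΩ) {f : Ω → ℝ} (hf : Bdd P f) (T : Finset ι) :
    BB P m f f T ≤ ∫ ω, f ω ^ 2 ∂P := by
  have := integral_condExp_sq_le (mS_le hle T) hf
  unfold BB
  simpa only [sq] using this

omit [DecidableEq ι] in
lemma BB_empty {f g : Ω → ℝ} (hf0 : ∫ ω, f ω ∂P = 0) : BB P m f g ∅ = 0 := by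
  have : mS m (∅ : Finset ι) = ⊥ := by simp [mS]
  unfold BB
  rw [this, condExp_bot f]
  simp [hf0]

omit [DecidableEq ι] in
lemma BB_map (hle : ∀ i, m i ≤ mΩ) {f : Ω → ℝ} (hf : Bdd P f) {Θ : Ω → Ω}
    (hΘ : MeasurePreserving Θ P P) {π : ι ≃ ι} (hπ : ∀ i, (m i).comap Θ = m (π i))
    (hinv : (fun ω => f (Θ ω)) =ᵐ[P] f) (T : Finset ι) :
    BB P m f f (T.map π.toEmbedding) = BB P m f f T := by
  have hT := mS_le hle T
  have e : (mS m T).comap Θ = mS m (T.map π.toEmbedding) := by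
    unfold mS
    simp_rw [MeasurableSpace.comap_iSup, hπ]
    apply le_antisymm
    · refine iSup₂_le fun i hi => ?_
      exact le_iSup₂_of_le
        (f := fun i (_ : i ∈ ((T.map π.toEmbedding : Finset ι) : Set ι)) => m i) (π i)
        (by simpa using hi) le_rfl
    · refine iSup₂_le fun j hj => ?_
      obtain ⟨i, hi, rfl⟩ := Finset.mem_map.1 (Finset.mem_coe.1 hj)
      exact le_iSup₂_of_le (f := fun i (_ : i ∈ (T : Set ι)) => m (π i)) i hi le_rfl
  have h1 : (fun ω => P[f | mS m T] (Θ ω)) =ᵐ[P] P[f | mS m (T.map π.toEmbedding)] := by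
    refine (condExp_comp_mp hΘ hT hf.integrable).trans ?_
    rw [e]
    exact condExp_congr_ae hinv
  have hb := (hf.condExp _ hT).mul (hf.condExp _ hT)
  unfold BB
  calc ∫ ω, P[f | mS m (T.map π.toEmbedding)] ω * P[f | mS m (T.map π.toEmbedding)] ω ∂P
      = ∫ ω, P[f | mS m T] (Θ ω) * P[f | mS m T] (Θ ω) ∂P := by
        refine integral_congr_ae ?_
        filter_upwards [h1] with ω h
        rw [← h]
    _ = ∫ ω, P[f | mS m T] ω * P[f | mS m T] ω ∂(P.map Θ) := by
        rw [integral_map hΘ.measurable.aemeasurable]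
        rw [hΘ.map_eq]
        exact hb.1
    _ = _ := by rw [hΘ.map_eq]

lemma sum_wt_copies (hle : ∀ i, m i ≤ mΩ) (hind : iIndep m P) {f : Ω → ℝ} (hf : Bdd P f)
    {A : Set ι} {n : ℕ} (hn : 0 < n) (h : HasCopies P m f A n) (J : Finset ι) :
    ∑ S ∈ J.powerset, wt A S * mob (BB P m f f) S ≤ (∫ ω, f ω ^ 2 ∂P) / n := by
  obtain ⟨Θ, π, h1, h2, h3, h4⟩ := h
  exact sum_wt_mob_le _ (mob_self_nonneg hle hind hf) (BB_self_le hle hf) hn π
    (fun k T => BB_map hle hf (h1 k) (h2 k) (h3 k) T) h4 J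

lemma sum_wt_triv (hle : ∀ i, m i ≤ mΩ) (hind : iIndep m P) {f : Ω → ℝ} (hf : Bdd P f)
    (A : Set ι) (J : Finset ι) :
    ∑ S ∈ J.powerset, wt A S * mob (BB P m f f) S ≤ ∫ ω, f ω ^ 2 ∂P := by
  calc ∑ S ∈ J.powerset, wt A S * mob (BB P m f f) S
      ≤ ∑ S ∈ J.powerset, mob (BB P m f f) S :=
        Finset.sum_le_sum fun S _ =>
          mul_le_of_le_one_left (mob_self_nonneg hle hind hf S) (wt_le_one A S)
    _ = BB P m f f J := sum_mob J _
    _ ≤ _ := BB_self_le hle hf J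

lemma abs_BB_le (hle : ∀ i, m i ≤ mΩ) (hind : iIndep m P) {f g : Ω → ℝ}
    (hf : Bdd P f) (hg : Bdd P g) (hf0 : ∫ ω, f ω ∂P = 0)
    {A : Set ι} {n₁ n₂ : ℕ} (hn₁ : 0 < n₁) (hn₂ : 0 < n₂) (h₁ : HasCopies P m f A n₁)
    (h₂ : HasCopies P m g Aᶜ n₂) (J : Finset ι) :
    |BB P m f g J| ≤
      ((√n₁)⁻¹ + (√n₂)⁻¹) * (√(∫ ω, f ω ^ 2 ∂P) * √(∫ ω, g ω ^ 2 ∂P)) := by
  have e : BB P m f g J = ∑ S ∈ J.powerset, wt A S * mob (BB P m f g) S +
      ∑ S ∈ J.powerset, wt Aᶜ S * mob (BB P m f g) S := by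
    rw [← Finset.sum_add_distrib, ← sum_mob J (BB P m f g)]
    refine Finset.sum_congr rfl fun S _ => ?_
    rcases S.eq_empty_or_nonempty with rfl | hS
    · rw [mob_empty, BB_empty hf0]; ring
    · rw [← add_mul, wt_add_compl A hS, one_mul]
  have hF : 0 ≤ ∫ ω, f ω ^ 2 ∂P := integral_nonneg fun ω => sq_nonneg _
  have hG : 0 ≤ ∫ ω, g ω ^ 2 ∂P := integral_nonneg fun ω => sq_nonneg _
  have a1 := abs_sum_wt_le J.powerset (wt A) _ _ _ (wt_nonneg A) (mob_self_nonneg hle hind hf)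
    (mob_self_nonneg hle hind hg) (abs_mob_le hle hind hf hg)
  have a2 := abs_sum_wt_le J.powerset (wt Aᶜ) _ _ _ (wt_nonneg Aᶜ) (mob_self_nonneg hle hind hf)
    (mob_self_nonneg hle hind hg) (abs_mob_le hle hind hf hg)
  have b1 := Real.sqrt_le_sqrt (sum_wt_copies hle hind hf hn₁ h₁ J)
  have b2 := Real.sqrt_le_sqrt (sum_wt_triv hle hind hg A J)
  have b3 := Real.sqrt_le_sqrt (sum_wt_triv hle hind hf Aᶜ J)
  have b4 := Real.sqrt_le_sqrt (sum_wt_copies hle hind hg hn₂ h₂ J)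
  rw [Real.sqrt_div hF] at b1
  rw [Real.sqrt_div hG] at b4
  have c1 := a1.trans (mul_le_mul b1 b2 (Real.sqrt_nonneg _) (by positivity))
  have c2 := a2.trans (mul_le_mul b3 b4 (Real.sqrt_nonneg _) (Real.sqrt_nonneg _))
  rw [e]
  refine (abs_add_le _ _).trans ((add_le_add c1 c2).trans (le_of_eq ?_))
  simp only [div_eq_mul_inv]
  ring

end prob

end ES

/-- Correlation bound. Proof sketch: with `E_T = P[· | ⨆ i ∈ T, m i]` one has
`E_S E_T = E_{S ∩ T}` (`condExp_sup_indep`), the components `f_S = ∑_{T ⊆ S} (-1)^{|S \ T|} E_T f`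
are orthogonal with `E_J f = ∑_{S ⊆ J} f_S`, `f_∅ = 0`; put
`N_A(f) = ∑_{S ≠ ∅} |S ∩ A|/|S| ‖f_S‖²`, which is additive in `A`, at most `‖f‖²` and invariant under
the symmetries; then `⟨f,g⟩ = ∑_S (w_A(S) + w_{Aᶜ}(S)) ⟨f_S,g_S⟩` and Cauchy–Schwarz. -/
theorem abs_integral_mul_le_of_copies [IsProbabilityMeasure P] {ι : Type*} [Countable ι]
    {m : ι → MeasurableSpace Ω} (hle : ∀ i, m i ≤ mΩ) (hind : iIndep m P) {f g : Ω → ℝ}
    (hf : Bdd P f) (hg : Bdd P g) (hfm : AEStronglyMeasurable[⨆ i, m i] f P)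
    (hgm : AEStronglyMeasurable[⨆ i, m i] g P) (hf0 : ∫ ω, f ω ∂P = 0) (hg0 : ∫ ω, g ω ∂P = 0)
    {A : Set ι} {n₁ n₂ : ℕ} (hn₁ : 0 < n₁) (hn₂ : 0 < n₂) (h₁ : HasCopies P m f A n₁)
    (h₂ : HasCopies P m g Aᶜ n₂) :
    |∫ ω, f ω * g ω ∂P| ≤
      ((√n₁)⁻¹ + (√n₂)⁻¹) * (√(∫ ω, f ω ^ 2 ∂P) * √(∫ ω, g ω ^ 2 ∂P)) := by
  classical
  obtain ⟨e, he⟩ := Countable.exists_injective_nat ι
  have hfin : ∀ n : ℕ, (e ⁻¹' (Set.Iio n)).Finite := fun n =>
    (Set.finite_Iio n).preimage he.injOn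
  obtain ⟨J, hJ⟩ : ∃ J : ℕ → Finset ι, ∀ n i, i ∈ J n ↔ e i < n :=
    ⟨fun n => (hfin n).toFinset, fun n i => by simp⟩
  have hmono : Monotone fun n => ES.mS m (J n) := fun a b hab =>
    ES.mS_mono fun i hi => (hJ b i).2 (((hJ a i).1 hi).trans_le hab)
  have hsup : (⨆ n, ES.mS m (J n)) = ⨆ i, m i := by
    apply le_antisymm
    · exact iSup_le fun n => iSup₂_le fun i _ => le_iSup m i
    · refine iSup_le fun i => le_iSup_of_le (e i + 1) ?_
      exact le_iSup₂_of_le (f := fun j (_ : j ∈ (J (e i + 1) : Set ι)) => m j) i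
        ((hJ _ i).2 (Nat.lt_succ_self _)) le_rfl
  have hall : (⨆ i, m i) ≤ mΩ := iSup_le hle
  have hlev := tendsto_integral_sq_condExp hmono (fun n => ES.mS_le hle (J n)) hf
  rw [hsup] at hlev
  have hfe : P[f | ⨆ i, m i] =ᵐ[P] f := condExp_of_aestronglyMeasurable' hall hfm hf.integrable
  have hdiff : ∀ n, |ES.BB P m f g (J n) - ∫ ω, f ω * g ω ∂P| ≤
      √(∫ ω, (P[f | ES.mS m (J n)] ω - P[f | ⨆ i, m i] ω) ^ 2 ∂P) * √(∫ ω, g ω ^ 2 ∂P) := by
    intro n
    have hT := ES.mS_le hle (J n)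
    have hfT := hf.condExp _ hT
    have hfA := hf.condExp _ hall
    have e1 : ES.BB P m f g (J n) = ∫ ω, P[f | ES.mS m (J n)] ω * g ω ∂P :=
      integral_mul_condExp hT hg hfT stronglyMeasurable_condExp.aestronglyMeasurable
    have e2 : ∫ ω, f ω * g ω ∂P = ∫ ω, P[f | ⨆ i, m i] ω * g ω ∂P := by
      refine integral_congr_ae ?_
      filter_upwards [hfe] with ω h
      rw [h]
    rw [e1, e2, ← integral_sub (hfT.mul hg).integrable (hfA.mul hg).integrable]
    have := abs_integral_mul_le (hfT.sub hfA) hg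
    simpa only [sub_mul] using this
  have hlim : Tendsto (fun n => ES.BB P m f g (J n)) atTop (nhds (∫ ω, f ω * g ω ∂P)) := by
    rw [tendsto_iff_norm_sub_tendsto_zero]
    refine squeeze_zero (fun n => norm_nonneg _) hdiff ?_
    have := (hlev.sqrt).mul_const (√(∫ ω, g ω ^ 2 ∂P))
    simpa using this
  exact le_of_tendsto' hlim.abs fun n =>
    ES.abs_BB_le hle hind hf hg hf0 hn₁ hn₂ h₁ h₂ (J n)

end Crest.Agent.R160

end
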