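import Crest.Agent.R160.GeoTrans
import Crest.Agent.R160.CE
import Crest.Prelude.Def_Labels

/-! Row 160: from an almost sure representation to an everywhere equivariant factor map. -/

noncomputable section

namespace Crest.Agent.R160

open Classical MeasureTheory ProbabilityTheory

universe u

lemma extract_dependsOn {V : Type u} {L : Type} [MeasurableSpace L] {Δ : Set V}
    {F : (V → L) → ℝ} (hF : Measurable[cylinderEvents Δ] F) {ξ ξ' : V → L}
    (h : ∀ v ∈ Δ, ξ v = ξ' v) : F ξ = F ξ' := by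
  let c : Bool → V → L := fun b => if b then ξ else ξ'
  have hc : @Measurable Bool (V → L) ⊥ (cylinderEvents Δ) c := by
    refine (@measurable_cylinderEvents_iff Bool V (fun _ => L) ⊥ _ Δ c).2 fun v hv => ?_
    have : (fun b => c b v) = fun _ => ξ v := by
      funext b
      cases b
      · exact (h v hv).symm
      · rfl
    rw [this]
    exact measurable_const
  obtain ⟨a, ha⟩ := eq_const_of_measurable_bot (hF.comp hc)
  exact (congrFun ha true).trans (congrFun ha false).symm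

lemma extract_mp {V : Type u} {L : Type} [MeasurableSpace L] (μ : Measure L)
    [IsProbabilityMeasure μ] (e : V ≃ V) :
    MeasurePreserving (fun ξ : V → L => ξ ∘ e) (Measure.infinitePi fun _ : V => μ)
      (Measure.infinitePi fun _ : V => μ) := by
  have hm : Measurable (fun ξ : V → L => ξ ∘ e) :=
    measurable_pi_lambda _ fun v => measurable_pi_apply (e v)
  refine ⟨hm, ?_⟩
  have := Measure.infinitePi_map_piCongrLeft (fun _ : V => μ) e.symm
  have h2 : (fun ξ : V → L => ξ ∘ e) = MeasurableEquiv.piCongrLeft (fun _ : V => L) e.symm := by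
    funext ξ v
    simp [MeasurableEquiv.piCongrLeft, Equiv.piCongrLeft_apply_eq_cast]
  rw [h2]
  exact this

namespace Setup

variable {V : Type u} (S : Setup V)

lemma extract_ball_finite (n : ℕ) : {v : V | S.G.dist S.o v ≤ n}.Finite := by
  refine ((Finset.range (n + 1)).biUnion (S.sph S.o)).finite_toSet.subset fun v hv => ?_
  simp only [Finset.coe_biUnion, Finset.coe_range, Set.mem_iUnion, Finset.mem_coe]
  exact ⟨S.G.dist S.o v, Nat.lt_succ_of_le hv, S.mem_sph.2 rfl⟩

lemma extract_comap {L : Type} [MeasurableSpace L] (n : ℕ) (g : S.G ≃g S.G) (hg : g S.o = S.o) :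
    (cylinderEvents (X := fun _ : V => L) {v : V | S.G.dist S.o v ≤ n}).comap
      (fun ξ : V → L => ξ ∘ g) = cylinderEvents {v : V | S.G.dist S.o v ≤ n} := by
  have hd : ∀ v, S.G.dist S.o (g v) = S.G.dist S.o v := by
    intro v
    conv_lhs => rw [← hg]
    exact S.dist_map g _ _
  unfold cylinderEvents
  simp only [MeasurableSpace.comap_iSup, MeasurableSpace.comap_comp]
  apply le_antisymm
  · refine iSup₂_le fun v hv => ?_
    exact le_iSup₂_of_le (g v) (by simpa [hd] using hv) le_rfl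
  · refine iSup₂_le fun v hv => ?_
    refine le_iSup₂_of_le (g.symm v) (by rw [Set.mem_ofPred_eq, ← hd]; simpa using hv) ?_
    apply le_of_eq
    congr 1
    funext ξ
    simp

/-- Equivariant version on the product space. Proof sketch: let `ν` be the product measure,
`f' = clip 1 ∘ f`, `fₙ = hₙ ∘ (restriction to the ball of radius n about o)` a version of
`ν[f' | ball n]`; for `g` fixing `o`, `fₙ (ξ ∘ g) = fₙ ξ` a.e. (`condExp_comp_mp`); only finitely
many restrictions of such `g` to the ball occur. Put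
`Φ ξ v = decide (∀ᶠ n, ∃ g, g o = v ∧ 0 < fₙ (ξ ∘ g))` and use `tendsto_ae_condExp`. -/
theorem exists_equivariant {L : Type} [MeasurableSpace L] (μ : Measure L) [IsProbabilityMeasure μ]
    {f : (V → L) → ℝ} (hf : Measurable f)
    (hf1 : ∀ᵐ ξ ∂(Measure.infinitePi fun _ : V => μ), f ξ = 1 ∨ f ξ = -1)
    (hinv : ∀ g : S.G ≃g S.G, g S.o = S.o →
      ∀ᵐ ξ ∂(Measure.infinitePi fun _ : V => μ), f (ξ ∘ g) = f ξ) :
    ∃ Φ : (V → L) → V → Bool, Measurable Φ ∧
      (∀ (g : S.G ≃g S.G) (ξ : V → L), Φ (ξ ∘ g) = Φ ξ ∘ g) ∧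
      ∀ g : S.G ≃g S.G, ∀ᵐ ξ ∂(Measure.infinitePi fun _ : V => μ),
        Φ ξ (g S.o) = decide (0 < f (ξ ∘ g)) := by
  have := S.countable
  set ν : Measure (V → L) := Measure.infinitePi fun _ : V => μ with hν
  let B : ℕ → Set V := fun n => {v : V | S.G.dist S.o v ≤ n}
  let ℱ : Filtration ℕ (MeasurableSpace.pi : MeasurableSpace (V → L)) :=
    ⟨fun n => cylinderEvents (B n),
      fun n n' h => cylinderEvents_mono fun v hv => le_trans hv h, fun _ => cylinderEvents_le_pi⟩
  have hsup : (MeasurableSpace.pi : MeasurableSpace (V → L)) ≤ ⨆ n, ℱ n := by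
    refine iSup_le fun v => le_iSup_of_le (S.G.dist S.o v) ?_
    exact (measurable_cylinderEvent_apply (X := fun _ : V => L) (Δ := B (S.G.dist S.o v))
      (i := v) (le_refl (S.G.dist S.o v))).comap_le
  have hint : Integrable f ν := by
    refine Integrable.of_bound hf.aestronglyMeasurable 1 ?_
    filter_upwards [hf1] with ξ h
    rcases h with h | h <;> simp [h]
  let F : ℕ → (V → L) → ℝ := fun n => ν[f | ℱ n]
  have hFm : ∀ n, Measurable[cylinderEvents (B n)] (F n) := fun n =>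
    stronglyMeasurable_condExp.measurable
  have hFm' : ∀ n, Measurable (F n) := fun n => (hFm n).mono cylinderEvents_le_pi le_rfl
  have hconv : ∀ᵐ ξ ∂ν, Filter.Tendsto (fun n => F n ξ) Filter.atTop (nhds (f ξ)) :=
    hint.tendsto_ae_condExp (ℱ := ℱ) (hf.stronglyMeasurable.mono hsup)
  have hcomp : ∀ g : S.G ≃g S.G, Measurable fun ξ : V → L => ξ ∘ g := fun g =>
    measurable_pi_lambda _ fun v => measurable_pi_apply (g v)
  have hdep : ∀ n (g g' : S.G ≃g S.G), (∀ v ∈ B n, g v = g' v) → ∀ ξ : V → L,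
      F n (ξ ∘ g) = F n (ξ ∘ g') := fun n g g' h ξ =>
    extract_dependsOn (hFm n) fun v hv => congrArg ξ (h v hv)
  have hBfin : ∀ n, Finite (B n) := fun n => (S.extract_ball_finite n).to_subtype
  have hFinv : ∀ n (g : S.G ≃g S.G), g S.o = S.o → ∀ᵐ ξ ∂ν, F n (ξ ∘ g) = F n ξ := by
    intro n g hg
    have h1 := condExp_comp_mp (extract_mp μ g.toEquiv) (ℱ.le n) hint
    have h2 : (ℱ n).comap (fun ξ : V → L => ξ ∘ g.toEquiv) = ℱ n := S.extract_comap n g hg
    rw [h2] at h1
    exact h1.trans (condExp_congr_ae (hinv g hg))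
  have hall : ∀ᵐ ξ ∂ν, ∀ n (g : S.G ≃g S.G), g S.o = S.o → F n (ξ ∘ g) = F n ξ := by
    rw [ae_all_iff]
    intro n
    have := hBfin n
    have h1 : ∀ r : B n → V, ∀ᵐ ξ ∂ν, ∀ g : S.G ≃g S.G, g S.o = S.o → (∀ v : B n, g v = r v) →
        F n (ξ ∘ g) = F n ξ := by
      intro r
      by_cases hr : ∃ g : S.G ≃g S.G, g S.o = S.o ∧ ∀ v : B n, g v = r v
      · obtain ⟨g₀, hg₀, hr₀⟩ := hr
        filter_upwards [hFinv n g₀ hg₀] with ξ hξ g _ hg
        rw [hdep n g g₀ (fun v hv => (hg ⟨v, hv⟩).trans (hr₀ ⟨v, hv⟩).symm) ξ, hξ]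
      · exact Filter.Eventually.of_forall fun ξ g hg hg' => (hr ⟨g, hg, hg'⟩).elim
    filter_upwards [ae_all_iff.2 h1] with ξ hξ g hg
    exact hξ (fun v => g v) g hg fun _ => rfl
  let Q : ℕ → V → (V → L) → Prop := fun n v ξ => ∃ g : S.G ≃g S.G, g S.o = v ∧ 0 < F n (ξ ∘ g)
  have hQ : ∀ n v, MeasurableSet {ξ | Q n v ξ} := by
    intro n v
    have := hBfin n
    have h1 : {ξ | Q n v ξ} = ⋃ r : B n → V,
        {ξ | ∃ g : S.G ≃g S.G, (g S.o = v ∧ ∀ w : B n, g w = r w) ∧ 0 < F n (ξ ∘ g)} := by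
      ext ξ
      simp only [Set.mem_ofPred_eq, Set.mem_iUnion]
      constructor
      · rintro ⟨g, hg, hg'⟩
        exact ⟨fun w => g w, g, ⟨hg, fun _ => rfl⟩, hg'⟩
      · rintro ⟨_, g, ⟨hg, -⟩, hg'⟩
        exact ⟨g, hg, hg'⟩
    rw [h1]
    refine MeasurableSet.iUnion fun r => ?_
    by_cases hr : ∃ g : S.G ≃g S.G, g S.o = v ∧ ∀ w : B n, g w = r w
    · obtain ⟨g₀, hg₀, hr₀⟩ := hr
      have h2 : {ξ | ∃ g : S.G ≃g S.G, (g S.o = v ∧ ∀ w : B n, g w = r w) ∧ 0 < F n (ξ ∘ g)} =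
          {ξ : V → L | 0 < F n (ξ ∘ g₀)} := by
        ext ξ
        simp only [Set.mem_ofPred_eq]
        constructor
        · rintro ⟨g, ⟨-, hg⟩, hg'⟩
          rwa [hdep n g g₀ (fun v hv => (hg ⟨v, hv⟩).trans (hr₀ ⟨v, hv⟩).symm) ξ] at hg'
        · intro h
          exact ⟨g₀, ⟨hg₀, hr₀⟩, h⟩
      rw [h2]
      exact measurableSet_lt measurable_const ((hFm' n).comp (hcomp g₀))
    · have h2 : {ξ : V → L | ∃ g : S.G ≃g S.G,
          (g S.o = v ∧ ∀ w : B n, g w = r w) ∧ 0 < F n (ξ ∘ g)} = ∅ := by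
        ext ξ
        simp only [Set.mem_ofPred_eq, Set.mem_empty_iff_false, iff_false]
        rintro ⟨g, hg, -⟩
        exact hr ⟨g, hg⟩
      rw [h2]
      exact MeasurableSet.empty
  let Φ : (V → L) → V → Bool := fun ξ v => decide (∀ᶠ n in Filter.atTop, Q n v ξ)
  have hΦe : ∀ (g : S.G ≃g S.G) (ξ : V → L), Φ (ξ ∘ g) = Φ ξ ∘ g := by
    intro g ξ
    funext v
    have : ∀ n, Q n v (ξ ∘ g) ↔ Q n (g v) ξ := by
      intro n
      constructor
      · rintro ⟨g', h1, h2⟩
        exact ⟨g'.trans g, by simp [h1], h2⟩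
      · rintro ⟨g', h1, h2⟩
        refine ⟨g'.trans g.symm, by simp [h1], ?_⟩
        have : (ξ ∘ g) ∘ (g'.trans g.symm) = ξ ∘ g' := by
          funext w; simp
        rwa [this]
    simp only [Φ, Function.comp, this]
  have hΦo : ∀ᵐ ξ ∂ν, Φ ξ S.o = decide (0 < f ξ) := by
    filter_upwards [hconv, hall, hf1] with ξ h1 h2 h3
    have hq : ∀ n, Q n S.o ξ ↔ 0 < F n ξ := by
      intro n
      constructor
      · rintro ⟨g, hg, hg'⟩
        rwa [h2 n g hg] at hg'
      · intro h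
        exact ⟨RelIso.refl _, rfl, h⟩
    simp only [Φ, hq]
    rw [decide_eq_decide]
    constructor
    · intro h
      have h4 : 0 ≤ f ξ := ge_of_tendsto h1 (h.mono fun n hn => hn.le)
      rcases h3 with h3 | h3 <;> rw [h3] at h4 ⊢ <;> linarith
    · intro h
      exact h1.eventually (lt_mem_nhds h)
  refine ⟨Φ, ?_, hΦe, fun g => ?_⟩
  · refine measurable_pi_lambda _ fun v => ?_
    refine measurable_to_bool ?_
    have : (fun ξ => Φ ξ v) ⁻¹' {true} = ⋃ N : ℕ, ⋂ n : ℕ, ⋂ _ : N ≤ n, {ξ | Q n v ξ} := by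
      ext ξ
      simp [Φ, Filter.eventually_atTop]
    rw [this]
    exact MeasurableSet.iUnion fun N => MeasurableSet.iInter fun n =>
      MeasurableSet.iInter fun _ => hQ n v
  · filter_upwards [(extract_mp μ g.toEquiv).quasiMeasurePreserving.ae hΦo] with ξ hξ
    exact (congrFun (hΦe g ξ) S.o).symm.trans hξ

/-- Factor map from uniform labels. -/
theorem exists_factor {Ω : Type*} [MeasurableSpace Ω] (P : Measure Ω) [IsProbabilityMeasure P]
    {L : Type} [MeasurableSpace L] [StandardBorelSpace L] [Nonempty L] (μ : Measure L)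
    [IsProbabilityMeasure μ] {X : Ω → V → L} (hX : Measurable X)
    (hlaw : P.map X = Measure.infinitePi fun _ : V => μ) {σ : V → Ω → ℝ}
    (hσm : ∀ v, Measurable (σ v)) (hσ : ∀ v ω, σ v ω = 1 ∨ σ v ω = -1) {f : (V → L) → ℝ}
    (hf : Measurable f) (hrep : ∀ g : S.G ≃g S.G, ∀ᵐ ω ∂P, σ (g S.o) ω = f (X ω ∘ g)) :
    ∃ Φ : (V → unitInterval) → V → Bool, Measurable Φ ∧
      (∀ (g : S.G ≃g S.G) (x : V → unitInterval), Φ (x ∘ g) = Φ x ∘ g) ∧
      (Crest.ProbabilityR.Labels.labelMeasure V).map Φ =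
        P.map (fun ω v => decide (0 < σ v ω)) := by
  have := S.countable
  have hcomp : ∀ g : S.G ≃g S.G, Measurable fun ξ : V → L => ξ ∘ g := fun g =>
    measurable_pi_lambda _ fun v => measurable_pi_apply (g v)
  have h0 : ∀ᵐ ω ∂P, σ S.o ω = f (X ω) := hrep (RelIso.refl _)
  have hf1 : ∀ᵐ ξ ∂(Measure.infinitePi fun _ : V => μ), f ξ = 1 ∨ f ξ = -1 := by
    rw [← hlaw]
    refine (ae_map_iff hX.aemeasurable ((measurableSet_eq_fun hf measurable_const).union
      (measurableSet_eq_fun hf measurable_const))).2 ?_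
    filter_upwards [h0] with ω hω
    have := hσ S.o ω
    rw [hω] at this
    exact this
  have hinv : ∀ g : S.G ≃g S.G, g S.o = S.o →
      ∀ᵐ ξ ∂(Measure.infinitePi fun _ : V => μ), f (ξ ∘ g) = f ξ := by
    intro g hg
    rw [← hlaw]
    refine (ae_map_iff hX.aemeasurable (measurableSet_eq_fun (hf.comp (hcomp g)) hf)).2 ?_
    filter_upwards [h0, hrep g] with ω h1 h2
    rw [hg] at h2
    exact h2.symm.trans h1
  obtain ⟨Φ, hΦm, hΦe, hΦ⟩ := S.exists_equivariant μ hf hf1 hinv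
  obtain ⟨κ, hκ, hκμ⟩ := Measure.exists_measurable_map_eq μ
  have hK : Measurable fun (x : V → unitInterval) (v : V) => κ (x v) :=
    measurable_pi_lambda _ fun v => hκ.comp (measurable_pi_apply v)
  refine ⟨fun x => Φ (fun v => κ (x v)), hΦm.comp hK, fun g x => hΦe g fun v => κ (x v), ?_⟩
  have h1 : (Crest.ProbabilityR.Labels.labelMeasure V).map (fun x v => κ (x v)) =
      Measure.infinitePi fun _ : V => μ := by
    unfold Crest.ProbabilityR.Labels.labelMeasure
    rw [Measure.infinitePi_map_pi (fun _ : V => (volume : Measure unitInterval))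
      (f := fun _ => κ) fun _ => hκ]
    simp only [hκμ]
  have h2 : (fun x : V → unitInterval => Φ fun v => κ (x v)) = Φ ∘ fun x v => κ (x v) := rfl
  rw [h2, ← Measure.map_map hΦm hK, h1, ← hlaw, Measure.map_map hΦm hX]
  refine Measure.map_congr ?_
  have h3 : ∀ v, ∀ᵐ ω ∂P, Φ (X ω) v = decide (0 < σ v ω) := by
    intro v
    obtain ⟨g, hg, -⟩ := S.exists_iso (x := S.o) (v := S.o) (x' := v) (v' := v)
      (by rw [S.ds, S.ds])
    have h4 := hΦ g
    rw [← hlaw] at h4
    filter_upwards [ae_of_ae_map hX.aemeasurable h4, hrep g] with ω h5 h6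
    rw [hg] at h5 h6
    rw [h5, h6]
  filter_upwards [ae_all_iff.2 h3] with ω hω
  funext v
  exact hω v

end Setup

end Crest.Agent.R160

end
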