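import Crest.Agent.R160.Ind
import Crest.Prelude.Def_TreeIsing

/-! Row 160: the spins have the law of the free Ising state. -/

noncomputable section

namespace Crest.Agent.R160

open Classical MeasureTheory ProbabilityTheory

universe u

namespace Setup

variable {V : Type u} (S : Setup V)

/-- The agreement threshold as a point of the unit interval. -/
def isingThr : unitInterval :=
  ⟨(1 + S.θ) / 2, by
    have h1 := S.θ0
    have h2 := S.theta_le
    constructor <;> linarith⟩

/-- The set of labels of the edge `e` compatible with the pattern `η`. -/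
def isingSet (η : V → Bool) (e : Sym2 V) : Set unitInterval :=
  if (Sym2.map η e).IsDiag then Set.Iic S.isingThr else Set.Ioi S.isingThr

lemma measurableSet_isingSet (η : V → Bool) (e : Sym2 V) : MeasurableSet (S.isingSet η e) := by
  unfold isingSet
  split_ifs
  · exact measurableSet_Iic
  · exact measurableSet_Ioi

lemma volume_isingSet (η : V → Bool) (e : Sym2 V) :
    volume (S.isingSet η e) =
      ENNReal.ofReal (if (Sym2.map η e).IsDiag then (1 + S.θ) / 2 else (1 - S.θ) / 2) := by
  unfold isingSet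
  split_ifs
  · rw [unitInterval.volume_Iic]; rfl
  · rw [unitInterval.volume_Ioi]
    congr 1
    show 1 - (1 + S.θ) / 2 = _
    ring

lemma mem_isingSet_iff (η : V → Bool) {x y : V} (h : S.G.Adj x y) (ω : S.Om) :
    ω.2 (S.iE ⟨s(x, y), h⟩) ∈ S.isingSet η s(x, y) ↔
      (S.σ x ω * S.σ y ω = 1 ↔ η x = η y) := by
  rw [S.σ_mul_adj h]
  unfold isingSet tau
  rw [dif_pos h]
  simp only [Sym2.map_mk, Sym2.mk_isDiag_iff]
  have key : (ω.2 (S.iE ⟨s(x, y), h⟩) ≤ S.isingThr) ↔
      ((ω.2 (S.iE ⟨s(x, y), h⟩) : ℝ) ≤ (1 + S.θ) / 2) := Iff.rfl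
  by_cases h1 : η x = η y
  · rw [if_pos h1, Set.mem_Iic, key]
    by_cases h2 : (ω.2 (S.iE ⟨s(x, y), h⟩) : ℝ) ≤ (1 + S.θ) / 2
    · simp [h1, h2]
    · simp only [h1, h2, if_false]
      norm_num
  · rw [if_neg h1, Set.mem_Ioi, ← not_le, key]
    by_cases h2 : (ω.2 (S.iE ⟨s(x, y), h⟩) : ℝ) ≤ (1 + S.θ) / 2
    · simp [h1, h2]
    · simp only [h1, h2, if_false]
      norm_num

lemma spin_step (η : V → Bool) {x y : V} (ω : S.Om) (hx : decide (0 < S.σ x ω) = η x) :
    decide (0 < S.σ y ω) = η y ↔ (S.σ x ω * S.σ y ω = 1 ↔ η x = η y) := by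
  rw [← hx]
  rcases S.σ_cases x ω with h1 | h1 <;> rcases S.σ_cases y ω with h2 | h2 <;>
    rw [h1, h2] <;> cases η y <;> norm_num

/-- The finite set of edge indices inside `B`. -/
def isingIdx (B : Finset V) : Finset S.Idx :=
  (B.sym2.subtype (· ∈ S.G.edgeSet)).map ⟨Sum.inl, Sum.inl_injective⟩

/-- The compatible labels of an index. -/
def isingSet' (η : V → Bool) (i : S.Idx) : Set unitInterval :=
  Sum.elim (fun e : S.G.edgeSet => S.isingSet η e.1) (fun _ => Set.univ) i

lemma mem_pi_iff (B : Finset V) (η : V → Bool) (ω : S.Om) :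
    ω.2 ∈ Set.pi (S.isingIdx B : Set S.Idx) (S.isingSet' η) ↔
      ∀ x ∈ B, ∀ y ∈ B, S.G.Adj x y → (S.σ x ω * S.σ y ω = 1 ↔ η x = η y) := by
  constructor
  · intro h x hx y hy hxy
    rw [← S.mem_isingSet_iff η hxy]
    have : S.iE ⟨s(x, y), hxy⟩ ∈ (S.isingIdx B : Set S.Idx) := by
      rw [Finset.mem_coe, isingIdx, Finset.mem_map]
      refine ⟨⟨s(x, y), hxy⟩, ?_, rfl⟩
      rw [Finset.mem_subtype]
      exact Finset.mk_mem_sym2_iff.2 ⟨hx, hy⟩
    exact h _ this
  · intro h i hi
    rw [Finset.mem_coe, isingIdx, Finset.mem_map] at hi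
    obtain ⟨⟨e, he⟩, h1, rfl⟩ := hi
    rw [Finset.mem_subtype] at h1
    induction e using Sym2.ind with
    | _ x y =>
      have hxy : S.G.Adj x y := he
      obtain ⟨hx, hy⟩ := Finset.mk_mem_sym2_iff.1 h1
      exact (S.mem_isingSet_iff η hxy ω).2 (h x hx y hy hxy)

lemma ising_event (B : Finset V) (η : V → Bool) (hB : (S.G.induce (B : Set V)).Connected)
    {y : V} (hy : y ∈ B) :
    {ω | ∀ v ∈ B, decide (0 < S.σ v ω) = η v} =
      (fun ω : S.Om => ((decide (0 < S.σ y ω), ω.2) : S.Om)) ⁻¹'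
        (({η y} : Set Bool) ×ˢ Set.pi (S.isingIdx B : Set S.Idx) (S.isingSet' η)) := by
  ext ω
  simp only [Set.mem_ofPred_eq, Set.mem_preimage, Set.mem_prod, Set.mem_singleton_iff]
  rw [S.mem_pi_iff]
  constructor
  · intro h
    exact ⟨h y hy, fun x hx z hz _ => (S.spin_step η ω (h x hx)).1 (h z hz)⟩
  · rintro ⟨h0, h⟩ v hv
    obtain ⟨p⟩ := hB.preconnected ⟨y, hy⟩ ⟨v, hv⟩
    have key : ∀ (a b : (B : Set V)) (_ : (S.G.induce (B : Set V)).Walk a b),
        decide (0 < S.σ a ω) = η a → decide (0 < S.σ b ω) = η b := by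
      intro a b p
      induction p with
      | nil => exact id
      | @cons a c b hac _ ih =>
        intro ha
        exact ih ((S.spin_step η ω ha).2 (h a a.2 c c.2 hac))
    exact key _ _ p h0

/-- Proof sketch: pick `y ∈ B`; the event is `{σ y = sgn (η y)}` intersected with
`{tau x x' = sgn (η x) * sgn (η x')}` over the edges inside `B` (connectedness); use
`indep_Sg_I` and `integral_prod_of_disjoint` (or `iIndep_I1`). -/
theorem ising_law (B : Finset V) (η : V → Bool) (hB : (S.G.induce (B : Set V)).Connected) :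
    S.P {ω | ∀ v ∈ B, decide (0 < S.σ v ω) = η v} =
      ENNReal.ofReal (Crest.ProbabilityR.TreeIsing.isingWeight S.G S.θ B η) := by
  obtain ⟨⟨y, hy⟩⟩ := hB.nonempty
  have hm : ∀ i ∈ S.isingIdx B, MeasurableSet (S.isingSet' η i) := by
    intro i _
    rcases i with e | w
    · exact S.measurableSet_isingSet η e.1
    · exact MeasurableSet.univ
  have hpi : MeasurableSet (Set.pi (S.isingIdx B : Set S.Idx) (S.isingSet' η)) :=
    MeasurableSet.pi (Finset.countable_toSet _) hm
  rw [S.ising_event B η hB hy,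
    (S.mp_skew y).measure_preimage ((measurableSet_singleton _).prod hpi).nullMeasurableSet]
  unfold P lab
  rw [Measure.prod_prod, Measure.infinitePi_pi _ hm]
  have hc : coin {η y} = ENNReal.ofReal (1 / 2) := by
    rw [ENNReal.ofReal_div_of_pos (by norm_num)]
    cases η y <;> simp [coin]
  have h1 := S.θ0
  have h2 := S.theta_le
  unfold Crest.ProbabilityR.TreeIsing.isingWeight
  rw [hc, ENNReal.ofReal_mul (by norm_num), ENNReal.ofReal_prod_of_nonneg]
  · congr 1
    unfold isingIdx
    rw [Finset.prod_map]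
    have := Finset.prod_subtype_eq_prod_filter (s := B.sym2) (p := (· ∈ S.G.edgeSet))
      (fun e => volume (S.isingSet η e))
    refine Eq.trans this ?_
    refine Finset.prod_congr (by congr) fun e _ => ?_
    rw [S.volume_isingSet]
  · intro e _
    split_ifs <;> linarith

end Setup

end Crest.Agent.R160

end
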