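import Crest.Agent.R160.Innov

/-! Row 160: times and innovations are independent and uniform. -/

set_option warn.classDefReducibility false

noncomputable section

namespace Crest.Agent.R160

open Classical MeasureTheory ProbabilityTheory

universe u

lemma condExp_of_sandwich {Ω : Type*} {mΩ : MeasurableSpace Ω} {P : Measure Ω}
    [IsProbabilityMeasure P] {m₀ m₁ m₂ : MeasurableSpace Ω} (h01 : m₀ ≤ m₁) (h12 : m₁ ≤ m₂)
    (h2 : m₂ ≤ mΩ) {f : Ω → ℝ} (h : P[f | m₂] =ᵐ[P] P[f | m₀]) : P[f | m₁] =ᵐ[P] P[f | m₀] := by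
  have e1 : P[f | m₁] =ᵐ[P] P[P[f | m₂] | m₁] := (condExp_condExp_of_le h12 h2).symm
  have e2 : P[P[f | m₂] | m₁] =ᵐ[P] P[P[f | m₀] | m₁] := condExp_congr_ae h
  have e3 : P[P[f | m₀] | m₁] = P[f | m₀] :=
    condExp_of_stronglyMeasurable (h12.trans h2) (stronglyMeasurable_condExp.mono h01)
      integrable_condExp
  exact e1.trans (e2.trans (by rw [e3]))

namespace Setup

variable {V : Type u} (S : Setup V)

/-- σ-algebra of finitely many reveal times. -/
def Tm (W : Finset (V × ℕ)) : MeasurableSpace S.Om := ⨆ w ∈ W, S.I1 (S.iT w)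

lemma I1_le_Tm {W : Finset (V × ℕ)} {w : V × ℕ} (h : w ∈ W) : S.I1 (S.iT w) ≤ S.Tm W :=
  le_iSup₂_of_le (f := fun w (_ : w ∈ W) => S.I1 (S.iT w)) w h le_rfl

lemma Tm_le {W : Finset (V × ℕ)} {m : MeasurableSpace S.Om}
    (h : ∀ w ∈ W, S.I1 (S.iT w) ≤ m) : S.Tm W ≤ m := iSup₂_le h

lemma Tm_le_amb (W : Finset (V × ℕ)) : S.Tm W ≤ (inferInstance : MeasurableSpace S.Om) :=
  S.Tm_le fun _ _ => S.I1_le _

lemma Tm_insert (W : Finset (V × ℕ)) (w : V × ℕ) :
    S.Tm (insert w W) = S.I1 (S.iT w) ⊔ S.Tm W := by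
  unfold Tm
  rw [Finset.iSup_insert]

lemma iT_ne_iT {w w' : V × ℕ} (h : w ≠ w') : S.iT w ≠ S.iT w' := by
  simpa [iT] using h

lemma iN_ne_iT (w w' : V × ℕ) : S.iN w ≠ S.iT w' := by simp [iT, iN]

lemma measurable_eta_I1 (w : V × ℕ) : Measurable[S.I1 (S.iN w)] (S.eta w) :=
  measurable_subtype_coe.comp (comap_measurable (fun ω : S.Om => ω.2 (S.iN w)))

/-- The record before `w` with `w'` switched off. -/
def Dlt' (w w' : V × ℕ) (ω : S.Om) : ℝ × Data V :=
  (S.tm w ω, S.D (off (cst (S.tm w ω)) w') ω)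

lemma measurable_Dlt'_Kx {w w' : V × ℕ} (h : w ≠ w') :
    Measurable[S.Kx (S.iT w')] (S.Dlt' w w') := by
  have ht : ∀ v, v ≠ w' → Measurable[S.Kx (S.iT w')] (S.tm v) := fun v hv =>
    (S.measurable_tm_I1 v).mono (S.I1_le_Kx (S.iT_ne_iT hv)) le_rfl
  have hY : ∀ v, v ≠ w' → Measurable[S.Kx (S.iT w')] (S.Y v) := by
    intro v hv
    have h1 : Measurable[S.Kx (S.iT w')] (S.σ v.1) :=
      (S.measurable_σ_Sg v.1).mono ((le_iSup S.Sg v.1).trans (S.Sp_le_Kx_iT w')) le_rfl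
    have h2 : Measurable[S.Kx (S.iT w')] (S.eta v) :=
      (S.measurable_eta_I1 v).mono (S.I1_le_Kx (S.iN_ne_iT v w')) le_rfl
    have h3 : Measurable[S.Kx (S.iT w')] (S.a v) :=
      (S.measurable_a_I1 v).mono (S.I1_le_Kx (S.iT_ne_iT hv)) le_rfl
    exact h1.mul (Measurable.Qi' h2 h3)
  let _ : MeasurableSpace S.Om := S.Kx (S.iT w')
  refine (ht w h).prodMk (measurable_pi_lambda _ fun v => ?_)
  by_cases hv : v = w'
  · subst hv
    have : (fun ω => S.D (off (cst (S.tm w ω)) v) ω v) = fun _ => ((-1 : ℝ), (0 : ℝ)) := by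
      funext ω
      simp [D, off, not_lt.2 (S.tm_nonneg v ω)]
    rw [this]
    exact measurable_const
  · have : (fun ω => S.D (off (cst (S.tm w ω)) w') ω v) =
        fun ω => if S.tm v ω < S.tm w ω then (S.tm v ω, S.Y v ω) else (-1, 0) := by
      funext ω
      simp [D, off, hv, cst]
    rw [this]
    exact Measurable.ite (measurableSet_lt (ht v hv) (ht w h)) ((ht v hv).prodMk (hY v hv))
      measurable_const

/-- Auxiliary σ-algebra. -/
def H0 (w w' : V × ℕ) (W : Finset (V × ℕ)) : MeasurableSpace S.Om :=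
  MeasurableSpace.comap (S.Dlt' w w') inferInstance ⊔ S.Tm W

lemma H0_le_Kx {w w' : V × ℕ} (h : w ≠ w') {W : Finset (V × ℕ)} (hW : w' ∉ W) :
    S.H0 w w' W ≤ S.Kx (S.iT w') :=
  sup_le (S.measurable_Dlt'_Kx h).comap_le
    (S.Tm_le fun _ hv => S.I1_le_Kx (S.iT_ne_iT fun e => hW (e ▸ hv)))

lemma Dlt_eq_Dlt' {w w' : V × ℕ} {ω : S.Om} (h : S.tm w ω ≤ S.tm w' ω) :
    S.Dlt w ω = S.Dlt' w w' ω := by
  unfold Dlt Dlt'
  rw [S.D_eq_off (w := w') h]

lemma loc_H_H0 (w w' : V × ℕ) (W : Finset (V × ℕ)) {K : MeasurableSpace S.Om}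
    (hK : S.H0 w w' W ≤ K) (hB : MeasurableSet[K] {ω | S.tm w ω ≤ S.tm w' ω}) :
    Loc {ω | S.tm w ω ≤ S.tm w' ω} (S.Flt w ⊔ S.Tm W) K := by
  refine Loc.sup ?_ (Loc.of_le (le_sup_right.trans hK) hB)
  exact Loc.comap hB ((comap_measurable (S.Dlt' w w')).mono (le_sup_left.trans hK) le_rfl)
    fun ω hω => S.Dlt_eq_Dlt' hω

lemma measurableSet_B_Flt (w w' : V × ℕ) :
    MeasurableSet[S.Flt w] {ω | S.tm w ω ≤ S.tm w' ω} := by
  have h := (S.loc_Fle_Flt w w').1.compl
  have e : {ω | S.tm w' ω < S.tm w ω}ᶜ = {ω | S.tm w ω ≤ S.tm w' ω} := by ext ω; simp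
  rwa [e] at h

lemma loc_H0_H (w w' : V × ℕ) (W : Finset (V × ℕ)) {K : MeasurableSpace S.Om}
    (hK : S.Flt w ⊔ S.Tm W ≤ K) : Loc {ω | S.tm w ω ≤ S.tm w' ω} (S.H0 w w' W) K := by
  have hB : MeasurableSet[K] {ω | S.tm w ω ≤ S.tm w' ω} :=
    (le_sup_left.trans hK) _ (S.measurableSet_B_Flt w w')
  refine Loc.sup ?_ (Loc.of_le (le_sup_right.trans hK) hB)
  exact Loc.comap hB ((comap_measurable (S.Dlt w)).mono (le_sup_left.trans hK) le_rfl)
    fun ω hω => (S.Dlt_eq_Dlt' hω).symm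

lemma M_ae_eq_Tm (w : V × ℕ) (W : Finset (V × ℕ)) :
    S.M w =ᵐ[S.P] S.P[S.σ w.1 | S.Flt w ⊔ S.Tm W] := by
  induction W using Finset.induction_on with
  | empty =>
    have : S.Flt w ⊔ S.Tm ∅ = S.Flt w := sup_eq_left.2 (S.Tm_le (by simp))
    rw [this]; exact S.M_ae_eq w
  | insert w' W hw' ih =>
    by_cases hww : w = w'
    · subst hww
      have : S.Flt w ⊔ S.Tm (insert w W) = S.Flt w ⊔ S.Tm W := by
        rw [Tm_insert, ← sup_assoc, sup_eq_left.2 (S.I1_iT_le_Flt w)]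
      rw [this]; exact ih
    have hint : Integrable (S.σ w.1) S.P := (S.bdd_σ _).integrable
    have hBF := S.measurableSet_B_Flt w w'
    have hHle : S.Flt w ⊔ S.Tm W ≤ (inferInstance : MeasurableSpace S.Om) :=
      sup_le (S.Flt_le w) (S.Tm_le_amb W)
    have hH'le : S.Flt w ⊔ S.Tm (insert w' W) ≤ (inferInstance : MeasurableSpace S.Om) :=
      sup_le (S.Flt_le w) (S.Tm_le_amb _)
    have hHH' : S.Flt w ⊔ S.Tm W ≤ S.Flt w ⊔ S.Tm (insert w' W) :=
      sup_le_sup_left (by rw [Tm_insert]; exact le_sup_right) _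
    have hH0K := S.H0_le_Kx hww hw'
    have hH0le : S.H0 w w' W ≤ (inferInstance : MeasurableSpace S.Om) := hH0K.trans (S.Kx_le _)
    have hH2le : S.H0 w w' W ⊔ S.I1 (S.iT w') ≤ (inferInstance : MeasurableSpace S.Om) :=
      sup_le hH0le (S.I1_le _)
    have htw : Measurable[S.H0 w w' W] (S.tm w) :=
      (measurable_fst.comp (comap_measurable (S.Dlt' w w'))).mono le_sup_left le_rfl
    have hB2 : MeasurableSet[S.H0 w w' W ⊔ S.I1 (S.iT w')] {ω | S.tm w ω ≤ S.tm w' ω} :=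
      @measurableSet_le _ _ _ _ _ (S.H0 w w' W ⊔ S.I1 (S.iT w')) _ _ _ _ _
        (htw.mono le_sup_left le_rfl) ((S.measurable_tm_I1 w').mono le_sup_right le_rfl)
    have hG2 : MeasurableSpace.generateFrom {{ω | S.tm w ω ≤ S.tm w' ω}} ≤
        S.H0 w w' W ⊔ S.I1 (S.iT w') :=
      MeasurableSpace.generateFrom_le fun t ht => by rw [Set.mem_singleton_iff.1 ht]; exact hB2
    have hGH : MeasurableSpace.generateFrom {{ω | S.tm w ω ≤ S.tm w' ω}} ≤ S.Flt w ⊔ S.Tm W :=
      MeasurableSpace.generateFrom_le fun t ht => by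
        rw [Set.mem_singleton_iff.1 ht]; exact (le_sup_left : _ ≤ S.Flt w ⊔ S.Tm W) _ hBF
    have h12 : S.H0 w w' W ⊔ MeasurableSpace.generateFrom {{ω | S.tm w ω ≤ S.tm w' ω}} ≤
        S.H0 w w' W ⊔ S.I1 (S.iT w') := sup_le le_sup_left hG2
    have hB1 : MeasurableSet[S.H0 w w' W ⊔
        MeasurableSpace.generateFrom {{ω | S.tm w ω ≤ S.tm w' ω}}] {ω | S.tm w ω ≤ S.tm w' ω} :=
      (le_sup_right : _ ≤ S.H0 w w' W ⊔ _) _ (MeasurableSpace.measurableSet_generateFrom rfl)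
    have e20 : S.P[S.σ w.1 | S.H0 w w' W ⊔ S.I1 (S.iT w')] =ᵐ[S.P] S.P[S.σ w.1 | S.H0 w w' W] :=
      condExp_sup_indep (S.Kx_le _) (S.I1_le _) hH0K (S.indep_Kx _) hint
        ((S.measurable_σ_Sg w.1).mono ((le_iSup S.Sg w.1).trans (S.Sp_le_Kx_iT w'))
          le_rfl).aestronglyMeasurable
    have e10 := condExp_of_sandwich le_sup_left h12 hH2le e20
    have l1 := Loc.condExp_eq hHle (h12.trans hH2le) (S.loc_H_H0 w w' W le_sup_left hB1)
      (Loc.sup (S.loc_H0_H w w' W le_rfl)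
        (Loc.of_le hGH ((le_sup_left : _ ≤ S.Flt w ⊔ S.Tm W) _ hBF))) hint
    have l2 : ∀ᵐ ω ∂S.P, ω ∈ {ω | S.tm w ω ≤ S.tm w' ω} →
        S.P[S.σ w.1 | S.Flt w ⊔ S.Tm (insert w' W)] ω =
          S.P[S.σ w.1 | S.H0 w w' W ⊔ S.I1 (S.iT w')] ω := by
      refine Loc.condExp_eq hH'le hH2le ?_ ?_ hint
      · rw [Tm_insert, ← sup_assoc, sup_comm (S.Flt w), sup_assoc]
        exact Loc.sup (Loc.of_le le_sup_right hB2) (S.loc_H_H0 w w' W le_sup_left hB2)
      · refine Loc.sup (S.loc_H0_H w w' W hHH') (Loc.of_le ?_ ((le_sup_left.trans hHH') _ hBF))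
        exact (S.I1_le_Tm (Finset.mem_insert_self _ _)).trans le_sup_right
    have l3 : ∀ᵐ ω ∂S.P, ω ∈ {ω | S.tm w' ω < S.tm w ω} →
        S.P[S.σ w.1 | S.Flt w ⊔ S.Tm (insert w' W)] ω = S.P[S.σ w.1 | S.Flt w ⊔ S.Tm W] ω := by
      have hC := (S.loc_Fle_Flt w w').1
      refine Loc.condExp_eq hH'le hHle ?_ (Loc.of_le hHH' ((le_sup_left.trans hHH') _ hC)) hint
      rw [Tm_insert, ← sup_assoc, sup_comm (S.Flt w), sup_assoc]
      refine Loc.sup ?_ (Loc.of_le le_rfl ((le_sup_left : _ ≤ S.Flt w ⊔ S.Tm W) _ hC))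
      exact (S.loc_Fle_Flt w w').mono ((S.I1_iT_le_Flt w').trans le_sup_left) le_sup_left
    filter_upwards [ih, e20, e10, l1, l2, l3] with ω h1 h2 h3 h4 h5 h6
    by_cases hω : S.tm w ω ≤ S.tm w' ω
    · rw [h1, h4 hω, h3, h5 hω, h2]
    · rw [h1, h6 (not_le.1 hω)]

/-- Indicator that `w` is the index of `W` revealed last. -/
def last (W : Finset (V × ℕ)) (w : V × ℕ) (ω : S.Om) : ℝ :=
  ∏ w' ∈ W.erase w, if S.tm w' ω < S.tm w ω then 1 else 0

lemma abs_last_le (W : Finset (V × ℕ)) (w : V × ℕ) (ω : S.Om) : |S.last W w ω| ≤ 1 := by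
  unfold last
  rw [Finset.abs_prod]
  exact Finset.prod_le_one (fun _ _ => abs_nonneg _) fun i _ => by split_ifs <;> simp

lemma sum_last {W : Finset (V × ℕ)} (hW : W.Nonempty) :
    ∀ᵐ ω ∂S.P, ∑ w ∈ W, S.last W w ω = 1 := by
  have h : ∀ᵐ ω ∂S.P, ∀ w ∈ W, ∀ w' ∈ W, w ≠ w' → S.tm w ω ≠ S.tm w' ω := by
    rw [Filter.eventually_all_finset]
    intro w _
    rw [Filter.eventually_all_finset]
    intro w' _
    by_cases e : w = w'
    · exact Filter.Eventually.of_forall fun _ h => absurd e h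
    · filter_upwards [S.ae_tm_ne e] with ω h _ using h
  filter_upwards [h] with ω hω
  obtain ⟨w₀, hw₀, hmax⟩ := W.exists_max_image (fun w => S.tm w ω) hW
  rw [Finset.sum_eq_single_of_mem w₀ hw₀]
  · refine Finset.prod_eq_one fun w' hw' => ?_
    rw [Finset.mem_erase] at hw'
    rw [if_pos (lt_of_le_of_ne (hmax w' hw'.2) (hω w' hw'.2 w₀ hw₀ hw'.1))]
  · intro w hw hne
    refine Finset.prod_eq_zero (Finset.mem_erase.2 ⟨hne.symm, hw₀⟩) ?_
    rw [if_neg (not_lt.2 (hmax w hw))]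

lemma measurable_last_Tm {W W₁ : Finset (V × ℕ)} (hW : W₁ ⊆ W) {w : V × ℕ} (hw : w ∈ W₁) :
    Measurable[S.Tm W] (S.last W₁ w) := by
  have ht : ∀ v ∈ W₁, Measurable[S.Tm W] (S.tm v) := fun v hv =>
    (S.measurable_tm_I1 v).mono (S.I1_le_Tm (hW hv)) le_rfl
  let _ : MeasurableSpace S.Om := S.Tm W
  unfold last
  refine Finset.measurable_prod _ fun v hv => ?_
  exact Measurable.ite (measurableSet_lt (ht v (Finset.mem_of_mem_erase hv)) (ht w hw))
    measurable_const measurable_const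

lemma integral_mul_prod_U (W W₁ : Finset (V × ℕ)) (hW : W₁ ⊆ W) {k : V × ℕ → ℝ → ℝ}
    (hk : ∀ w, Measurable (k w)) (hk1 : ∀ w u, |k w u| ≤ 1) {Z : S.Om → ℝ}
    (hZ : Measurable[S.Tm W] Z) (hZ1 : ∀ ω, |Z ω| ≤ 1) :
    ∫ ω, Z ω * ∏ w ∈ W₁, k w (S.U w ω) ∂S.P =
      (∫ ω, Z ω ∂S.P) * ∏ w ∈ W₁, ∫ u : unitInterval, k w u := by
  induction W₁ using Finset.strongInduction generalizing Z with
  | H W₁ ih =>
  rcases W₁.eq_empty_or_nonempty with rfl | hne
  · simp
  have hZb : Bdd S.P Z := Bdd.of_meas (hZ.mono (S.Tm_le_amb W) le_rfl) hZ1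
  have hkb : ∀ w, Bdd S.P (fun ω => k w (S.U w ω)) := fun w =>
    Bdd.of_meas ((hk w).comp (S.measurable_U w)) (fun ω => hk1 w _)
  have hlb : ∀ w ∈ W₁, Bdd S.P (S.last W₁ w) := fun w hw =>
    Bdd.of_meas ((S.measurable_last_Tm hW hw).mono (S.Tm_le_amb W) le_rfl) (S.abs_last_le W₁ w)
  have key : ∀ w ∈ W₁, ∫ ω, S.last W₁ w ω * (Z ω * ∏ w ∈ W₁, k w (S.U w ω)) ∂S.P =
      (∫ ω, S.last W₁ w ω * Z ω ∂S.P) * ∏ w ∈ W₁, ∫ u : unitInterval, k w u := by
    intro w hw
    set X : S.Om → ℝ := fun ω => (S.last W₁ w ω * Z ω) * ∏ v ∈ W₁.erase w, k v (S.U v ω) with hX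
    have hX' : X = fun ω => Z ω *
        ∏ v ∈ W₁.erase w, (if ω ∈ {ω | S.tm v ω < S.tm w ω} then k v (S.U v ω) else 0) := by
      funext ω
      simp only [hX, last, Set.mem_ofPred_eq]
      rw [mul_comm _ (Z ω), mul_assoc, ← Finset.prod_mul_distrib]
      congr 1
      refine Finset.prod_congr rfl fun v _ => ?_
      split_ifs <;> simp
    have hXm : Measurable[S.Flt w ⊔ S.Tm W] X := by
      rw [hX']
      have h1 : ∀ v, Measurable[S.Flt w ⊔ S.Tm W]
          (fun ω => if ω ∈ {ω | S.tm v ω < S.tm w ω} then k v (S.U v ω) else 0) := fun v =>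
        ((S.loc_Fle_Flt w v).measurable_ite ((hk v).comp (S.measurable_U_Fle v)) 0).mono
          le_sup_left le_rfl
      have h2 : Measurable[S.Flt w ⊔ S.Tm W] Z := hZ.mono le_sup_right le_rfl
      let _ : MeasurableSpace S.Om := S.Flt w ⊔ S.Tm W
      exact h2.mul (Finset.measurable_prod _ fun v _ => h1 v)
    have hLZ : ∀ ω, |S.last W₁ w ω * Z ω| ≤ 1 := fun ω => by
      rw [abs_mul]; exact mul_le_one₀ (S.abs_last_le W₁ w ω) (abs_nonneg _) (hZ1 ω)
    have hX1 : ∀ ω, |X ω| ≤ 1 := fun ω => by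
      simp only [hX]
      rw [abs_mul, Finset.abs_prod]
      exact mul_le_one₀ (hLZ ω) (Finset.prod_nonneg fun _ _ => abs_nonneg _)
        (Finset.prod_le_one (fun _ _ => abs_nonneg _) fun v _ => hk1 v _)
    have hH : S.Flt w ⊔ S.Tm W ≤ S.Kx (S.iN w) :=
      sup_le (S.Flt_le_Kx_iN w) (S.Tm_le fun v _ => S.I1_le_Kx (S.iN_ne_iT w v).symm)
    have e1 := S.integral_U w hH le_sup_left (S.M_ae_eq_Tm w W) hXm
      (ζ := fun p : ℝ × ℝ => p.1 * k w p.2) (measurable_fst.mul ((hk w).comp measurable_snd))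
      (K := 1) (fun ω u _ _ => by
        rw [abs_mul]; exact mul_le_one₀ (hX1 ω) (abs_nonneg _) (hk1 w u))
    have e2 := ih (W₁.erase w) (Finset.erase_ssubset hw) ((Finset.erase_subset _ _).trans hW)
      (Z := fun ω => S.last W₁ w ω * Z ω)
      (by
        have h1 := S.measurable_last_Tm hW hw
        let _ : MeasurableSpace S.Om := S.Tm W
        exact h1.mul hZ) hLZ
    calc ∫ ω, S.last W₁ w ω * (Z ω * ∏ w ∈ W₁, k w (S.U w ω)) ∂S.P
        = ∫ ω, X ω * k w (S.U w ω) ∂S.P := by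
          refine integral_congr_ae (Filter.Eventually.of_forall fun ω => ?_)
          simp only [hX]
          rw [← Finset.prod_erase_mul W₁ _ hw]; ring
      _ = ∫ ω, X ω * ∫ u : unitInterval, k w u ∂volume ∂S.P := by
          rw [e1]; simp only [integral_const_mul]
      _ = (∫ ω, X ω ∂S.P) * ∫ u : unitInterval, k w u := integral_mul_const _ _
      _ = _ := by
          rw [hX, e2, ← Finset.prod_erase_mul W₁ _ hw]; ring
  have hPb : Bdd S.P (fun ω => Z ω * ∏ w ∈ W₁, k w (S.U w ω)) :=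
    hZb.mul (Bdd.prod W₁ (F := fun w ω => k w (S.U w ω)) fun w _ => hkb w)
  calc ∫ ω, Z ω * ∏ w ∈ W₁, k w (S.U w ω) ∂S.P
      = ∫ ω, ∑ w ∈ W₁, S.last W₁ w ω * (Z ω * ∏ w ∈ W₁, k w (S.U w ω)) ∂S.P := by
        refine integral_congr_ae ?_
        filter_upwards [S.sum_last hne] with ω hω
        rw [← Finset.sum_mul, hω, one_mul]
    _ = ∑ w ∈ W₁, (∫ ω, S.last W₁ w ω * Z ω ∂S.P) * ∏ w ∈ W₁, ∫ u : unitInterval, k w u := by
        rw [integral_finsetSum _ fun w hw => ((hlb w hw).mul hPb).integrable]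
        exact Finset.sum_congr rfl key
    _ = _ := by
        rw [← Finset.sum_mul, ← integral_finsetSum _ fun w hw => ((hlb w hw).mul hZb).integrable]
        congr 1
        refine integral_congr_ae ?_
        filter_upwards [S.sum_last hne] with ω hω
        rw [← Finset.sum_mul, hω, one_mul]

/-- Times and innovations as one family. -/
def Xi2 (ω : S.Om) (j : (V × ℕ) × Fin 2) : unitInterval :=
  ![ω.2 (S.iT j.1), Set.projIcc 0 1 zero_le_one (S.U j.1 ω)] j.2

lemma measurable_Xi2 : Measurable S.Xi2 := by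
  refine measurable_pi_lambda _ fun j => ?_
  obtain ⟨w, i⟩ := j
  fin_cases i
  · exact (measurable_pi_apply (S.iT w)).comp measurable_snd
  · exact (continuous_projIcc (h := zero_le_one)).measurable.comp (S.measurable_U w)

lemma map_Xi2 : S.P.map S.Xi2 =
    Measure.infinitePi (fun _ : (V × ℕ) × Fin 2 => (volume : Measure unitInterval)) := by
  refine Measure.eq_infinitePi _ fun s t ht => ?_
  set W : Finset (V × ℕ) := s.image Prod.fst with hW
  set t' : (V × ℕ) × Fin 2 → Set unitInterval := fun j => if j ∈ s then t j else Set.univ with ht'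
  have ht'm : ∀ j, MeasurableSet (t' j) := fun j => by
    simp only [ht']; split_ifs; exacts [ht j, MeasurableSet.univ]
  have hsub : s ⊆ W ×ˢ Finset.univ := fun j hj =>
    Finset.mem_product.2 ⟨Finset.mem_image_of_mem _ hj, Finset.mem_univ _⟩
  have hR : ∏ j ∈ s, volume (t j) = ∏ w ∈ W, (volume (t' (w, 0)) * volume (t' (w, 1))) := by
    have : ∏ j ∈ s, volume (t j) = ∏ j ∈ W ×ˢ Finset.univ, volume (t' j) := by
      rw [← Finset.prod_subset hsub (f := fun j => volume (t' j))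
        (fun j _ hj => by simp [ht', hj])]
      exact Finset.prod_congr rfl fun j hj => by simp [ht', hj]
    rw [this, Finset.prod_product]
    simp [Fin.prod_univ_two]
  have hset : S.Xi2 ⁻¹' (Set.pi s t) = {ω | ∀ w ∈ W, ω.2 (S.iT w) ∈ t' (w, 0) ∧
      Set.projIcc 0 1 zero_le_one (S.U w ω) ∈ t' (w, 1)} := by
    ext ω
    simp only [Set.mem_preimage, Set.mem_pi, Finset.mem_coe, Set.mem_ofPred_eq, ht']
    constructor
    · intro h w _
      constructor
      · split_ifs with hs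
        exacts [h _ hs, trivial]
      · split_ifs with hs
        exacts [h _ hs, trivial]
    · rintro h ⟨w, i⟩ hj
      have := h w (Finset.mem_image_of_mem _ hj)
      fin_cases i
      · have h1 := this.1
        rw [if_pos (by simpa using hj)] at h1
        exact h1
      · have h1 := this.2
        rw [if_pos (by simpa using hj)] at h1
        exact h1
  have hpm : MeasurableSet (Set.pi (s : Set _) t) :=
    MeasurableSet.pi s.countable_toSet fun j _ => ht j
  rw [Measure.map_apply S.measurable_Xi2 hpm, hR]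
  set Z : S.Om → ℝ := fun ω => ∏ w ∈ W, (t' (w, 0)).indicator 1 (ω.2 (S.iT w)) with hZ
  set k : V × ℕ → ℝ → ℝ := fun w u => (t' (w, 1)).indicator 1 (Set.projIcc 0 1 zero_le_one u)
    with hk
  have hi1 : ∀ (A : Set unitInterval) (x : unitInterval), |A.indicator (1 : unitInterval → ℝ) x| ≤ 1 :=
    fun A x => by by_cases h : x ∈ A <;> simp [h]
  have him : ∀ j, Measurable ((t' j).indicator (1 : unitInterval → ℝ)) := fun j =>
    measurable_one.indicator (ht'm j)
  have hkm : ∀ w, Measurable (k w) := fun w => (him _).comp continuous_projIcc.measurable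
  have hZm : Measurable[S.Tm W] Z := by
    have h1 : ∀ w ∈ W, Measurable[S.Tm W] fun ω : S.Om =>
        (t' (w, 0)).indicator (1 : unitInterval → ℝ) (ω.2 (S.iT w)) := fun w hw =>
      ((him _).comp (comap_measurable (fun ω : S.Om => ω.2 (S.iT w)))).mono (S.I1_le_Tm hw) le_rfl
    let _ : MeasurableSpace S.Om := S.Tm W
    exact Finset.measurable_prod _ h1
  have hZ1 : ∀ ω, |Z ω| ≤ 1 := fun ω => by
    simp only [hZ]
    rw [Finset.abs_prod]
    exact Finset.prod_le_one (fun _ _ => abs_nonneg _) fun v _ => hi1 _ _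
  have e1 := S.integral_mul_prod_U W W subset_rfl hkm (fun w u => hi1 _ _) hZm hZ1
  have e2 : ∫ ω, Z ω ∂S.P = ∏ w ∈ W, (volume : Measure unitInterval).real (t' (w, 0)) := by
    rw [hZ, S.integral_prod_of_disjoint W (A := fun w => {S.iT w})
      (f := fun w ω => (t' (w, 0)).indicator (1 : unitInterval → ℝ) (ω.2 (S.iT w)))]
    · refine Finset.prod_congr rfl fun w _ => ?_
      rw [S.integral_label _ (him _), integral_indicator_one (ht'm _)]
    · intro w _ w' _ hne
      exact Set.disjoint_singleton.2 (S.iT_ne_iT hne)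
    · intro w _
      exact Bdd.of_meas ((him _).comp ((measurable_pi_apply _).comp measurable_snd))
        fun ω => hi1 _ _
    · intro w _
      rw [I_singleton]
      exact ((him _).comp (comap_measurable (fun ω : S.Om => ω.2 (S.iT w)))).aestronglyMeasurable
  have e3 : ∀ w, ∫ u : unitInterval, k w u = (volume : Measure unitInterval).real (t' (w, 1)) := by
    intro w
    simp only [hk, Set.projIcc_val]
    rw [integral_indicator_one (ht'm _)]
  have e4 : (fun ω => Z ω * ∏ w ∈ W, k w (S.U w ω)) = (S.Xi2 ⁻¹' (Set.pi s t)).indicator 1 := by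
    funext ω
    rw [hset]
    simp only [hZ, hk]
    rw [← Finset.prod_mul_distrib]
    by_cases h : ∀ w ∈ W, ω.2 (S.iT w) ∈ t' (w, 0) ∧
      Set.projIcc 0 1 zero_le_one (S.U w ω) ∈ t' (w, 1)
    · rw [Set.indicator_of_mem (by exact h)]
      exact Finset.prod_eq_one fun w hw => by simp [(h w hw).1, (h w hw).2]
    · rw [Set.indicator_of_notMem (by exact h)]
      push Not at h
      obtain ⟨w, hw, h⟩ := h
      refine Finset.prod_eq_zero hw ?_
      by_cases h1 : ω.2 (S.iT w) ∈ t' (w, 0)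
      · simp [h h1]
      · simp [h1]
  rw [e4, integral_indicator_one (S.measurable_Xi2 hpm), e2, ← Finset.prod_mul_distrib] at e1
  simp only [e3] at e1
  rw [← ENNReal.toReal_eq_toReal_iff' (measure_ne_top _ _)
    (ENNReal.prod_ne_top fun w _ => ENNReal.mul_ne_top (measure_ne_top _ _) (measure_ne_top _ _))]
  rw [ENNReal.toReal_prod]
  simpa [Measure.real, ENNReal.toReal_mul] using e1

theorem map_Xi : S.P.map S.Xi =
    Measure.infinitePi (fun _ : V => Measure.infinitePi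
      (fun _ : ℕ => (volume : Measure (unitInterval × unitInterval)))) := by
  have h1 := Measure.infinitePi_map_curry
    (fun (_ : V × ℕ) (_ : Fin 2) => (volume : Measure unitInterval))
  have h2 := Measure.infinitePi_map_pi
    (fun _ : V × ℕ => Measure.infinitePi fun _ : Fin 2 => (volume : Measure unitInterval))
    (f := fun _ => (MeasurableEquiv.finTwoArrow : (Fin 2 → unitInterval) ≃ᵐ _))
    (fun _ => MeasurableEquiv.finTwoArrow.measurable)
  have h3 : (Measure.infinitePi fun _ : Fin 2 => (volume : Measure unitInterval)).map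
      (MeasurableEquiv.finTwoArrow : (Fin 2 → unitInterval) ≃ᵐ _) = volume := by
    rw [Measure.infinitePi_eq_pi]
    exact (volume_preserving_finTwoArrow unitInterval).map_eq
  have h4 := Measure.infinitePi_map_curry
    (fun (_ : V) (_ : ℕ) => (volume : Measure (unitInterval × unitInterval)))
  simp only [h3] at h2
  rw [← h4, ← h2, ← h1, ← S.map_Xi2, Measure.map_map, Measure.map_map, Measure.map_map]
  · rfl
  all_goals first | exact S.measurable_Xi2 | fun_prop

end Setup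

end Crest.Agent.R160

end
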