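import Crest.Agent.R160.Psi
import Crest.Agent.R160.XiLaw
import Crest.Agent.R160.IsingLaw
import Crest.Agent.R160.Extract

/-! Row 160: conclusion. -/

noncomputable section

namespace Crest.Agent.R160

open Classical MeasureTheory ProbabilityTheory Filter

universe u

lemma final_eq_zero {x A B : ℝ} (hx : 0 ≤ x)
    (h : ∀ P : ℝ, 1 ≤ P → x ≤ Real.exp (A * P) * (B * Real.exp (-P ^ 2))) : x = 0 := by
  have l1 : Tendsto (fun P : ℝ => P * (A - P)) atTop atBot :=
    tendsto_id.atTop_mul_atBot₀ (tendsto_atBot_add_const_left _ A tendsto_neg_atTop_atBot)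
  have l2 : Tendsto (fun P : ℝ => B * Real.exp (P * (A - P))) atTop (nhds (B * 0)) :=
    (Real.tendsto_exp_atBot.comp l1).const_mul B
  rw [mul_zero] at l2
  refine le_antisymm (ge_of_tendsto l2 ((eventually_ge_atTop 1).mono fun P hP => ?_)) hx
  refine (h P hP).trans (le_of_eq ?_)
  rw [mul_left_comm, ← Real.exp_add]
  congr 2; ring

namespace Setup

variable {V : Type u} (S : Setup V)

lemma final_measurable_Yh (w : V × ℕ) : Measurable[S.I {S.iT w, S.iN w}] (S.Yh w) :=
  Measurable.Qi' ((S.measurable_eta_I1 w).mono (S.I1_le_I (by simp)) le_rfl)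
    ((S.measurable_a_I1 w).mono (S.I1_le_I (by simp)) le_rfl)

lemma final_integral_Yh (w : V × ℕ) : ∫ ω, S.Yh w ω ∂S.P = 1 / 18 := by
  have hab : ∀ ω, |S.a w ω| ≤ 1 / 4 := fun ω => by
    rw [abs_of_nonneg (S.a_nonneg w ω)]; exact S.a_le w ω
  have hX : Measurable[S.Kx (S.iN w)] (S.a w) :=
    (S.measurable_a_I1 w).mono (S.I1_le_Kx (S.iN_ne_iT w w).symm) le_rfl
  have key := S.integral_label_of_Kx (S.iN w) hX (ζ := fun q : ℝ × unitInterval => Qi q.2 q.1)
    (Measurable.Qi' (by fun_prop) (by fun_prop)) (K := 1)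
    (fun ω t => abs_Qi_le t.2.1 t.2.2 (hab ω))
  have h2 := S.integral_label (S.iT w) (h := fun t => aa t) (Measurable.aa' (by fun_prop))
  simp only [integral_Qi_one (hab _)] at key
  rw [integral_div] at key
  rw [integral_aa] at h2
  have h3 : ∫ ω, S.a w ω ∂S.P = 1 / 6 := h2
  rw [h3] at key
  exact key.trans (by norm_num)

lemma phi_le_m_sq (s : ℝ) : S.phi s ≤ ∫ ω, S.m (cst s) S.o ω ^ 2 ∂S.P := by
  have h := integral_sq_sub_condExp_le (P := S.P) (S.Gs_le s) (S.bdd_m (cst s) S.o) (Bdd.const 0)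
    aestronglyMeasurable_const
  simpa [phi, til] using h

/-- Blocks `[2^{-12(n+1)}, 2^{-12 n}]` with `z = 2^n` (`phi_interval`, `exists_psi_bound`) give
`phi 1 ≤ e^{32 C P} (phi (2^{-12 n}) + 32 C e^{-P²})`; let `n → ∞` (`exists_q_upper`), then
`P → ∞`. -/
lemma phi_one : S.phi 1 = 0 := by
  obtain ⟨C, hC, hψ⟩ := S.exists_psi_bound 1
  obtain ⟨c, hc, hq⟩ := S.exists_q_upper
  refine final_eq_zero (A := 32 * C) (B := 32 * C) (S.phi_nonneg 1) fun P hP => ?_
  have hE : 0 < Real.exp (-P ^ 2) := Real.exp_pos _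
  have step : ∀ z : ℝ, 1 ≤ z → S.phi (1 / z ^ 12) ≤ Real.exp (16 * C * P / z) *
      (S.phi (1 / (2 * z) ^ 12) + 16 * C * Real.exp (-P ^ 2) / z) := by
    intro z hz
    have hz0 : 0 < z := by linarith
    have h1 : 1 / z ^ 12 ≤ 1 := by
      rw [div_le_one (by positivity)]; exact one_le_pow₀ hz
    have h2 : 1 / (2 * z) ^ 12 ≤ 1 / z ^ 12 :=
      one_div_le_one_div_of_le (by positivity) (pow_le_pow_left₀ hz0.le (by linarith) _)
    have h3 : (0 : ℝ) < 1 / (2 * z) ^ 12 := by positivity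
    have h := S.phi_interval (r := 0) (s₀ := 1 / (2 * z) ^ 12) (s₁ := 1 / z ^ 12) h3
      (by simpa using h3.le) h2 (by simpa using h1) (K := C * P * z ^ 35)
      (K' := C * z ^ 35 * Real.exp (-P ^ 2)) (by positivity) (by positivity)
      (fun s hs hs' B => hψ P z s hP hz hs (hs'.trans h1) (Or.inl hs') B)
    rw [min_eq_right h1] at h
    have h4 : 16 * (1 / z ^ 12) ^ 2 * (1 / z ^ 12 - 1 / (2 * z) ^ 12) * z ^ 35 ≤ 16 / z := by
      calc _ ≤ 16 * (1 / z ^ 12) ^ 2 * (1 / z ^ 12) * z ^ 35 := by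
            gcongr; linarith
        _ = 16 / z := by field_simp
    refine h.trans (mul_le_mul (Real.exp_le_exp.2 ?_) (add_le_add le_rfl ?_)
      (add_nonneg (S.phi_nonneg _) (by have := sub_nonneg.2 h2; positivity)) (Real.exp_pos _).le)
    · calc _ = 16 * (1 / z ^ 12) ^ 2 * (1 / z ^ 12 - 1 / (2 * z) ^ 12) * z ^ 35 * (C * P) := by
            ring
        _ ≤ 16 / z * (C * P) := mul_le_mul_of_nonneg_right h4 (by positivity)
        _ = _ := by ring
    · calc _ = 16 * (1 / z ^ 12) ^ 2 * (1 / z ^ 12 - 1 / (2 * z) ^ 12) * z ^ 35 *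
              (C * Real.exp (-P ^ 2)) := by ring
        _ ≤ 16 / z * (C * Real.exp (-P ^ 2)) := mul_le_mul_of_nonneg_right h4 (by positivity)
        _ = _ := by ring
  have iter : ∀ n : ℕ, S.phi 1 ≤ Real.exp (16 * C * P * (2 - 2 / 2 ^ n)) *
      (S.phi (1 / (2 ^ n) ^ 12) + 16 * C * Real.exp (-P ^ 2) * (2 - 2 / 2 ^ n)) := by
    intro n
    induction n with
    | zero => simp
    | succ n ih =>
      have hz : (1 : ℝ) ≤ 2 ^ n := one_le_pow₀ (by norm_num)
      have h := step (2 ^ n) hz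
      have e1 : (2 : ℝ) * 2 ^ n = 2 ^ (n + 1) := by ring
      have e2 : (2 : ℝ) - 2 / 2 ^ (n + 1) = 2 - 2 / 2 ^ n + 1 / 2 ^ n := by
        field_simp; ring
      have a0 : (0 : ℝ) ≤ 2 - 2 / 2 ^ n := by
        rw [sub_nonneg, div_le_iff₀ (by positivity)]; linarith
      rw [e1] at h
      rw [e2, mul_add (16 * C * P), Real.exp_add, mul_one_div, mul_assoc]
      refine ih.trans (mul_le_mul_of_nonneg_left ?_ (Real.exp_pos _).le)
      have h1 : 1 ≤ Real.exp (16 * C * P / 2 ^ n) := Real.one_le_exp (by positivity)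
      have h2 : 0 ≤ 16 * C * Real.exp (-P ^ 2) * (2 - 2 / 2 ^ n) := by positivity
      have h3 := le_mul_of_one_le_left h2 h1
      have e3 : Real.exp (16 * C * P / 2 ^ n) * (S.phi (1 / (2 ^ (n + 1)) ^ 12) +
          16 * C * Real.exp (-P ^ 2) * (2 - 2 / 2 ^ n + 1 / 2 ^ n)) =
          Real.exp (16 * C * P / 2 ^ n) * (S.phi (1 / (2 ^ (n + 1)) ^ 12) +
            16 * C * Real.exp (-P ^ 2) / 2 ^ n) +
          Real.exp (16 * C * P / 2 ^ n) * (16 * C * Real.exp (-P ^ 2) * (2 - 2 / 2 ^ n)) := by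
        ring
      rw [e3]
      linarith
  have bound : ∀ n : ℕ, S.phi 1 ≤ Real.exp (32 * C * P) *
      (c * (1 / 2) ^ n + 32 * C * Real.exp (-P ^ 2)) := by
    intro n
    have hz : (1 : ℝ) ≤ 2 ^ n := one_le_pow₀ (by norm_num)
    have a0 : (0 : ℝ) ≤ 2 - 2 / 2 ^ n := by
      rw [sub_nonneg, div_le_iff₀ (by positivity)]; linarith
    have a1 : (2 : ℝ) - 2 / 2 ^ n ≤ 2 := by
      have : (0 : ℝ) ≤ 2 / 2 ^ n := by positivity
      linarith
    have hy1 : (1 : ℝ) / (2 ^ n) ^ 6 ≤ 1 := by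
      rw [div_le_one (by positivity)]; exact one_le_pow₀ hz
    have h1 := (hq (1 / (2 ^ n) ^ 12) (1 / (2 ^ n) ^ 6) (by positivity) hy1
      (le_of_eq (by field_simp))).2
    have h2 : ((1 : ℝ) / (2 ^ n) ^ 6) ^ 3 ≤ (1 / 2) ^ n := by
      rw [one_div_pow, one_div_pow, ← pow_mul]
      exact one_div_le_one_div_of_le (by positivity) (le_self_pow₀ hz (by norm_num))
    have h3 : S.phi (1 / (2 ^ n) ^ 12) ≤ c * (1 / 2) ^ n :=
      (S.phi_le_m_sq _).trans (h1.trans (mul_le_mul_of_nonneg_left h2 hc))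
    refine (iter n).trans (mul_le_mul (Real.exp_le_exp.2 ?_) (add_le_add h3 ?_)
      (add_nonneg (S.phi_nonneg _) (by positivity)) (Real.exp_pos _).le)
    · have := mul_le_mul_of_nonneg_left a1 (by positivity : 0 ≤ 16 * C * P)
      linarith
    · have := mul_le_mul_of_nonneg_left a1 (by positivity : 0 ≤ 16 * C * Real.exp (-P ^ 2))
      linarith
  have lim : Tendsto (fun n : ℕ => Real.exp (32 * C * P) *
      (c * (1 / 2 : ℝ) ^ n + 32 * C * Real.exp (-P ^ 2))) atTop
      (nhds (Real.exp (32 * C * P) * (c * 0 + 32 * C * Real.exp (-P ^ 2)))) :=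
    (((tendsto_pow_atTop_nhds_zero_of_lt_one (by norm_num) (by norm_num)).const_mul c).add_const
      _).const_mul _
  simpa using ge_of_tendsto' lim bound

lemma phi_nat (r : ℕ) : S.phi (r + 1) = 0 := by
  induction r with
  | zero => simpa using S.phi_one
  | succ r ih =>
    obtain ⟨C, hC, hψ⟩ := S.exists_psi_bound (r + 2)
    refine final_eq_zero (A := 16 * C) (B := 16 * C) (S.phi_nonneg _) fun P hP => ?_
    have hr : (0 : ℝ) ≤ r := Nat.cast_nonneg r
    have h := S.phi_interval (r := r + 1) (s₀ := r + 1) (s₁ := ((r + 1 : ℕ) : ℝ) + 1)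
      (by positivity) (by simp) (by simp) le_rfl (K := C * P * 1 ^ 35)
      (K' := C * 1 ^ 35 * Real.exp (-P ^ 2)) (by positivity) (by positivity)
      (fun s hs hs' B => hψ P 1 s hP le_rfl (le_trans (by norm_num) (le_trans (by linarith) hs :
        (1 : ℝ) ≤ s)) (by push_cast at hs'; linarith) (Or.inr rfl) B)
    rw [ih, min_eq_left (by push_cast; linarith)] at h
    refine h.trans (le_of_eq ?_)
    push_cast
    congr 1
    · congr 1; ring
    · ring

/-- Law of large numbers: compare with `18 * (average of Y (o,i), i < r)`, which is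
`F (cst (r+1))`-measurable; `σ o * Y (o,i) = Yh (o,i)` are independent with mean `1/18`. -/
lemma tendsto_sub_m : Tendsto (fun r : ℕ => ∫ ω, (S.σ S.o ω - S.m (cst (r + 1)) S.o ω) ^ 2 ∂S.P)
    atTop (nhds 0) := by
  have bY : ∀ i : ℕ, Bdd S.P fun ω => S.Yh (S.o, i) ω - 1 / 18 := fun i =>
    (S.bdd_Yh _).sub (Bdd.const _)
  have cross : ∀ i j : ℕ, ∫ ω, (S.Yh (S.o, i) ω - 1 / 18) * (S.Yh (S.o, j) ω - 1 / 18) ∂S.P ≤
      if i = j then 4 else 0 := by
    intro i j
    split_ifs with hij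
    · subst hij
      have : ∫ ω, (S.Yh (S.o, i) ω - 1 / 18) * (S.Yh (S.o, i) ω - 1 / 18) ∂S.P ≤
          ∫ _ω, (4 : ℝ) ∂S.P := by
        refine integral_mono ((bY i).mul (bY i)).integrable (integrable_const _) fun ω => ?_
        have := abs_le.1 (S.abs_Yh_le (S.o, i) ω)
        show _ ≤ (4 : ℝ)
        nlinarith
      simpa using this
    · have hd : Disjoint ({S.iT (S.o, i), S.iN (S.o, i)} : Set S.Idx)
          {S.iT (S.o, j), S.iN (S.o, j)} := by
        simp [iT, iN, Ne.symm hij]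
      rw [integral_mul_of_indep (S.I_le _) (S.I_le _) (S.indep_I hd) (bY i) (bY j)
        ((S.final_measurable_Yh _).sub_const _).aestronglyMeasurable
        ((S.final_measurable_Yh _).sub_const _).aestronglyMeasurable,
        integral_sub (S.bdd_Yh _).integrable (integrable_const _), S.final_integral_Yh]
      simp
  have bound : ∀ r : ℕ, 0 < r →
      ∫ ω, (S.σ S.o ω - S.m (cst (r + 1)) S.o ω) ^ 2 ∂S.P ≤ 1296 / r := by
    intro r hr
    have hr' : (0 : ℝ) < r := by exact_mod_cast hr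
    let Z : S.Om → ℝ := fun ω => 18 / r * ∑ i ∈ Finset.range r, S.Y (S.o, i) ω
    have hZb : Bdd S.P Z := (Bdd.sum _ fun i _ => S.bdd_Y _).const_mul _
    have hZm : Measurable[S.F (cst (r + 1))] Z := by
      have e : Z = (fun d : Data V => 18 / r * ∑ i ∈ Finset.range r, (d (S.o, i)).2) ∘
          S.D (cst (r + 1)) := by
        funext ω
        simp only [Z, Function.comp]
        congr 1
        refine Finset.sum_congr rfl fun i hi => ?_
        have h1 := S.tm_le (S.o, i) ω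
        have h2 : (i : ℝ) < r := by exact_mod_cast Finset.mem_range.1 hi
        have h3 : S.tm (S.o, i) ω < cst (V := V) ((r : ℝ) + 1) (S.o, i) := by
          simp only [cst] at h1 ⊢; linarith
        simp only [D, if_pos h3]
      rw [e]
      exact Measurable.comp (by fun_prop) (comap_measurable _)
    have h1 := integral_sq_sub_condExp_le (P := S.P) (S.F_le _) (S.bdd_σ S.o) hZb
      hZm.aestronglyMeasurable
    have h2 : ∫ ω, (S.σ S.o ω - S.m (cst (r + 1)) S.o ω) ^ 2 ∂S.P =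
        ∫ ω, (S.σ S.o ω - S.P[S.σ S.o | S.F (cst (r + 1))] ω) ^ 2 ∂S.P := by
      refine integral_congr_ae ?_
      filter_upwards [S.m_ae_eq (cst (r + 1)) S.o] with ω h
      rw [h]
    have h3 : ∀ ω, (S.σ S.o ω - Z ω) ^ 2 = (18 / r) ^ 2 * ∑ i ∈ Finset.range r,
        ∑ j ∈ Finset.range r, (S.Yh (S.o, i) ω - 1 / 18) * (S.Yh (S.o, j) ω - 1 / 18) := by
      intro ω
      rw [← Finset.sum_mul_sum, Finset.sum_sub_distrib]
      simp only [Z, Y, ← Finset.mul_sum, Finset.sum_const, Finset.card_range, nsmul_eq_mul]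
      have hσ := S.σ_mul_self S.o ω
      generalize ∑ i ∈ Finset.range r, S.Yh (S.o, i) ω = t
      generalize S.σ S.o ω = ε at hσ
      have : ε - 18 / r * (ε * t) = ε * (1 - 18 / r * t) := by ring
      rw [this, mul_pow, sq ε, hσ]
      field_simp
      ring
    rw [h2]
    refine h1.trans ?_
    simp only [h3]
    rw [integral_const_mul, integral_finsetSum _ fun i _ =>
      (Bdd.sum _ fun j _ => (bY i).mul (bY j)).integrable]
    have h4 : ∑ i ∈ Finset.range r, ∫ ω, ∑ j ∈ Finset.range r,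
        (S.Yh (S.o, i) ω - 1 / 18) * (S.Yh (S.o, j) ω - 1 / 18) ∂S.P ≤ r * 4 := by
      calc _ ≤ ∑ _i ∈ Finset.range r, (4 : ℝ) := by
            refine Finset.sum_le_sum fun i hi => ?_
            rw [integral_finsetSum _ fun j _ => ((bY i).mul (bY j)).integrable]
            refine (Finset.sum_le_sum fun j _ => cross i j).trans ?_
            simp [hi]
        _ = r * 4 := by simp
    refine (mul_le_mul_of_nonneg_left h4 (by positivity)).trans (le_of_eq ?_)
    field_simp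
    norm_num
  refine squeeze_zero' (Eventually.of_forall fun r => integral_nonneg fun ω => sq_nonneg _)
    ((eventually_gt_atTop 0).mono bound) (tendsto_const_div_atTop_nhds_zero_nat _)

lemma exists_rep : ∃ f : (V → ℕ → unitInterval × unitInterval) → ℝ, Measurable f ∧
    ∀ᵐ ω ∂S.P, S.σ S.o ω = f (S.Xi ω) := by
  have hle : MeasurableSpace.comap S.Xi inferInstance ≤ (inferInstance : MeasurableSpace S.Om) :=
    S.measurable_Xi.comap_le
  have h1 : ∀ r : ℕ, ∫ ω, (S.σ S.o ω -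
      S.P[S.σ S.o | MeasurableSpace.comap S.Xi inferInstance] ω) ^ 2 ∂S.P ≤
      ∫ ω, (S.σ S.o ω - S.m (cst (r + 1)) S.o ω) ^ 2 ∂S.P := by
    intro r
    have h2 := integral_sq_sub_condExp_le (P := S.P) hle (S.bdd_σ S.o)
      ((S.bdd_m (cst (r + 1)) S.o).condExp _ (S.Gs_le (r + 1)))
      (stronglyMeasurable_condExp.mono (S.Gs_le_Xi (r + 1))).aestronglyMeasurable
    refine h2.trans (le_of_eq (integral_congr_ae ?_))
    have h3 := (integral_eq_zero_iff_of_nonneg (fun ω => sq_nonneg _)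
      ((S.bdd_til (r + 1) (S.bdd_m (cst (r + 1)) S.o)).pow 2).integrable).1 (S.phi_nat r)
    filter_upwards [h3] with ω h
    have h4 : S.m (cst (r + 1)) S.o ω - S.P[S.m (cst (r + 1)) S.o | S.Gs (r + 1)] ω = 0 :=
      pow_eq_zero_iff (two_ne_zero) |>.1 h
    rw [sub_eq_zero.1 h4.symm.symm |>.symm]
  have h2 := le_antisymm (ge_of_tendsto' S.tendsto_sub_m h1) (integral_nonneg fun ω => sq_nonneg _)
  have h3 := (integral_eq_zero_iff_of_nonneg (fun ω => sq_nonneg _)
    (((S.bdd_σ S.o).sub ((S.bdd_σ S.o).condExp _ hle)).pow 2).integrable).1 h2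
  have h4 : Measurable[MeasurableSpace.comap S.Xi inferInstance]
      (S.P[S.σ S.o | MeasurableSpace.comap S.Xi inferInstance]) :=
    stronglyMeasurable_condExp.measurable
  obtain ⟨f, hf, hfe⟩ := h4.exists_eq_measurable_comp
  refine ⟨f, hf, ?_⟩
  filter_upwards [h3] with ω h
  have h5 : S.σ S.o ω - S.P[S.σ S.o | MeasurableSpace.comap S.Xi inferInstance] ω = 0 :=
    pow_eq_zero_iff (two_ne_zero) |>.1 h
  rw [sub_eq_zero.1 h5, hfe]
  rfl

theorem main : ∃ Φ : (V → unitInterval) → (V → Bool), Measurable Φ ∧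
    (∀ (g : S.G ≃g S.G) (x : V → unitInterval), Φ (x ∘ ⇑g) = Φ x ∘ ⇑g) ∧
    ∀ (B : Finset V) (η : V → Bool), (S.G.induce (B : Set V)).Connected →
      (Crest.ProbabilityR.Labels.labelMeasure V).map Φ {σ | ∀ v ∈ B, σ v = η v} =
        ENNReal.ofReal (Crest.ProbabilityR.TreeIsing.isingWeight S.G S.θ B η) := by
  obtain ⟨f, hf, hrep⟩ := S.exists_rep
  have hrep' : ∀ g : S.G ≃g S.G, ∀ᵐ ω ∂S.P, S.σ (g S.o) ω = f (S.Xi ω ∘ g) := by
    intro g
    filter_upwards [(S.mp_Θ g).quasiMeasurePreserving.ae hrep, S.Xi_Θ g] with ω h1 h2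
    rw [← S.σ_Θ, h1, h2]
  obtain ⟨Φ, h1, h2, h3⟩ := S.exists_factor S.P _ S.measurable_Xi S.map_Xi S.measurable_σ
    S.σ_cases hf hrep'
  refine ⟨Φ, h1, h2, fun B η hB => ?_⟩
  have hm : Measurable (fun (ω : S.Om) (v : V) => decide (0 < S.σ v ω)) := by
    refine measurable_pi_lambda _ fun v => ?_
    refine measurable_to_bool ?_
    have : (fun ω => decide (0 < S.σ v ω)) ⁻¹' {true} = {ω | 0 < S.σ v ω} := by
      ext ω; simp
    rw [this]
    exact measurableSet_lt measurable_const (S.measurable_σ v)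
  have hs : MeasurableSet {σ : V → Bool | ∀ v ∈ B, σ v = η v} := by
    have : {σ : V → Bool | ∀ v ∈ B, σ v = η v} = ⋂ v ∈ B, (fun σ : V → Bool => σ v) ⁻¹' {η v} := by
      ext σ; simp
    rw [this]
    exact B.measurableSet_biInter fun v _ => measurable_pi_apply v (measurableSet_singleton _)
  rw [h3, Measure.map_apply hm hs, ← S.ising_law B η hB]
  rfl

end Setup

end Crest.Agent.R160

end
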