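import Crest.Agent.R160.GeoDefs

/-! Row 160: regular tree geometry. -/

noncomputable section

namespace Crest.Agent.R160

open Classical

universe u

namespace Setup

variable {V : Type u} (S : Setup V)

lemma theta_sq_le : S.θ ^ 2 ≤ 1 / 2 := by
  have h1 := S.crit
  have h2 : (2 : ℝ) ≤ S.b := by exact_mod_cast S.hb
  nlinarith [sq_nonneg S.θ]

lemma theta_le : S.θ ≤ 3 / 4 := by
  have := S.theta_sq_le
  nlinarith [S.θ0]

lemma path_isPath (x y : V) : (S.path x y).IsPath := by
  exact (S.tree.existsUnique_path x y).exists.choose_spec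

lemma eq_path {x y : V} (p : S.G.Walk x y) (hp : p.IsPath) : p = S.path x y :=
  (S.tree.existsUnique_path x y).unique hp (S.path_isPath x y)

lemma path_length (x y : V) : (S.path x y).length = S.G.dist x y := by
  obtain ⟨p, hp, hp'⟩ := S.tree.connected.exists_path_of_dist x y
  rw [S.eq_path p hp] at hp'
  exact hp'

lemma dist_triangle (x y z : V) : S.G.dist x z ≤ S.G.dist x y + S.G.dist y z := by
  exact S.tree.connected.dist_triangle

lemma dist_eq_zero {x y : V} : S.G.dist x y = 0 ↔ x = y := by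
  exact S.tree.connected.dist_eq_zero_iff

@[simp] lemma geo_zero (x y : V) : S.geo x y 0 = x := by
  simp [geo]

lemma geo_of_le {x y : V} {i : ℕ} (h : S.G.dist x y ≤ i) : S.geo x y i = y := by
  exact (S.path x y).getVert_of_length_le (by rw [S.path_length]; exact h)

lemma geo_adj {x y : V} {i : ℕ} (h : i < S.G.dist x y) :
    S.G.Adj (S.geo x y i) (S.geo x y (i + 1)) := by
  exact (S.path x y).adj_getVert_succ (by rw [S.path_length]; exact h)

lemma adj_dist {x y : V} (h : S.G.Adj x y) : S.G.dist x y = 1 :=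
  SimpleGraph.dist_eq_one_iff_adj.2 h

lemma dc (x y : V) : S.G.dist x y = S.G.dist y x := SimpleGraph.dist_comm

lemma ds (x : V) : S.G.dist x x = 0 := SimpleGraph.dist_self

lemma dist_geo_add_le (x y : V) (i k : ℕ) : S.G.dist (S.geo x y i) (S.geo x y (i + k)) ≤ k := by
  induction k with
  | zero => simp
  | succ k ih =>
    have h1 := S.dist_triangle (S.geo x y i) (S.geo x y (i + k)) (S.geo x y (i + (k + 1)))
    by_cases h : i + k < S.G.dist x y
    · have h2 := S.adj_dist (S.geo_adj h)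
      rw [add_assoc] at h2
      omega
    · rw [S.geo_of_le (i := i + (k + 1)) (by omega), ← S.geo_of_le (x := x) (y := y) (i := i + k)
        (by omega), S.geo_of_le (x := x) (y := y) (i := i + k) (by omega)]
      rw [S.geo_of_le (x := x) (y := y) (i := i + k) (by omega)] at ih
      omega

lemma dist_geo_geo {x y : V} {i j : ℕ} (hij : i ≤ j) (hj : j ≤ S.G.dist x y) :
    S.G.dist (S.geo x y i) (S.geo x y j) = j - i := by
  have h1 := S.dist_geo_add_le x y 0 i
  have h2 := S.dist_geo_add_le x y i (j - i)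
  have h3 := S.dist_geo_add_le x y j (S.G.dist x y - j)
  rw [S.geo_zero, Nat.zero_add] at h1
  rw [Nat.add_sub_cancel' hij] at h2
  rw [Nat.add_sub_cancel' hj, S.geo_of_le le_rfl] at h3
  have h4 := S.dist_triangle x (S.geo x y i) y
  have h5 := S.dist_triangle (S.geo x y i) (S.geo x y j) y
  omega

lemma geo_unique {x y v : V} {i : ℕ} (h1 : S.G.dist x v = i)
    (h2 : S.G.dist v y + i = S.G.dist x y) : v = S.geo x y i := by
  have hl : ((S.path x v).append (S.path v y)).length = S.G.dist x y := by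
    rw [SimpleGraph.Walk.length_append, S.path_length, S.path_length]
    omega
  have h3 := S.eq_path _ (SimpleGraph.Walk.isPath_of_length_eq_dist _ hl)
  unfold geo
  rw [← h3, SimpleGraph.Walk.getVert_append, S.path_length, h1]
  simp

lemma dist_map (g : S.G ≃g S.G) (x y : V) : S.G.dist (g x) (g y) = S.G.dist x y := by
  have key : ∀ (g : S.G ≃g S.G) (x y : V), S.G.dist (g x) (g y) ≤ S.G.dist x y := by
    intro g x y
    have := SimpleGraph.dist_le ((S.path x y).map g.toHom)
    rwa [SimpleGraph.Walk.length_map, S.path_length] at this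
  have h1 := key g x y
  have h2 := key g.symm (g x) (g y)
  simp only [RelIso.symm_apply_apply] at h2
  omega

lemma dist_geo_l {x y : V} {i : ℕ} (hi : i ≤ S.G.dist x y) : S.G.dist x (S.geo x y i) = i := by
  have := S.dist_geo_geo (x := x) (y := y) (Nat.zero_le i) hi
  rwa [S.geo_zero, Nat.sub_zero] at this

lemma dist_geo_r {x y : V} {i : ℕ} (hi : i ≤ S.G.dist x y) :
    S.G.dist (S.geo x y i) y = S.G.dist x y - i := by
  have := S.dist_geo_geo (x := x) (y := y) hi le_rfl
  rwa [S.geo_of_le le_rfl] at this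

lemma geo_map (g : S.G ≃g S.G) (x y : V) (i : ℕ) : S.geo (g x) (g y) i = g (S.geo x y i) := by
  by_cases hi : i ≤ S.G.dist x y
  · symm
    apply S.geo_unique
    · rw [S.dist_map, S.dist_geo_l hi]
    · rw [S.dist_map, S.dist_map, S.dist_geo_r hi]
      omega
  · rw [S.geo_of_le (by rw [S.dist_map]; omega), S.geo_of_le (by omega)]

lemma geo_rev {x y : V} {i : ℕ} (h : i ≤ S.G.dist x y) :
    S.geo y x i = S.geo x y (S.G.dist x y - i) := by
  symm
  apply S.geo_unique
  · rw [S.dc, S.dist_geo_r (by omega)]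
    omega
  · rw [S.dc, S.dist_geo_l (by omega), S.dc y x]
    omega

lemma dist_adj {x y : V} (h : S.G.Adj x y) (v : V) :
    S.G.dist v x = S.G.dist v y + 1 ∨ S.G.dist v y = S.G.dist v x + 1 := by
  exact S.tree.dist_eq_dist_add_one_of_adj v h

lemma mem_sub_iff {x y : V} (h : S.G.Adj x y) (v : V) :
    v ∈ S.sub x y ↔ S.G.dist v x = S.G.dist v y + 1 := by
  have := S.dist_adj h v
  simp only [sub, Set.mem_setOf_eq]
  omega

lemma not_mem_sub_iff {x y : V} (h : S.G.Adj x y) (v : V) : v ∉ S.sub x y ↔ v ∈ S.sub y x := by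
  have := S.dist_adj h v
  simp only [sub, Set.mem_setOf_eq]
  omega

lemma compl_sub {x y : V} (h : S.G.Adj x y) : (S.sub x y)ᶜ = S.sub y x := by
  ext v; exact S.not_mem_sub_iff h v

lemma self_mem_sub {x y : V} (h : S.G.Adj x y) : y ∈ S.sub x y := by
  rw [S.mem_sub_iff h, S.ds, S.adj_dist h.symm]

lemma not_mem_sub (x y : V) : x ∉ S.sub x y := by
  simp [sub]

lemma mem_sub_map (g : S.G ≃g S.G) (x y v : V) : g v ∈ S.sub (g x) (g y) ↔ v ∈ S.sub x y := by
  simp only [sub, Set.mem_setOf_eq, S.dist_map]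

lemma mem_ch {x y z : V} : z ∈ S.ch x y ↔ z ≠ x ∧ S.G.Adj y z := by
  simp [ch, S.mem_nb]

lemma card_ch {x y : V} (h : S.G.Adj x y) : (S.ch x y).card = S.b := by
  unfold ch
  rw [Finset.card_erase_of_mem ((S.mem_nb _ _).2 h.symm), S.card_nb]
  rfl

lemma parent_unique {y z z' v : V} (hz : S.G.Adj y z) (hz' : S.G.Adj y z')
    (h1 : S.G.dist v y = S.G.dist v z + 1) (h2 : S.G.dist v y = S.G.dist v z' + 1) : z = z' := by
  have a1 : z = S.geo y v 1 := S.geo_unique (S.adj_dist hz) (by rw [S.dc z, S.dc y]; omega)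
  have a2 : z' = S.geo y v 1 := S.geo_unique (S.adj_dist hz') (by rw [S.dc z', S.dc y]; omega)
  rw [a1, ← a2]

lemma sub_ch_subset {x y z : V} (h : S.G.Adj x y) (hz : z ∈ S.ch x y) : S.sub y z ⊆ S.sub x y := by
  intro v hv
  rw [S.mem_ch] at hz
  rw [S.mem_sub_iff hz.2] at hv
  rw [S.mem_sub_iff h]
  rcases S.dist_adj h v with h1 | h1
  · exact h1
  · exact (hz.1 (S.parent_unique hz.2 h.symm hv h1)).elim

lemma sub_disjoint {y z z' : V} (hz : S.G.Adj y z) (hz' : S.G.Adj y z') (hne : z ≠ z') :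
    Disjoint (S.sub y z) (S.sub y z') := by
  rw [Set.disjoint_left]
  intro v h1 h2
  exact hne (S.parent_unique hz hz' ((S.mem_sub_iff hz v).1 h1) ((S.mem_sub_iff hz' v).1 h2))

/-- Every vertex other than `y` lies behind exactly one neighbour of `y`. -/
lemma exists_sub_of_ne {y v : V} (h : v ≠ y) : ∃ z, S.G.Adj y z ∧ v ∈ S.sub y z := by
  have h0 : 0 < S.G.dist y v := Nat.pos_of_ne_zero (fun hh => h (S.dist_eq_zero.1 hh).symm)
  have h1 := S.geo_adj h0
  rw [S.geo_zero] at h1
  refine ⟨_, h1, ?_⟩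
  rw [S.mem_sub_iff h1, S.dc v (S.geo _ _ _), S.dist_geo_r h0, S.dc v y]
  omega

lemma mem_sub_cases {x y v : V} (h : S.G.Adj x y) (hv : v ∈ S.sub x y) :
    v = y ∨ ∃ z ∈ S.ch x y, v ∈ S.sub y z := by
  by_cases hvy : v = y
  · exact Or.inl hvy
  · obtain ⟨z, hz, hvz⟩ := S.exists_sub_of_ne hvy
    refine Or.inr ⟨z, S.mem_ch.2 ⟨?_, hz⟩, hvz⟩
    rintro rfl
    exact (S.not_mem_sub_iff h v).2 hvz hv

/-- The only edge leaving a half-tree. -/
lemma boundary_edge {x y p q : V} (h : S.G.Adj x y) (hpq : S.G.Adj p q) (hp : p ∈ S.sub x y)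
    (hq : q ∉ S.sub x y) : p = y ∧ q = x := by
  rw [S.not_mem_sub_iff h, S.mem_sub_iff h.symm] at hq
  rw [S.mem_sub_iff h] at hp
  have a1 := S.dist_adj hpq x
  have a2 := S.dist_adj hpq y
  rw [S.dc x, S.dc x] at a1
  rw [S.dc y, S.dc y] at a2
  have hxy := S.adj_dist h
  -- the distances from `p` to `y` and from `q` to `x` agree
  have a3 : S.G.dist q x = S.G.dist p y := by omega
  by_cases h0 : S.G.dist p y = 0
  · exact ⟨S.dist_eq_zero.1 h0, S.dist_eq_zero.1 (by omega)⟩
  · exfalso
    have b1 : q = S.geo p x 1 := S.geo_unique (S.adj_dist hpq) (by omega)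
    have h1 : 1 ≤ S.G.dist p y := by omega
    have b2 := S.dist_geo_r h1
    have b3 := S.dist_geo_l h1
    have b4 := S.dist_triangle (S.geo p y 1) y x
    have b5 := S.dist_triangle p (S.geo p y 1) x
    have b6 := S.dc y x
    have b7 : S.geo p y 1 = S.geo p x 1 := S.geo_unique b3 (by omega)
    rw [b7, ← b1] at b2
    omega

lemma cross_dist {x y p r : V} (h : S.G.Adj x y) (hp : p ∈ S.sub x y) (hr : r ∉ S.sub x y) :
    S.G.dist p r = S.G.dist p y + 1 + S.G.dist x r := by
  have hex : ∃ i, S.geo p r i ∉ S.sub x y := ⟨S.G.dist p r, by rwa [S.geo_of_le le_rfl]⟩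
  have h1 := Nat.find_spec hex
  have h2 : Nat.find hex ≤ S.G.dist p r := Nat.find_min' hex (by rwa [S.geo_of_le le_rfl])
  have h3 : Nat.find hex ≠ 0 := by
    intro h0
    rw [h0, S.geo_zero] at h1
    exact h1 hp
  obtain ⟨j, hj⟩ := Nat.exists_eq_succ_of_ne_zero h3
  have h4 : S.geo p r j ∈ S.sub x y := by
    by_contra hc
    have := Nat.find_min' hex hc
    omega
  rw [hj] at h1 h2
  obtain ⟨b1, b2⟩ := S.boundary_edge h (S.geo_adj h2) h4 h1
  have c1 := S.dist_geo_l (x := p) (y := r) (i := j) (by omega)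
  have c2 := S.dist_geo_r (x := p) (y := r) (i := j + 1) h2
  rw [b1] at c1
  rw [b2] at c2
  omega

/-- Geodesics between two points of a half-tree stay inside it. -/
lemma geo_mem_sub {x y p q : V} (h : S.G.Adj x y) (hp : p ∈ S.sub x y) (hq : q ∈ S.sub x y)
    (i : ℕ) : S.geo p q i ∈ S.sub x y := by
  by_cases hi : i ≤ S.G.dist p q
  swap
  · rw [S.geo_of_le (by omega)]
    exact hq
  by_contra hr
  have a1 := S.cross_dist h hp hr
  have a2 := S.cross_dist h hq hr
  have a3 := S.dist_geo_l hi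
  have a4 := S.dist_geo_r hi
  have a5 := S.dist_triangle p y q
  rw [S.dc q] at a2
  rw [S.dc y q] at a5
  omega

lemma geo_one_of_mem_sub {x y v : V} (h : S.G.Adj x y) (hv : v ∈ S.sub x y) :
    S.geo x v 1 = y := by
  rw [S.mem_sub_iff h] at hv
  exact (S.geo_unique (S.adj_dist h) (by rw [S.dc y, S.dc x]; omega)).symm

lemma mem_sub_geo {x y : V} {i j : ℕ} (hij : i < j) (hj : j ≤ S.G.dist x y) :
    S.geo x y j ∈ S.sub (S.geo x y i) (S.geo x y (i + 1)) := by
  simp only [sub, Set.mem_setOf_eq]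
  rw [S.dc, S.dist_geo_geo hij hj, S.dc, S.dist_geo_geo hij.le hj]
  omega

lemma mem_sub_geo_rev {x y : V} {i j : ℕ} (hji : j ≤ i) (hi : i < S.G.dist x y) :
    S.geo x y j ∈ S.sub (S.geo x y (i + 1)) (S.geo x y i) := by
  simp only [sub, Set.mem_setOf_eq]
  rw [S.dist_geo_geo hji hi.le, S.dist_geo_geo (by omega) hi]
  omega

lemma mem_desc {x y p q : V} {l : ℕ} (h : S.G.Adj x y) :
    (p, q) ∈ S.desc l x y ↔
      S.G.Adj p q ∧ q ∈ S.sub x y ∧ S.G.dist y q = l ∧ S.G.dist x p = l := by
  induction l generalizing x y with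
  | zero =>
    simp only [desc, Finset.mem_singleton, Prod.mk.injEq]
    constructor
    · rintro ⟨rfl, rfl⟩
      exact ⟨h, S.self_mem_sub h, S.ds _, S.ds _⟩
    · rintro ⟨_, _, h3, h4⟩
      exact ⟨(S.dist_eq_zero.1 h4).symm, (S.dist_eq_zero.1 h3).symm⟩
  | succ l ih =>
    simp only [desc, Finset.mem_biUnion]
    constructor
    · rintro ⟨z, hz, hm⟩
      have hyz := (S.mem_ch.1 hz).2
      obtain ⟨a1, a2, a3, a4⟩ := (ih hyz).1 hm
      have a5 := S.sub_ch_subset h hz a2
      have a6 := (S.mem_sub_iff hyz q).1 a2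
      refine ⟨a1, a5, by rw [S.dc y, a6, S.dc q, a3], ?_⟩
      have a7 : p ∈ S.sub x y := by
        by_contra hc
        have := (S.boundary_edge h a1.symm a5 hc).1
        rw [this] at a2
        exact S.not_mem_sub _ _ a2
      rw [S.dc x, (S.mem_sub_iff h p).1 a7, S.dc p, a4]
    · rintro ⟨a1, a2, a3, a4⟩
      rcases S.mem_sub_cases h a2 with rfl | ⟨z, hz, hq⟩
      · rw [S.ds] at a3
        omega
      · have hyz := (S.mem_ch.1 hz).2
        refine ⟨z, hz, (ih hyz).2 ⟨a1, hq, ?_, ?_⟩⟩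
        · have := (S.mem_sub_iff hyz q).1 hq
          rw [S.dc q, S.dc q] at this
          omega
        · have a7 : p ∈ S.sub x y := by
            by_contra hc
            have := (S.boundary_edge h a1.symm a2 hc).2
            rw [this, S.ds] at a4
            omega
          have := (S.mem_sub_iff h p).1 a7
          rw [S.dc p, S.dc p] at this
          omega

lemma desc_pairwise (x y : V) (l : ℕ) :
    (S.ch x y : Set V).PairwiseDisjoint (fun z => S.desc l y z) := by
  intro z hz z' hz' hne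
  have h1 := (S.mem_ch.1 hz).2
  have h2 := (S.mem_ch.1 hz').2
  rw [Function.onFun, Finset.disjoint_left]
  rintro ⟨p, q⟩ a1 a2
  exact Set.disjoint_left.1 (S.sub_disjoint h1 h2 hne) ((S.mem_desc h1).1 a1).2.1
    ((S.mem_desc h2).1 a2).2.1

lemma card_desc {x y : V} (h : S.G.Adj x y) (l : ℕ) : (S.desc l x y).card = S.b ^ l := by
  induction l generalizing x y with
  | zero => simp [desc]
  | succ l ih =>
    simp only [desc]
    rw [Finset.card_biUnion (S.desc_pairwise x y l),
      Finset.sum_congr rfl (fun z hz => ih (S.mem_ch.1 hz).2)]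
    simp [S.card_ch h, pow_succ']

lemma desc_sub_subset {x y : V} {l : ℕ} (h : S.G.Adj x y) {e : V × V} (he : e ∈ S.desc l x y) :
    S.sub e.1 e.2 ⊆ S.sub x y := by
  induction l generalizing x y with
  | zero =>
    simp only [desc, Finset.mem_singleton] at he
    subst he
    exact subset_rfl
  | succ l ih =>
    simp only [desc, Finset.mem_biUnion] at he
    obtain ⟨z, hz, hm⟩ := he
    exact (ih (S.mem_ch.1 hz).2 hm).trans (S.sub_ch_subset h hz)

lemma desc_disjoint {x y : V} {l : ℕ} (h : S.G.Adj x y) {e e' : V × V} (he : e ∈ S.desc l x y)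
    (he' : e' ∈ S.desc l x y) (hne : e ≠ e') : Disjoint (S.sub e.1 e.2) (S.sub e'.1 e'.2) := by
  induction l generalizing x y with
  | zero =>
    simp only [desc, Finset.mem_singleton] at he he'
    exact (hne (he.trans he'.symm)).elim
  | succ l ih =>
    simp only [desc, Finset.mem_biUnion] at he he'
    obtain ⟨z, hz, hm⟩ := he
    obtain ⟨z', hz', hm'⟩ := he'
    have h1 := (S.mem_ch.1 hz).2
    have h2 := (S.mem_ch.1 hz').2
    by_cases hzz : z = z'
    · subst hzz
      exact ih h1 hm hm'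
    · exact (S.sub_disjoint h1 h2 hzz).mono (S.desc_sub_subset h1 hm) (S.desc_sub_subset h2 hm')

/-- Sums over `desc (l+1)` split over the children. -/
lemma sum_desc_succ {x y : V} (h : S.G.Adj x y) (l : ℕ) (F : V × V → ℝ) :
    ∑ e ∈ S.desc (l + 1) x y, F e = ∑ z ∈ S.ch x y, ∑ e ∈ S.desc l y z, F e := by
  have _ := h
  simp only [desc]
  exact Finset.sum_biUnion (S.desc_pairwise x y l)

lemma mem_sph {x v : V} {k : ℕ} : v ∈ S.sph x k ↔ S.G.dist x v = k := by
  induction k generalizing v with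
  | zero =>
    simp only [sph, Finset.mem_singleton, S.dist_eq_zero]
    exact eq_comm
  | succ k ih =>
    simp only [sph, Finset.mem_filter, Finset.mem_biUnion]
    refine ⟨fun h => h.2, fun h => ⟨⟨S.geo x v k, ih.2 (S.dist_geo_l (by omega)), ?_⟩, h⟩⟩
    have := S.geo_adj (x := x) (y := v) (i := k) (by omega)
    rw [S.geo_of_le (i := k + 1) h.le] at this
    exact (S.mem_nb _ _).2 this

lemma card_sph (x : V) (k : ℕ) : (S.sph x k).card ≤ 2 * S.b ^ k := by
  have hb := S.hb
  rcases k with _ | k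
  · simp [sph]
  induction k with
  | zero =>
    have : S.sph x (0 + 1) ⊆ S.nb x := by
      intro v hv
      rw [S.mem_sph] at hv
      exact (S.mem_nb _ _).2 (SimpleGraph.dist_eq_one_iff_adj.1 hv)
    have h2 := Finset.card_le_card this
    rw [S.card_nb] at h2
    simp only [zero_add, pow_one] at h2 ⊢
    omega
  | succ k ih =>
    have hsub : S.sph x (k + 1 + 1) ⊆
        (S.sph x (k + 1)).biUnion (fun u => S.ch (S.geo x u k) u) := by
      intro v hv
      rw [S.mem_sph] at hv
      have a1 := S.dist_geo_l (x := x) (y := v) (i := k + 1) (by omega)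
      have a2 := S.geo_adj (x := x) (y := v) (i := k + 1) (by omega)
      rw [S.geo_of_le (i := k + 1 + 1) hv.le] at a2
      refine Finset.mem_biUnion.2 ⟨S.geo x v (k + 1), S.mem_sph.2 a1, S.mem_ch.2 ⟨?_, a2⟩⟩
      intro hh
      have a3 := S.dist_geo_l (x := x) (y := S.geo x v (k + 1)) (i := k) (by omega)
      rw [← hh] at a3
      omega
    refine (Finset.card_le_card hsub).trans (Finset.card_biUnion_le.trans ?_)
    have hc : ∀ u ∈ S.sph x (k + 1), (S.ch (S.geo x u k) u).card = S.b := by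
      intro u hu
      rw [S.mem_sph] at hu
      have a2 := S.geo_adj (x := x) (y := u) (i := k) (by omega)
      rw [S.geo_of_le (i := k + 1) hu.le] at a2
      exact S.card_ch a2
    rw [Finset.sum_congr rfl hc, Finset.sum_const, smul_eq_mul, pow_succ, ← mul_assoc]
    exact Nat.mul_le_mul_right _ ih

@[simp] lemma Pi_self (ρ : V → V → ℝ) (x : V) : S.Pi ρ x x = 1 := by
  simp [Pi]

/-- Splitting the geodesic product at an intermediate vertex. -/
lemma Pi_split (ρ : V → V → ℝ) (x y : V) {i : ℕ} (hi : i ≤ S.G.dist x y) :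
    S.Pi ρ x y = S.Pi ρ x (S.geo x y i) * S.Pi ρ (S.geo x y i) y := by
  have a1 := S.dist_geo_l hi
  have a2 := S.dist_geo_r hi
  have g1 : ∀ j, j ≤ i → S.geo x (S.geo x y i) j = S.geo x y j := by
    intro j hj
    symm
    apply S.geo_unique (S.dist_geo_l (by omega))
    rw [S.dist_geo_geo hj hi, a1]
    omega
  have g2 : ∀ j, j ≤ S.G.dist x y - i → S.geo (S.geo x y i) y j = S.geo x y (i + j) := by
    intro j hj
    symm
    apply S.geo_unique
    · rw [S.dist_geo_geo (by omega) (by omega)]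
      omega
    · rw [S.dist_geo_r (by omega), a2]
      omega
  unfold Pi
  rw [a1, a2]
  conv_lhs => rw [← Nat.add_sub_cancel' hi, Finset.prod_range_add]
  congr 1
  · apply Finset.prod_congr rfl
    intro j hj
    rw [Finset.mem_range] at hj
    rw [g1 j (by omega), g1 (j + 1) (by omega)]
  · apply Finset.prod_congr rfl
    intro j hj
    rw [Finset.mem_range] at hj
    rw [g2 j (by omega), g2 (j + 1) (by omega), add_assoc]

lemma Pi_adj (ρ : V → V → ℝ) {x y : V} (h : S.G.Adj x y) : S.Pi ρ x y = ρ x y := by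
  unfold Pi
  rw [S.adj_dist h, Finset.prod_range_one, S.geo_zero, S.geo_of_le (S.adj_dist h).le]

lemma Pi_cons (ρ : V → V → ℝ) {x y v : V} (h : S.G.Adj x y) (hv : v ∈ S.sub x y) :
    S.Pi ρ x v = ρ x y * S.Pi ρ y v := by
  have h1 := (S.mem_sub_iff h v).1 hv
  rw [S.Pi_split ρ x v (i := 1) (by rw [S.dc]; omega), S.geo_one_of_mem_sub h hv, S.Pi_adj ρ h]

lemma Pi_snoc (ρ : V → V → ℝ) {x y v : V} (h : S.G.Adj x y) (hv : v ∈ S.sub y x) :
    S.Pi ρ v y = S.Pi ρ v x * ρ x y := by
  have h1 := (S.mem_sub_iff h.symm v).1 hv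
  have h2 : x = S.geo v y (S.G.dist v x) := S.geo_unique rfl (by rw [S.adj_dist h]; omega)
  rw [S.Pi_split ρ v y (i := S.G.dist v x) (by omega), ← h2, S.Pi_adj ρ h]

lemma Pi_map (ρ : V → V → ℝ) (g : S.G ≃g S.G) (x y : V) :
    S.Pi ρ (g x) (g y) = S.Pi (fun p q => ρ (g p) (g q)) x y := by
  unfold Pi
  simp only [S.dist_map, S.geo_map]

/-- Induction along geodesics issued from `x`. -/
lemma induction_from (x : V) {p : V → Prop} (h0 : p x)
    (hs : ∀ y z, S.G.Adj y z → x ∈ S.sub z y → p y → p z) (v : V) : p v := by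
  have key : ∀ n v, S.G.dist x v = n → p v := by
    intro n
    induction n with
    | zero =>
      intro v hv
      rw [← S.dist_eq_zero.1 hv]
      exact h0
    | succ n ih =>
      intro v hv
      have a1 := S.dist_geo_l (x := x) (y := v) (i := n) (by omega)
      have a2 := S.geo_adj (x := x) (y := v) (i := n) (by omega)
      rw [S.geo_of_le (i := n + 1) hv.le] at a2
      refine hs _ _ a2 ?_ (ih _ a1)
      rw [S.mem_sub_iff a2.symm, a1, hv]
  exact key _ v rfl

include S in
lemma countable : Countable V := by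
  rw [← Set.countable_univ_iff]
  have : (Set.univ : Set V) = ⋃ k, (S.sph S.o k : Set V) := by
    ext v
    simp only [Set.mem_univ, Set.mem_iUnion, Finset.mem_coe, S.mem_sph, true_iff]
    exact ⟨_, rfl⟩
  rw [this]
  exact Set.countable_iUnion (fun k => (S.sph S.o k).countable_toSet)

lemma exists_adj (x : V) : ∃ y, S.G.Adj x y := by
  have : (S.nb x).Nonempty := Finset.card_pos.1 (by rw [S.card_nb]; omega)
  obtain ⟨y, hy⟩ := this
  exact ⟨y, (S.mem_nb _ _).1 hy⟩

end Setup

end Crest.Agent.R160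

end
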