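import Mathlib

/-! Row 160: regular tree geometry, definitions only. -/

noncomputable section

namespace Crest.Agent.R160

open Classical

universe u

/-- The data of the problem: a `(b+1)`-regular tree, an Ising parameter and a base vertex. -/
structure Setup (V : Type u) where
  G : SimpleGraph V
  b : ℕ
  hb : 2 ≤ b
  tree : G.IsTree
  nb : V → Finset V
  mem_nb : ∀ x y, y ∈ nb x ↔ G.Adj x y
  card_nb : ∀ x, (nb x).card = b + 1
  θ : ℝ
  θ0 : 0 ≤ θ
  crit : (b : ℝ) * θ ^ 2 ≤ 1
  o : V

namespace Setup

variable {V : Type u} (S : Setup V)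

/-- The unique path between two vertices. -/
def path (x y : V) : S.G.Walk x y := (S.tree.existsUnique_path x y).exists.choose

/-- The `i`-th vertex of the geodesic from `x` to `y`. -/
def geo (x y : V) (i : ℕ) : V := (S.path x y).getVert i

/-- For adjacent `x y`: the half-tree on the side of `y`. -/
def sub (x y : V) : Set V := {v | S.G.dist v y < S.G.dist v x}

/-- The children of `y` seen from `x`. -/
def ch (x y : V) : Finset V := (S.nb y).erase x

/-- The oriented edges at depth `l` below the oriented edge `(x,y)`. -/
def desc : ℕ → V → V → Finset (V × V)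
  | 0, x, y => {(x, y)}
  | l + 1, x, y => (S.ch x y).biUnion (fun z => desc l y z)

/-- The sphere of radius `k` around `x`. -/
def sph (x : V) : ℕ → Finset V
  | 0 => {x}
  | k + 1 => ((sph x k).biUnion S.nb).filter (fun v => S.G.dist x v = k + 1)

/-- Product of an oriented-edge weight along the geodesic from `x` to `y`. -/
def Pi (ρ : V → V → ℝ) (x y : V) : ℝ :=
  ∏ i ∈ Finset.range (S.G.dist x y), ρ (S.geo x y i) (S.geo x y (i + 1))

end Setup

end Crest.Agent.R160

end
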