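import Crest.Agent.R160.Geo

/-! Row 160: a regular tree is distance-transitive. -/

noncomputable section

namespace Crest.Agent.R160

universe u

open Classical in
theorem exists_bijOn_two {V : Type u} {A B : Finset V} (hc : A.card = B.card) {a₁ a₂ b₁ b₂ : V}
    (ha₁ : a₁ ∈ A) (ha₂ : a₂ ∈ A) (hb₁ : b₁ ∈ B) (hb₂ : b₂ ∈ B) (h : a₁ = a₂ ↔ b₁ = b₂) :
    ∃ f : V → V, Set.BijOn f A B ∧ f a₁ = b₁ ∧ f a₂ = b₂ := by
  have hswap : ∀ p q : V, p ∈ B → q ∈ B → Set.BijOn (Equiv.swap p q) (B : Set V) B := by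
    intro p q hp hq
    have hm : Set.MapsTo (Equiv.swap p q) (B : Set V) B := by
      intro z hz
      rw [Equiv.swap_apply_def]
      split_ifs
      · exact hq
      · exact hp
      · exact hz
    refine ⟨hm, (Equiv.injective _).injOn, fun z hz => ⟨Equiv.swap p q z, hm hz, by simp⟩⟩
  obtain ⟨f₀, hf₀⟩ : ∃ f : V → V, Set.BijOn f A B := by
    let e := Finset.equivOfCardEq hc
    refine ⟨fun z => if hz : z ∈ A then (e ⟨z, hz⟩ : V) else z, ?_, ?_, ?_⟩
    · intro z hz
      have hz' : z ∈ A := hz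
      simp only [hz', dif_pos]
      exact (e ⟨z, hz'⟩).2
    · intro z hz w hw hzw
      have hz' : z ∈ A := hz
      have hw' : w ∈ A := hw
      simp only [hz', hw', dif_pos] at hzw
      have := e.injective (Subtype.ext hzw)
      exact congrArg Subtype.val this
    · intro z hz
      refine ⟨(e.symm ⟨z, hz⟩ : V), (e.symm ⟨z, hz⟩).2, ?_⟩
      simp only [(e.symm ⟨z, hz⟩).2, dif_pos]
      simp
  have hf₁ := (hswap (f₀ a₁) b₁ (hf₀.mapsTo ha₁) hb₁).comp hf₀
  set f₁ := (Equiv.swap (f₀ a₁) b₁) ∘ f₀ with hf₁def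
  have h1 : f₁ a₁ = b₁ := by simp [hf₁def]
  by_cases hab : a₁ = a₂
  · refine ⟨f₁, hf₁, h1, ?_⟩
    rw [← hab, h1, h.1 hab]
  · have hb : b₁ ≠ b₂ := fun hh => hab (h.2 hh)
    have hf₂ := (hswap (f₁ a₂) b₂ (hf₁.mapsTo ha₂) hb₂).comp hf₁
    refine ⟨_, hf₂, ?_, by simp⟩
    simp only [Function.comp]
    rw [h1]
    apply Equiv.swap_apply_of_ne_of_ne _ hb
    intro hh
    rw [← h1] at hh
    exact hab (hf₁.injOn ha₁ ha₂ hh)

namespace Setup

variable {V : Type u} (S : Setup V)

lemma dist_one {x y : V} (h : S.G.Adj x y) : S.G.dist x y = 1 :=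
  SimpleGraph.dist_eq_one_iff_adj.2 h

lemma par_adj {x u : V} (h : u ≠ x) : S.G.Adj u (S.geo u x 1) := by
  have h0 : 0 < S.G.dist u x := Nat.pos_of_ne_zero (fun hh => h (S.dist_eq_zero.1 hh))
  have := S.geo_adj h0
  rwa [S.geo_zero] at this

lemma par_dist {x u : V} (h : u ≠ x) : S.G.dist x (S.geo u x 1) + 1 = S.G.dist x u := by
  have h0 : 0 < S.G.dist u x := Nat.pos_of_ne_zero (fun hh => h (S.dist_eq_zero.1 hh))
  have := S.dist_geo_geo (x := u) (y := x) (i := 1) (j := S.G.dist u x) h0 le_rfl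
  rw [S.geo_of_le le_rfl] at this
  rw [SimpleGraph.dist_comm (u := x), this, SimpleGraph.dist_comm (u := x)]
  omega

lemma eq_par {x u w : V} (h : S.G.Adj u w) (hd : S.G.dist x w + 1 = S.G.dist x u) :
    w = S.geo u x 1 := by
  apply S.geo_unique (S.dist_one h)
  rw [SimpleGraph.dist_comm (u := w), SimpleGraph.dist_comm (u := u)]
  exact hd

lemma child_dist {x p u : V} (h : S.G.Adj p u) (hu : p ≠ x → u ≠ S.geo p x 1) :
    S.G.dist x u = S.G.dist x p + 1 := by
  rcases S.dist_adj h x with h1 | h1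
  · have hp : p ≠ x := by
      rintro rfl
      simp at h1
    exact (hu hp (S.eq_par h h1.symm)).elim
  · exact h1

lemma dist_geo_left {x v : V} {i : ℕ} (hi : i ≤ S.G.dist x v) : S.G.dist x (S.geo x v i) = i := by
  have := S.dist_geo_geo (x := x) (y := v) (Nat.zero_le i) hi
  rwa [S.geo_zero, Nat.sub_zero] at this

lemma exists_local {x v x' v' : V} (h : S.G.dist x v = S.G.dist x' v') (p p' : V) :
    ∃ f : V → V, S.G.dist x p = S.G.dist x' p' →
      Set.BijOn f (S.nb p) (S.nb p') ∧ (p ≠ x → f (S.geo p x 1) = S.geo p' x' 1) ∧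
      ∀ i, i < S.G.dist x v → p = S.geo x v i → p' = S.geo x' v' i →
        f (S.geo x v (i + 1)) = S.geo x' v' (i + 1) := by
  by_cases hd : S.G.dist x p = S.G.dist x' p'
  swap
  · exact ⟨id, fun hh => (hd hh).elim⟩
  have hc : (S.nb p).card = (S.nb p').card := by rw [S.card_nb, S.card_nb]
  have hne : p ≠ x → p' ≠ x' := by
    intro h1 h2
    subst h2
    rw [SimpleGraph.dist_self] at hd
    exact h1 (S.dist_eq_zero.1 hd).symm
  by_cases c2 : ∃ i, i < S.G.dist x v ∧ p = S.geo x v i ∧ p' = S.geo x' v' i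
  · obtain ⟨i, hi, hp, hp'⟩ := c2
    have hi' : i < S.G.dist x' v' := h ▸ hi
    have m1 : S.geo x v (i + 1) ∈ S.nb p := by rw [S.mem_nb, hp]; exact S.geo_adj hi
    have m2 : S.geo x' v' (i + 1) ∈ S.nb p' := by rw [S.mem_nb, hp']; exact S.geo_adj hi'
    have huniq : ∀ j, j < S.G.dist x v → p = S.geo x v j → j = i := by
      intro j hj hpj
      rw [← S.dist_geo_left hj.le, ← hpj, hp, S.dist_geo_left hi.le]
    by_cases c1 : p = x
    · obtain ⟨f, hf, h1, _⟩ := exists_bijOn_two hc m1 m1 m2 m2 (by simp)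
      refine ⟨f, fun _ => ⟨hf, fun hh => (hh c1).elim, fun j hj hpj _ => ?_⟩⟩
      rw [huniq j hj hpj]
      exact h1
    · have m3 : S.geo p x 1 ∈ S.nb p := (S.mem_nb _ _).2 (S.par_adj c1)
      have m4 : S.geo p' x' 1 ∈ S.nb p' := (S.mem_nb _ _).2 (S.par_adj (hne c1))
      have n1 : S.geo p x 1 ≠ S.geo x v (i + 1) := by
        intro hh
        have h1 := S.par_dist c1
        rw [hh, S.dist_geo_left hi, hp, S.dist_geo_left hi.le] at h1
        omega
      have n2 : S.geo p' x' 1 ≠ S.geo x' v' (i + 1) := by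
        intro hh
        have h1 := S.par_dist (hne c1)
        rw [hh, S.dist_geo_left hi', hp', S.dist_geo_left hi'.le] at h1
        omega
      obtain ⟨f, hf, h1, h2⟩ := exists_bijOn_two hc m3 m1 m4 m2 (by simp [n1, n2])
      refine ⟨f, fun _ => ⟨hf, fun _ => h1, fun j hj hpj _ => ?_⟩⟩
      rw [huniq j hj hpj]
      exact h2
  · by_cases c1 : p = x
    · obtain ⟨a, ha⟩ := S.exists_adj p
      obtain ⟨b, hb⟩ := S.exists_adj p'
      obtain ⟨f, hf, _, _⟩ := exists_bijOn_two hc ((S.mem_nb _ _).2 ha) ((S.mem_nb _ _).2 ha)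
        ((S.mem_nb _ _).2 hb) ((S.mem_nb _ _).2 hb) (by simp)
      exact ⟨f, fun _ => ⟨hf, fun hh => (hh c1).elim, fun j hj hpj hpj' => (c2 ⟨j, hj, hpj, hpj'⟩).elim⟩⟩
    · have m3 : S.geo p x 1 ∈ S.nb p := (S.mem_nb _ _).2 (S.par_adj c1)
      have m4 : S.geo p' x' 1 ∈ S.nb p' := (S.mem_nb _ _).2 (S.par_adj (hne c1))
      obtain ⟨f, hf, h1, _⟩ := exists_bijOn_two hc m3 m3 m4 m4 (by simp)
      exact ⟨f, fun _ => ⟨hf, fun _ => h1, fun j hj hpj hpj' => (c2 ⟨j, hj, hpj, hpj'⟩).elim⟩⟩

/-- Distance transitivity of the automorphism group of a regular tree. -/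
theorem exists_iso {x v x' v' : V} (h : S.G.dist x v = S.G.dist x' v') :
    ∃ g : S.G ≃g S.G, g x = x' ∧ g v = v' := by
  choose φ hφ using S.exists_local h
  let Gn : ℕ → V → V := fun n => Nat.rec (fun _ => x')
    (fun _ prev u => φ (S.geo u x 1) (prev (S.geo u x 1)) u) n
  obtain ⟨g, hg0, hg1⟩ : ∃ g : V → V, g x = x' ∧
      ∀ u, u ≠ x → g u = φ (S.geo u x 1) (g (S.geo u x 1)) u := by
    refine ⟨fun u => Gn (S.G.dist x u) u, ?_, fun u hu => ?_⟩
    · simp only [SimpleGraph.dist_self]
      rfl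
    · simp only
      rw [← S.par_dist hu]
  -- one step of the construction
  have step : ∀ u, u ≠ x → S.G.dist x (S.geo u x 1) = S.G.dist x' (g (S.geo u x 1)) →
      S.G.Adj (g (S.geo u x 1)) (g u) ∧
      S.G.dist x' (g u) = S.G.dist x' (g (S.geo u x 1)) + 1 := by
    intro u hu hd
    obtain ⟨hb, h1, _⟩ := hφ _ _ hd
    have hup : u ∈ S.nb (S.geo u x 1) := (S.mem_nb _ _).2 (S.par_adj hu).symm
    have hadj : S.G.Adj (g (S.geo u x 1)) (g u) := by
      rw [hg1 u hu]
      exact (S.mem_nb _ _).1 (hb.mapsTo hup)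
    refine ⟨hadj, S.child_dist hadj ?_⟩
    intro hne heq
    have hpx : S.geo u x 1 ≠ x := by
      intro hh
      rw [hh, hg0] at hne
      exact hne rfl
    rw [hg1 u hu, ← h1 hpx] at heq
    have h2 := hb.injOn hup ((S.mem_nb _ _).2 (S.par_adj hpx)) heq
    have h3 := S.par_dist hu
    have h4 := S.par_dist hpx
    rw [← h2] at h4
    omega
  have hdist : ∀ n u, S.G.dist x u = n → S.G.dist x' (g u) = n := by
    intro n
    induction n with
    | zero =>
      intro u hu
      rw [← S.dist_eq_zero.1 hu, hg0, SimpleGraph.dist_self]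
    | succ n ih =>
      intro u hu
      have hux : u ≠ x := by
        rintro rfl
        simp at hu
      have h1 := S.par_dist hux
      have h2 := ih (S.geo u x 1) (by omega)
      have h3 := (step u hux (by omega)).2
      omega
  have hdist' : ∀ u, S.G.dist x u = S.G.dist x' (g u) := fun u => (hdist _ u rfl).symm
  have hpar : ∀ u, u ≠ x → g (S.geo u x 1) = S.geo (g u) x' 1 := by
    intro u hu
    obtain ⟨h1, h2⟩ := step u hu (hdist' _)
    exact S.eq_par h1.symm h2.symm
  have hinj : Function.Injective g := by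
    have key : ∀ n u w, S.G.dist x u = n → g u = g w → u = w := by
      intro n
      induction n with
      | zero =>
        intro u w hu huw
        have h1 : S.G.dist x w = 0 := by rw [hdist', ← huw, ← hdist', hu]
        rw [← S.dist_eq_zero.1 hu, ← S.dist_eq_zero.1 h1]
      | succ n ih =>
        intro u w hu huw
        have h1 : S.G.dist x w = n + 1 := by rw [hdist', ← huw, ← hdist', hu]
        have hux : u ≠ x := by
          rintro rfl
          simp at hu
        have hwx : w ≠ x := by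
          rintro rfl
          simp at h1
        have h2 : S.geo u x 1 = S.geo w x 1 := by
          apply ih
          · have := S.par_dist hux
            omega
          · rw [hpar u hux, hpar w hwx, huw]
        obtain ⟨hb, _, _⟩ := hφ _ _ (hdist' (S.geo u x 1))
        rw [hg1 u hux, hg1 w hwx, ← h2] at huw
        apply hb.injOn _ _ huw
        · exact (S.mem_nb _ _).2 (S.par_adj hux).symm
        · rw [h2]
          exact (S.mem_nb _ _).2 (S.par_adj hwx).symm
    exact fun u w huw => key _ u w rfl huw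
  have hsurj : Function.Surjective g := by
    have key : ∀ n u', S.G.dist x' u' = n → ∃ u, g u = u' := by
      intro n
      induction n with
      | zero =>
        intro u' hu
        exact ⟨x, by rw [hg0]; exact S.dist_eq_zero.1 hu⟩
      | succ n ih =>
        intro u' hu
        have hux : u' ≠ x' := by
          rintro rfl
          simp at hu
        have h1 := S.par_dist hux
        obtain ⟨p, hp⟩ := ih (S.geo u' x' 1) (by omega)
        obtain ⟨hb, h2, _⟩ := hφ _ _ (hdist' p)
        have h3 : u' ∈ S.nb (g p) := by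
          rw [hp]
          exact (S.mem_nb _ _).2 (S.par_adj hux).symm
        obtain ⟨u, hu1, hu2⟩ := hb.surjOn h3
        have hadj : S.G.Adj p u := (S.mem_nb _ _).1 hu1
        have h4 : S.G.dist x u = S.G.dist x p + 1 := by
          apply S.child_dist hadj
          intro hpx heq
          rw [heq, h2 hpx] at hu2
          have hgp : g p ≠ x' := by
            intro hh
            rw [← hg0] at hh
            exact hpx (hinj hh)
          have h5 := S.par_dist hgp
          rw [hu2, hp] at h5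
          omega
        have hux' : u ≠ x := by
          rintro rfl
          simp at h4
        have h5 : p = S.geo u x 1 := S.eq_par hadj.symm h4.symm
        exact ⟨u, by rw [hg1 u hux', ← h5]; exact hu2⟩
    exact fun u' => key _ u' rfl
  have hadj : ∀ a b, S.G.Adj (g a) (g b) ↔ S.G.Adj a b := by
    have k1 : ∀ a b, S.G.Adj a b → S.G.dist x a = S.G.dist x b + 1 → S.G.Adj (g a) (g b) := by
      intro a b hab hd
      have hax : a ≠ x := by
        rintro rfl
        simp at hd
      rw [S.eq_par hab hd.symm]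
      exact (step a hax (hdist' _)).1.symm
    have k2 : ∀ a b, S.G.Adj (g a) (g b) → S.G.dist x' (g a) = S.G.dist x' (g b) + 1 →
        S.G.Adj a b := by
      intro a b hab hd
      have hax : a ≠ x := by
        rintro rfl
        rw [hg0] at hd
        simp at hd
      have h1 := S.eq_par hab hd.symm
      rw [← hpar a hax] at h1
      rw [hinj h1]
      exact S.par_adj hax
    intro a b
    constructor
    · intro hab
      rcases S.dist_adj hab x' with h1 | h1
      · exact k2 a b hab h1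
      · exact (k2 b a hab.symm h1).symm
    · intro hab
      rcases S.dist_adj hab x with h1 | h1
      · exact k1 a b hab h1
      · exact (k1 b a hab.symm h1).symm
  have hgeo : ∀ i, i ≤ S.G.dist x v → g (S.geo x v i) = S.geo x' v' i := by
    intro i
    induction i with
    | zero => intro _; rw [S.geo_zero, S.geo_zero, hg0]
    | succ i ih =>
      intro hi
      have h1 := ih (by omega)
      have h2 : S.G.dist x (S.geo x v (i + 1)) = i + 1 := S.dist_geo_left hi
      have hux : S.geo x v (i + 1) ≠ x := by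
        intro hh
        rw [hh] at h2
        simp at h2
      have h3 : S.geo x v i = S.geo (S.geo x v (i + 1)) x 1 :=
        S.eq_par (S.geo_adj hi).symm (by rw [h2, S.dist_geo_left (by omega)])
      rw [hg1 _ hux, ← h3]
      exact (hφ _ _ (hdist' _)).2.2 i hi rfl h1
  refine ⟨⟨Equiv.ofBijective g ⟨hinj, hsurj⟩, fun {a b} => hadj a b⟩, hg0, ?_⟩
  have := hgeo _ le_rfl
  rw [S.geo_of_le le_rfl, S.geo_of_le h.ge] at this
  exact this

/-- Oriented-edge form of transitivity. -/
theorem exists_iso_sub {x y v x' y' v' : V} (h : S.G.Adj x y) (h' : S.G.Adj x' y')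
    (hv : v ∈ S.sub x y) (hv' : v' ∈ S.sub x' y') (hd : S.G.dist y v = S.G.dist y' v') :
    ∃ g : S.G ≃g S.G, g x = x' ∧ g y = y' ∧ g v = v' := by
  have h1 := (S.mem_sub_iff h v).1 hv
  have h2 := (S.mem_sub_iff h' v').1 hv'
  obtain ⟨g, hg1, hg2⟩ := S.exists_iso (x := x) (v := v) (x' := x') (v' := v') (by
    rw [SimpleGraph.dist_comm (u := x), SimpleGraph.dist_comm (u := x'), h1, h2,
      SimpleGraph.dist_comm (u := v), SimpleGraph.dist_comm (u := v'), hd])
  refine ⟨g, hg1, ?_, hg2⟩
  rw [← S.geo_one_of_mem_sub h hv, ← S.geo_map, hg1, hg2, S.geo_one_of_mem_sub h' hv']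

/-- Two oriented edges at the same depth below `(x,y)` are exchanged by an automorphism fixing
`x` and `y`. -/
theorem exists_iso_desc {x y : V} {l : ℕ} (h : S.G.Adj x y) {e e' : V × V}
    (he : e ∈ S.desc l x y) (he' : e' ∈ S.desc l x y) :
    ∃ g : S.G ≃g S.G, g x = x ∧ g y = y ∧ g e.1 = e'.1 ∧ g e.2 = e'.2 := by
  obtain ⟨p, q⟩ := e
  obtain ⟨p', q'⟩ := e'
  obtain ⟨a1, a2, a3, a4⟩ := (S.mem_desc h).1 he
  obtain ⟨b1, b2, b3, b4⟩ := (S.mem_desc h).1 he'
  obtain ⟨g, g1, g2, g3⟩ := S.exists_iso_sub h h a2 b2 (by rw [a3, b3])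
  refine ⟨g, g1, g2, ?_, g3⟩
  have c1 := (S.mem_sub_iff h q).1 a2
  have c2 := (S.mem_sub_iff h q').1 b2
  have d1 : p = S.geo q x 1 := S.eq_par a1.symm (by
    rw [a4, SimpleGraph.dist_comm (u := x), c1, SimpleGraph.dist_comm (u := q), a3])
  have d2 : p' = S.geo q' x 1 := S.eq_par b1.symm (by
    rw [b4, SimpleGraph.dist_comm (u := x), c2, SimpleGraph.dist_comm (u := q'), b3])
  simp only
  rw [d1, ← S.geo_map, g1, g3, d2]

end Setup

end Crest.Agent.R160

end
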