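import Crest.Agent.R160.Basic

/-! Row 160: independence structure of the model. -/

noncomputable section

namespace Crest.Agent.R160

open Classical MeasureTheory ProbabilityTheory

universe u

lemma aesm_prod {Ω ι : Type*} {mΩ : MeasurableSpace Ω} {P : Measure Ω} {K : MeasurableSpace Ω}
    (s : Finset ι) {f : ι → Ω → ℝ} (h : ∀ i ∈ s, AEStronglyMeasurable[K] (f i) P) :
    AEStronglyMeasurable[K] (fun ω => ∏ i ∈ s, f i ω) P := by
  induction s using Finset.induction_on with
  | empty => simpa using aestronglyMeasurable_const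
  | insert a s ha ih =>
    simp only [Finset.prod_insert ha]
    exact AEStronglyMeasurable.mul (h a (Finset.mem_insert_self _ _))
      (ih fun i hi => h i (Finset.mem_insert_of_mem hi))

lemma indep_sup_of {Ω : Type*} {mΩ : MeasurableSpace Ω} {P : Measure Ω} [IsProbabilityMeasure P]
    {m₀ m₁ m₂ K : MeasurableSpace Ω} (h₀ : m₀ ≤ mΩ) (h₁ : m₁ ≤ mΩ) (h₂ : m₂ ≤ mΩ)
    (k₁ : m₁ ≤ K) (k₂ : m₂ ≤ K) (i₀ : Indep m₀ K P) (i₁ : Indep m₁ m₂ P) :
    Indep (m₀ ⊔ m₁) m₂ P := by
  rw [Indep_iff] at i₀ i₁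
  refine IndepSets.indep (p1 := {S | ∃ A B, MeasurableSet[m₀] A ∧ MeasurableSet[m₁] B ∧ S = A ∩ B})
    (p2 := {S | MeasurableSet[m₂] S}) (sup_le h₀ h₁) h₂ ?_
    (@MeasurableSpace.isPiSystem_measurableSet _ m₂) ?_
    (@MeasurableSpace.generateFrom_measurableSet _ m₂).symm ?_
  · rintro _ ⟨A, B, hA, hB, rfl⟩ _ ⟨A', B', hA', hB', rfl⟩ -
    exact ⟨A ∩ A', B ∩ B', hA.inter hA', hB.inter hB', by ext; simp; tauto⟩
  · apply le_antisymm
    · refine sup_le (fun A hA => ?_) (fun B hB => ?_)
      · exact MeasurableSpace.measurableSet_generateFrom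
          ⟨A, Set.univ, hA, MeasurableSet.univ, by simp⟩
      · exact MeasurableSpace.measurableSet_generateFrom
          ⟨Set.univ, B, MeasurableSet.univ, hB, by simp⟩
    · refine MeasurableSpace.generateFrom_le ?_
      rintro _ ⟨A, B, hA, hB, rfl⟩
      exact MeasurableSet.inter ((le_sup_left : m₀ ≤ m₀ ⊔ m₁) _ hA)
        ((le_sup_right : m₁ ≤ m₀ ⊔ m₁) _ hB)
  · rw [IndepSets_iff]
    rintro _ C ⟨A, B, hA, hB, rfl⟩ hC
    rw [Set.inter_assoc, i₀ A (B ∩ C) hA (MeasurableSet.inter (k₁ _ hB) (k₂ _ hC)),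
      i₀ A B hA (k₁ _ hB), i₁ B C hB hC, mul_assoc]

namespace Setup

variable {V : Type u} (S : Setup V)

instance : Countable S.Idx := by
  have := S.countable
  infer_instance

/-- Replacing the coin by the spin at `y` preserves the measure. -/
lemma mp_skew (y : V) :
    MeasurePreserving (fun ω : S.Om => ((decide (0 < S.σ y ω), ω.2) : S.Om)) S.P S.P := by
  have hm : Measurable (fun ω : S.Om => decide (0 < S.σ y ω)) := by
    refine measurable_to_bool ?_
    have : (fun ω : S.Om => decide (0 < S.σ y ω)) ⁻¹' {true} = {ω | 0 < S.σ y ω} := by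
      ext ω; simp
    rw [this]
    exact measurableSet_lt measurable_const (S.measurable_σ _)
  have h1 : MeasurePreserving
      (fun p : (S.Idx → unitInterval) × Bool => (id p.1, decide (0 < S.σ y (p.2, p.1))))
      (S.lab.prod coin) (S.lab.prod coin) := by
    refine MeasurePreserving.skew_product (g := fun l b => decide (0 < S.σ y (b, l)))
      (MeasurePreserving.id _) (hm.comp measurable_swap) (Filter.Eventually.of_forall fun l => ?_)
    have e : ∀ b, S.σ y (b, l) = sgn b * S.σ y (true, l) := by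
      intro b
      show sgn b * _ = sgn b * (sgn true * _)
      simp only [sgn, if_true, one_mul]
      rfl
    rcases S.σ_cases y (true, l) with h | h
    · have : (fun b => decide (0 < S.σ y (b, l))) = id := by
        funext b
        rw [e, h]
        cases b <;> simp [sgn]
      rw [this, Measure.map_id]
    · have : (fun b => decide (0 < S.σ y (b, l))) = fun b => !b := by
        funext b
        rw [e, h]
        cases b <;> simp [sgn]
      rw [this]
      unfold coin
      rw [Measure.map_add _ _ (measurable_of_countable _), Measure.map_smul, Measure.map_smul,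
        Measure.map_dirac' (measurable_of_countable _), Measure.map_dirac' (measurable_of_countable _),
        add_comm]
      rfl
  exact (Measure.measurePreserving_swap.comp h1).comp Measure.measurePreserving_swap

lemma mp_snd : MeasurePreserving (fun ω : S.Om => ω.2) S.P S.lab :=
  measurePreserving_snd (μ := coin) (ν := S.lab)

lemma mp_label' (i : S.Idx) : MeasurePreserving (fun ω : S.Om => ω.2 i) S.P volume :=
  (measurePreserving_eval_infinitePi (fun _ : S.Idx => (volume : Measure unitInterval)) i).comp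
    S.mp_snd

lemma sgn_decide_σ (y : V) (ω : S.Om) : sgn (decide (0 < S.σ y ω)) = S.σ y ω := by
  rcases S.σ_cases y ω with h | h <;> simp [h, sgn]

lemma I_le_snd (A : Set S.Idx) :
    S.I A ≤ MeasurableSpace.comap (fun ω : S.Om => ω.2) inferInstance :=
  iSup₂_le fun i _ => Measurable.comap_le
    ((measurable_pi_apply i).comp (comap_measurable (fun ω : S.Om => ω.2)))

lemma iIndep_I1 : iIndep S.I1 S.P := by
  have h : iIndepFun (fun (i : S.Idx) (ω : S.Om) => ω.2 i) S.P := by
    rw [iIndepFun_iff_map_fun_eq_infinitePi_map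
      (X := fun (i : S.Idx) (ω : S.Om) => ω.2 i) (fun i => (S.mp_label' i).measurable)]
    have h1 : ∀ i : S.Idx, S.P.map (fun ω : S.Om => ω.2 i) = volume := fun i => (S.mp_label' i).map_eq
    simp only [h1]
    exact S.mp_snd.map_eq
  exact h.iIndep

lemma indep_I {A B : Set S.Idx} (h : Disjoint A B) : Indep (S.I A) (S.I B) S.P := by
  exact indep_iSup_of_disjoint S.I1_le S.iIndep_I1 h

/-- The spin at any vertex is independent of all the labels. -/
lemma indep_Sg_I (y : V) {A B : Set S.Idx} (h : Disjoint A B) :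
    Indep (S.Sg y ⊔ S.I A) (S.I B) S.P := by
  refine indep_sup_of (K := MeasurableSpace.comap (fun ω : S.Om => ω.2) inferInstance)
    (S.Sg_le y) (S.I_le A) (S.I_le B) (S.I_le_snd A) (S.I_le_snd B) ?_ (S.indep_I h)
  rw [Indep_iff]
  rintro _ _ ⟨s, hs, rfl⟩ ⟨t, ht, rfl⟩
  have hs' : MeasurableSet (sgn ⁻¹' s) := (measurable_of_countable sgn) hs
  have e1 : S.σ y ⁻¹' s = (fun ω : S.Om => ((decide (0 < S.σ y ω), ω.2) : S.Om)) ⁻¹'
      ((sgn ⁻¹' s) ×ˢ Set.univ) := by
    ext ω; simp [S.sgn_decide_σ]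
  have e2 : (fun ω : S.Om => ω.2) ⁻¹' t = (fun ω : S.Om => ((decide (0 < S.σ y ω), ω.2) : S.Om)) ⁻¹'
      (Set.univ ×ˢ t) := by
    ext ω; simp only [Set.mem_preimage, Set.mem_prod, Set.mem_univ, true_and]
  have e3 : S.σ y ⁻¹' s ∩ (fun ω : S.Om => ω.2) ⁻¹' t =
      (fun ω : S.Om => ((decide (0 < S.σ y ω), ω.2) : S.Om)) ⁻¹' ((sgn ⁻¹' s) ×ˢ t) := by
    ext ω; simp [S.sgn_decide_σ]
  rw [e3, e1, e2, (S.mp_skew y).measure_preimage (hs'.prod ht).nullMeasurableSet,
    (S.mp_skew y).measure_preimage (hs'.prod MeasurableSet.univ).nullMeasurableSet,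
    (S.mp_skew y).measure_preimage (MeasurableSet.univ.prod ht).nullMeasurableSet]
  unfold P
  simp only [Measure.prod_prod, measure_univ, mul_one, one_mul]

lemma indep_Kx' (i : S.Idx) : Indep (S.Kx i) (S.I1 i) S.P := by
  rw [← S.I_singleton]
  exact S.indep_Sg_I S.o disjoint_compl_left

lemma integral_prod_of_disjoint {ι : Type*} (s : Finset ι) {A : ι → Set S.Idx}
    (hA : (s : Set ι).PairwiseDisjoint A) {f : ι → S.Om → ℝ} (hf : ∀ i ∈ s, Bdd S.P (f i))
    (hm : ∀ i ∈ s, AEStronglyMeasurable[S.I (A i)] (f i) S.P) :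
    ∫ ω, ∏ i ∈ s, f i ω ∂S.P = ∏ i ∈ s, ∫ ω, f i ω ∂S.P := by
  induction s using Finset.induction_on with
  | empty => simp
  | insert a s ha ih =>
    have hA' : (s : Set ι).PairwiseDisjoint A :=
      hA.subset (by rw [Finset.coe_insert]; exact Set.subset_insert _ _)
    have ih' := ih hA' (fun i hi => hf i (Finset.mem_insert_of_mem hi))
      (fun i hi => hm i (Finset.mem_insert_of_mem hi))
    simp only [Finset.prod_insert ha]
    rw [← ih']
    have hd : Disjoint (A a) (⋃ i ∈ s, A i) := by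
      rw [Set.disjoint_iUnion₂_right]
      intro i hi
      exact hA (Finset.mem_coe.2 (Finset.mem_insert_self _ _))
        (Finset.mem_coe.2 (Finset.mem_insert_of_mem hi)) (fun h => ha (h ▸ hi))
    refine integral_mul_of_indep' (S.I_le _) (S.I_le _) (S.indep_I hd)
      (hm a (Finset.mem_insert_self _ _)) ?_
    refine aesm_prod s fun i hi => ?_
    exact (hm i (Finset.mem_insert_of_mem hi)).mono
      (S.I_mono (Set.subset_biUnion_of_mem (u := A) (Finset.mem_coe.2 hi)))

/-- Each label is uniform. -/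
lemma mp_label (i : S.Idx) : MeasurePreserving (fun ω : S.Om => ω.2 i) S.P volume := by
  exact S.mp_label' i

lemma integral_label (i : S.Idx) {h : unitInterval → ℝ} (hh : Measurable h) :
    ∫ ω, h (ω.2 i) ∂S.P = ∫ t, h t := by
  rw [← (S.mp_label i).map_eq, integral_map (S.mp_label i).measurable.aemeasurable
    hh.aestronglyMeasurable]

lemma integral_σ (v : V) : ∫ ω, S.σ v ω ∂S.P = 0 := by
  have h1 : MeasurePreserving (fun ω : S.Om => decide (0 < S.σ v ω)) S.P coin :=
    (measurePreserving_fst (μ := coin) (ν := S.lab)).comp (S.mp_skew v)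
  have h2 : ∫ b, sgn b ∂coin = ∫ ω, sgn (decide (0 < S.σ v ω)) ∂S.P := by
    rw [← h1.map_eq, integral_map h1.measurable.aemeasurable
      (measurable_of_countable sgn).aestronglyMeasurable]
  simp only [S.sgn_decide_σ] at h2
  rw [← h2]
  unfold coin
  rw [integral_add_measure ((integrable_dirac (by simp)).smul_measure (by simp))
    ((integrable_dirac (by simp)).smul_measure (by simp))]
  simp [sgn]

lemma integral_tau {x y : V} (h : S.G.Adj x y) : ∫ ω, S.tau x y ω ∂S.P = S.θ := by
  have h0 := S.θ0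
  have h1 := S.theta_le
  let c : unitInterval := ⟨(1 + S.θ) / 2, by constructor <;> linarith⟩
  have hm : Measurable (fun t : unitInterval => if (t : ℝ) ≤ (1 + S.θ) / 2 then (1 : ℝ) else -1) :=
    Measurable.ite (measurableSet_le measurable_subtype_coe measurable_const) measurable_const
      measurable_const
  have e := S.integral_label (S.iE ⟨s(x, y), h⟩) hm
  unfold tau
  simp only [dif_pos h]
  rw [e]
  have e2 : (fun t : unitInterval => if (t : ℝ) ≤ (1 + S.θ) / 2 then (1 : ℝ) else -1) =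
      fun t => 2 * (Set.Iic c).indicator (fun _ => (1 : ℝ)) t - 1 := by
    funext t
    have : t ∈ Set.Iic c ↔ (t : ℝ) ≤ (1 + S.θ) / 2 := Iff.rfl
    by_cases ht : (t : ℝ) ≤ (1 + S.θ) / 2
    · rw [if_pos ht, Set.indicator_of_mem (this.2 ht)]; norm_num
    · rw [if_neg ht, Set.indicator_of_notMem (fun h => ht (this.1 h))]; norm_num
  rw [e2, integral_sub (((integrable_const _).indicator measurableSet_Iic).const_mul _)
    (integrable_const _), integral_const_mul, integral_indicator measurableSet_Iic]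
  simp only [integral_const, smul_eq_mul, mul_one, measureReal_restrict_apply_univ,
    probReal_univ]
  rw [Measure.real, unitInterval.volume_Iic, ENNReal.toReal_ofReal c.2.1]
  show 2 * ((1 + S.θ) / 2) - 1 = S.θ
  ring

/-- Integrating out one label: `X` does not depend on the label `i`. -/
lemma integral_label_of_Kx (i : S.Idx) {β : Type*} [MeasurableSpace β] {X : S.Om → β}
    (hX : Measurable[S.Kx i] X) {ζ : β × unitInterval → ℝ} (hζ : Measurable ζ) {K : ℝ}
    (hK : ∀ ω t, |ζ (X ω, t)| ≤ K) :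
    ∫ ω, ζ (X ω, ω.2 i) ∂S.P = ∫ ω, (∫ t, ζ (X ω, t)) ∂S.P := by
  have hX' : Measurable X := hX.mono (S.Kx_le i) le_rfl
  have hL := (S.mp_label i).measurable
  have hI : IndepFun X (fun ω : S.Om => ω.2 i) S.P := by
    rw [IndepFun_iff_Indep]
    exact indep_of_indep_of_le_left (S.indep_Kx' i) hX.comap_le
  have hmap := (indepFun_iff_map_prod_eq_prod_map_map hX'.aemeasurable hL.aemeasurable).1 hI
  rw [(S.mp_label i).map_eq] at hmap
  have hp : Measurable (fun ω : S.Om => (X ω, ω.2 i)) := hX'.prodMk hL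
  have hint : Integrable ζ ((S.P.map X).prod volume) := by
    rw [← hmap, integrable_map_measure hζ.aestronglyMeasurable hp.aemeasurable]
    exact (Bdd.of_meas (hζ.comp hp) (fun ω => hK ω _)).integrable
  rw [← integral_map hp.aemeasurable hζ.aestronglyMeasurable, hmap, integral_prod _ hint,
    integral_map hX'.aemeasurable
      (hζ.stronglyMeasurable.integral_prod_right').aestronglyMeasurable]

/-- Reveal times of distinct indices are almost surely distinct. -/
lemma ae_tm_ne {w w' : V × ℕ} (h : w ≠ w') : ∀ᵐ ω ∂S.P, S.tm w ω ≠ S.tm w' ω := by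
  have hne : S.iT w ≠ S.iT w' := by simpa [iT] using h
  have hI : IndepFun (fun ω : S.Om => ω.2 (S.iT w)) (fun ω : S.Om => ω.2 (S.iT w')) S.P := by
    rw [IndepFun_iff_Indep]
    exact S.iIndep_I1.indep hne
  have hL := (S.mp_label (S.iT w)).measurable
  have hL' := (S.mp_label (S.iT w')).measurable
  have hmap := (indepFun_iff_map_prod_eq_prod_map_map hL.aemeasurable hL'.aemeasurable).1 hI
  rw [(S.mp_label _).map_eq, (S.mp_label _).map_eq] at hmap
  have h1 : ∀ᵐ p ∂((volume : Measure unitInterval).prod (volume : Measure unitInterval)),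
      (w.2 : ℝ) + p.1 ≠ w'.2 + p.2 := by
    rw [Measure.ae_prod_iff_ae_ae]
    · refine Filter.Eventually.of_forall fun s => ?_
      rw [ae_iff]
      refine Set.Subsingleton.measure_zero ?_ _
      intro a ha b hb
      simp only [ne_eq, not_not, Set.mem_ofPred_eq] at ha hb
      exact Subtype.ext (by linarith)
    · exact (measurableSet_eq_fun (by fun_prop) (by fun_prop)).compl
  rw [← hmap] at h1
  exact ae_of_ae_map (hL.prodMk hL').aemeasurable h1

/-! ### Regions -/

lemma iT_mem_reg {B : Set V} {w : V × ℕ} : S.iT w ∈ S.reg B ↔ w.1 ∈ B := Iff.rfl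

lemma iN_mem_reg {B : Set V} {w : V × ℕ} : S.iN w ∈ S.reg B ↔ w.1 ∈ B := Iff.rfl

lemma iE_mem_reg {B : Set V} {x y : V} (h : S.G.Adj x y) :
    S.iE ⟨s(x, y), h⟩ ∈ S.reg B ↔ x ∈ B ∧ y ∈ B := by
  simp [reg, iE]

lemma reg_mono {B B' : Set V} (h : B ⊆ B') : S.reg B ⊆ S.reg B' := by
  rintro (e | w | w) hi
  · exact fun v hv => h (hi v hv)
  · exact h hi
  · exact h hi

lemma reg_disjoint {B B' : Set V} (h : Disjoint B B') : Disjoint (S.reg B) (S.reg B') := by
  rw [Set.disjoint_left] at h ⊢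
  rintro (e | w | w) hi hi'
  · exact h (hi _ (Sym2.out_fst_mem _)) (hi' _ (Sym2.out_fst_mem _))
  · exact h hi hi'
  · exact h hi hi'

/-- The regions in front of two different oriented edges at the same depth, each taken with its
edge, are disjoint. -/
lemma creg_disjoint {x y : V} {l : ℕ} (h : S.G.Adj x y) {e e' : V × V} (he : e ∈ S.desc l x y)
    (he' : e' ∈ S.desc l x y) (hne : e ≠ e') :
    Disjoint (S.reg (S.sub e.2 e.1))ᶜ (S.reg (S.sub e'.2 e'.1))ᶜ := by
  have hd := S.desc_disjoint h he he' hne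
  obtain ⟨p, q⟩ := e
  obtain ⟨p', q'⟩ := e'
  obtain ⟨a1, a2, a3, a4⟩ := (S.mem_desc h).1 he
  obtain ⟨b1, b2, b3, b4⟩ := (S.mem_desc h).1 he'
  simp only at hd ⊢
  rw [Set.disjoint_left] at hd ⊢
  rintro (⟨f, hf⟩ | w | w) hi hi'
  · induction f using Sym2.ind with
    | _ u v =>
      have huv : S.G.Adj u v := hf
      have c1 : ¬ (u ∈ S.sub q p ∧ v ∈ S.sub q p) := fun hh => hi ((S.iE_mem_reg huv).2 hh)
      have c2 : ¬ (u ∈ S.sub q' p' ∧ v ∈ S.sub q' p') := fun hh => hi' ((S.iE_mem_reg huv).2 hh)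
      rw [← S.not_mem_sub_iff a1, ← S.not_mem_sub_iff a1] at c1
      rw [← S.not_mem_sub_iff b1, ← S.not_mem_sub_iff b1] at c2
      have key : ∀ {u v : V}, S.G.Adj u v → u ∈ S.sub p q → v ∈ S.sub p' q' → False := by
        intro u v huv hu hv
        have d1 := S.boundary_edge a1 huv hu (fun hh => hd hh hv)
        have d2 := S.boundary_edge b1 huv.symm hv (fun hh => hd hu hh)
        have d3 := (S.mem_sub_iff h q).1 a2
        have d4 : q = p' := d1.1.symm.trans d2.2
        rw [S.dc q x, S.dc q y, a3, d4, b4] at d3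
        omega
      by_cases hu : u ∈ S.sub p q
      · have hu' : u ∉ S.sub p' q' := hd hu
        exact key huv hu (by tauto)
      · have hv : v ∈ S.sub p q := by tauto
        have hv' : v ∉ S.sub p' q' := hd hv
        exact key huv.symm hv (by tauto)
  · exact hd ((S.not_mem_sub_iff a1.symm _).1 hi) ((S.not_mem_sub_iff b1.symm _).1 hi')
  · exact hd ((S.not_mem_sub_iff a1.symm _).1 hi) ((S.not_mem_sub_iff b1.symm _).1 hi')

lemma measurable_label_I {A : Set S.Idx} {i : S.Idx} (h : i ∈ A) :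
    Measurable[S.I A] (fun ω : S.Om => ω.2 i) :=
  (comap_measurable (fun ω : S.Om => ω.2 i)).mono (S.I1_le_I h) le_rfl

lemma measurable_tau_I {A : Set S.Idx} {x y : V} (h : S.G.Adj x y)
    (hA : S.iE ⟨s(x, y), h⟩ ∈ A) : Measurable[S.I A] (S.tau x y) := by
  unfold tau
  simp only [dif_pos h]
  refine Measurable.ite ?_ measurable_const measurable_const
  exact measurableSet_le (measurable_subtype_coe.comp (S.measurable_label_I hA)) measurable_const

lemma measurable_σ_Sg (y : V) : Measurable[S.Sg y] (S.σ y) := by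
  exact comap_measurable _

lemma measurable_σσ_of (x y : V) {A : Set S.Idx}
    (h : ∀ i (hi : i < S.G.dist x y), S.iE ⟨s(S.geo x y i, S.geo x y (i + 1)), S.geo_adj hi⟩ ∈ A) :
    Measurable[S.I A] (fun ω => S.σ x ω * S.σ y ω) := by
  simp only [S.σ_mul]
  unfold Pi
  refine @Finset.measurable_fun_prod _ _ _ _ _ _ (S.I A) _ _ fun i hi => ?_
  exact S.measurable_tau_I (S.geo_adj (Finset.mem_range.1 hi)) (h i (Finset.mem_range.1 hi))

lemma measurable_σ_of {x y : V} {K : MeasurableSpace S.Om}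
    (h : Measurable[K] (fun ω => S.σ y ω * S.σ x ω)) : Measurable[S.Sg y ⊔ K] (S.σ x) := by
  have e : S.σ x = fun ω => S.σ y ω * (S.σ y ω * S.σ x ω) := by
    funext ω
    rw [← mul_assoc, S.σ_mul_self, one_mul]
  rw [e]
  exact Measurable.mul ((S.measurable_σ_Sg y).mono le_sup_left le_rfl) (h.mono le_sup_right le_rfl)

/-- Relative spin inside a half-tree. -/
lemma measurable_σσ_reg {p q x y : V} (h : S.G.Adj p q) (hx : x ∈ S.sub p q) (hy : y ∈ S.sub p q) :
    Measurable[S.I (S.reg (S.sub p q))] (fun ω => S.σ x ω * S.σ y ω) := by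
  refine S.measurable_σσ_of x y fun i hi => ?_
  exact (S.iE_mem_reg _).2 ⟨S.geo_mem_sub h hx hy _, S.geo_mem_sub h hx hy _⟩

/-- Relative spin between `y` and a vertex behind its neighbour `z`. -/
lemma measurable_σσ_creg {y z v : V} (h : S.G.Adj y z) (hv : v ∈ S.sub y z) :
    Measurable[S.I (S.reg (S.sub z y))ᶜ] (fun ω => S.σ y ω * S.σ v ω) := by
  have e : (fun ω => S.σ y ω * S.σ v ω) = fun ω => S.tau y z ω * (S.σ z ω * S.σ v ω) := by
    funext ω
    rw [S.σ_mul, S.σ_mul, S.Pi_cons _ h hv]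
  rw [e]
  refine Measurable.mul (S.measurable_tau_I h ?_) ?_
  · intro hh
    exact S.not_mem_sub z y ((S.iE_mem_reg h).1 hh).2
  · refine (S.measurable_σσ_reg h (S.self_mem_sub h) hv).mono (S.I_mono ?_) le_rfl
    refine Set.subset_compl_iff_disjoint_right.2 (S.reg_disjoint ?_)
    rw [← S.compl_sub h]
    exact disjoint_compl_right

/-- All spins are functions of one spin and of the edge labels. -/
lemma measurable_σ_of_edges (x y : V) {A : Set S.Idx} (hA : ∀ e, S.iE e ∈ A) :
    Measurable[S.Sg y ⊔ S.I A] (S.σ x) := by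
  exact S.measurable_σ_of (S.measurable_σσ_of y x fun i hi => hA _)

lemma measurable_σ_reg {p q x y : V} (h : S.G.Adj p q) (hx : x ∈ S.sub p q) (hy : y ∈ S.sub p q) :
    Measurable[S.Sg y ⊔ S.I (S.reg (S.sub p q))] (S.σ x) := by
  exact S.measurable_σ_of (S.measurable_σσ_reg h hy hx)

lemma measurable_σ_creg {y z v : V} (h : S.G.Adj y z) (hv : v ∈ S.sub y z) :
    Measurable[S.Sg y ⊔ S.I (S.reg (S.sub z y))ᶜ] (S.σ v) := by
  exact S.measurable_σ_of (S.measurable_σσ_creg h hv)

/-- General criterion for the relative record. -/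
lemma measurable_Dh_of {th : V × ℕ → ℝ} {y : V} {A : Set S.Idx}
    (h : ∀ w, 0 < th w → S.iT w ∈ A ∧ S.iN w ∈ A ∧
      Measurable[S.I A] (fun ω => S.σ y ω * S.σ w.1 ω)) : Measurable[S.I A] (S.Dh th y) := by
  refine @measurable_pi_lambda _ _ _ (S.I A) _ _ fun w => ?_
  by_cases hw : 0 < th w
  · obtain ⟨h1, h2, h3⟩ := h w hw
    have hT : Measurable[S.I A] (S.T w) := measurable_subtype_coe.comp (S.measurable_label_I h1)
    have hη : Measurable[S.I A] (S.eta w) := measurable_subtype_coe.comp (S.measurable_label_I h2)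
    have ht : Measurable[S.I A] (S.tm w) := Measurable.add measurable_const hT
    have hY : Measurable[S.I A] (S.Yh w) := Measurable.Qi' hη (Measurable.aa' hT)
    have e : (fun ω => S.Dh th y ω w) = fun ω =>
        if S.tm w ω < th w then (S.tm w ω, (S.σ y ω * S.σ w.1 ω) * S.Yh w ω) else (-1, 0) := by
      funext ω
      unfold Dh act D Y
      split_ifs <;> simp [mul_assoc]
    rw [e]
    exact Measurable.ite (measurableSet_lt ht measurable_const) (ht.prodMk (Measurable.mul h3 hY))
      measurable_const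
  · have e : (fun ω => S.Dh th y ω w) = fun _ => (-1, 0) := by
      funext ω
      unfold Dh act D
      rw [if_neg (not_lt.2 ((not_lt.1 hw).trans (S.tm_nonneg w ω)))]
      simp
    rw [e]
    exact measurable_const

lemma measurable_Dh_reg {th : V × ℕ → ℝ} {p q y : V} (h : S.G.Adj p q)
    (hth : Supp th (S.sub p q)) (hy : y ∈ S.sub p q) :
    Measurable[S.I (S.reg (S.sub p q))] (S.Dh th y) := by
  exact S.measurable_Dh_of fun w hw =>
    ⟨S.iT_mem_reg.2 (hth w hw), S.iN_mem_reg.2 (hth w hw), S.measurable_σσ_reg h hy (hth w hw)⟩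

lemma measurable_Dh_creg {th : V × ℕ → ℝ} {y z : V} (h : S.G.Adj y z)
    (hth : Supp th (S.sub y z)) : Measurable[S.I (S.reg (S.sub z y))ᶜ] (S.Dh th y) := by
  refine S.measurable_Dh_of fun w hw => ?_
  have h1 : w.1 ∉ S.sub z y := (S.not_mem_sub_iff h.symm _).2 (hth w hw)
  exact ⟨fun hh => h1 (S.iT_mem_reg.1 hh), fun hh => h1 (S.iN_mem_reg.1 hh),
    S.measurable_σσ_creg h (hth w hw)⟩

lemma measurable_Dh_single (th : V × ℕ → ℝ) (w : V × ℕ) :
    Measurable[S.I {S.iT w, S.iN w}] (S.Dh (single th w) w.1) := by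
  refine S.measurable_Dh_of fun w' hw => ?_
  have : w' = w := by
    by_contra hne
    simp [single, hne] at hw
  subst this
  refine ⟨by simp, by simp, ?_⟩
  simp only [S.σ_mul_self]
  exact measurable_const

lemma measurable_Dh_off (th : V × ℕ → ℝ) (w : V × ℕ) (y : V) :
    Measurable[S.I {S.iT w, S.iN w}ᶜ] (S.Dh (off th w) y) := by
  refine S.measurable_Dh_of fun w' hw => ?_
  have hne : w' ≠ w := by
    rintro rfl
    simp [off] at hw
  refine ⟨by simp [iT, iN, hne], by simp [iT, iN, hne], S.measurable_σσ_of _ _ fun i hi => ?_⟩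
  simp [iT, iN, iE]

lemma F_le_of_Dh {th : V × ℕ → ℝ} {y : V} {A : Set S.Idx}
    (h : Measurable[S.I A] (S.Dh th y)) : S.F th ≤ S.Sg y ⊔ S.I A := by
  refine Measurable.comap_le ?_
  have e : S.D th = fun ω => act (S.σ y ω) (S.Dh th y ω) := funext (S.D_eq_act th y)
  rw [e]
  exact measurable_act₂ ((S.measurable_σ_Sg y).mono le_sup_left le_rfl) (h.mono le_sup_right le_rfl)

lemma measurable_mh_of_Dh {th : V × ℕ → ℝ} {y : V} {A : Set S.Idx}
    (h : Measurable[S.I A] (S.Dh th y)) : Measurable[S.I A] (S.mh th y) := by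
  exact Measurable.div_const (Measurable.sub ((S.measurable_mfun th y).comp h)
    ((S.measurable_mfun th y).comp ((measurable_act (-1)).comp h))) 2

lemma measurable_nh_reg (th : V × ℕ → ℝ) {x y : V} (h : S.G.Adj x y) :
    Measurable[S.I (S.reg (S.sub x y))] (S.nh th x y) := by
  exact S.measurable_mh_of_Dh (S.measurable_Dh_reg h (supp_res _ _) (S.self_mem_sub h))

lemma measurable_Pr_reg (th : V × ℕ → ℝ) {x y v : V} (h : S.G.Adj x y) (hv : v ∈ S.sub x y) :
    Measurable[S.I (S.reg (S.sub x y))] (S.Pr th y v) := by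
  have key : ∀ i, i < S.G.dist y v → S.sub (S.geo y v i) (S.geo y v (i + 1)) ⊆ S.sub x y := by
    intro i
    induction i with
    | zero =>
      intro hi
      have a1 := S.geo_adj hi
      have a2 := S.geo_mem_sub h (S.self_mem_sub h) hv (0 + 1)
      rw [S.geo_zero] at a1 ⊢
      refine S.sub_ch_subset h (S.mem_ch.2 ⟨?_, a1⟩)
      intro hh
      rw [hh] at a2
      exact S.not_mem_sub x y a2
    | succ i ih =>
      intro hi
      refine (S.sub_ch_subset (S.geo_adj (by omega : i < S.G.dist y v))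
        (S.mem_ch.2 ⟨?_, S.geo_adj hi⟩)).trans (ih (by omega))
      intro hh
      have := S.dist_geo_geo (x := y) (y := v) (i := i) (j := i + 1 + 1) (by omega) hi
      rw [hh, S.ds] at this
      omega
  unfold Pr Pi
  refine @Finset.measurable_fun_prod _ _ _ _ _ _ (S.I (S.reg (S.sub x y))) _ _ fun i hi => ?_
  have hi' := Finset.mem_range.1 hi
  exact Measurable.rho' _ ((S.measurable_nh_reg th (S.geo_adj hi')).mono
    (S.I_mono (S.reg_mono (key i hi'))) le_rfl)

lemma F_off_le_Sg (th : V × ℕ → ℝ) (w : V × ℕ) (y : V) :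
    S.F (off th w) ≤ S.Sg y ⊔ S.I {S.iT w, S.iN w}ᶜ :=
  S.F_le_of_Dh (S.measurable_Dh_off th w y)

lemma Sp_le_Kx_iT (w : V × ℕ) : S.Sp ≤ S.Kx (S.iT w) := by
  exact iSup_le fun v => (S.measurable_σ_of_edges v S.o (fun e => by simp [iE, iT])).comap_le

lemma Sp_le_Kx_iN (w : V × ℕ) : S.Sp ≤ S.Kx (S.iN w) := by
  exact iSup_le fun v => (S.measurable_σ_of_edges v S.o (fun e => by simp [iE, iN])).comap_le

lemma F_off_le_Kx_iT (th : V × ℕ → ℝ) (w : V × ℕ) : S.F (off th w) ≤ S.Kx (S.iT w) := by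
  refine (S.F_off_le_Sg th w S.o).trans (sup_le_sup_left (S.I_mono ?_) _)
  exact Set.compl_subset_compl.2 (by simp)

lemma F_off_le_Kx_iN (th : V × ℕ → ℝ) (w : V × ℕ) : S.F (off th w) ≤ S.Kx (S.iN w) := by
  refine (S.F_off_le_Sg th w S.o).trans (sup_le_sup_left (S.I_mono ?_) _)
  exact Set.compl_subset_compl.2 (by simp)

lemma I1_le_Kx {i j : S.Idx} (h : i ≠ j) : S.I1 i ≤ S.Kx j := by
  exact (S.I1_le_I (A := {j}ᶜ) h).trans le_sup_right

lemma Flt_le_Kx_iN (w : V × ℕ) : S.Flt w ≤ S.Kx (S.iN w) := by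
  have hT : ∀ w', Measurable[S.Kx (S.iN w)] (S.T w') := fun w' =>
    (S.measurable_T_I1 w').mono (S.I1_le_Kx (by simp [iT, iN])) le_rfl
  have ht : ∀ w', Measurable[S.Kx (S.iN w)] (S.tm w') := fun w' =>
    Measurable.add measurable_const (hT w')
  refine Measurable.comap_le ((ht w).prodMk
    (@measurable_pi_lambda _ _ _ (S.Kx (S.iN w)) _ _ fun w' => ?_))
  by_cases hw : w' = w
  · subst hw
    have e : (fun ω => S.D (cst (S.tm w' ω)) ω w') = fun _ => (-1, 0) := by
      funext ω
      exact if_neg (lt_irrefl _)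
    rw [e]
    exact measurable_const
  · have hη : Measurable[S.Kx (S.iN w)] (S.eta w') :=
      (measurable_subtype_coe.comp (comap_measurable (fun ω : S.Om => ω.2 (S.iN w')))).mono
        (S.I1_le_Kx (i := S.iN w') (by simpa [iN] using hw)) le_rfl
    have hσ : Measurable[S.Kx (S.iN w)] (S.σ w'.1) :=
      (S.measurable_σ_Sg _).mono ((le_iSup S.Sg w'.1).trans (S.Sp_le_Kx_iN w)) le_rfl
    exact Measurable.ite (measurableSet_lt (ht w') (ht w))
      ((ht w').prodMk (Measurable.mul hσ (Measurable.Qi' hη (Measurable.aa' (hT w')))))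
      measurable_const

lemma indep_Kx (i : S.Idx) : Indep (S.Kx i) (S.I1 i) S.P := by
  exact S.indep_Kx' i

/-- The time of `w` is irrelevant once `w` is switched off. -/
lemma condExp_off_sup (th : V × ℕ → ℝ) (w : V × ℕ) {f : S.Om → ℝ} (hf : Bdd S.P f)
    (hfm : Measurable[S.Sp] f) :
    S.P[f | S.F (off th w) ⊔ S.I1 (S.iT w)] =ᵐ[S.P] S.P[f | S.F (off th w)] := by
  exact condExp_sup_indep (S.Kx_le _) (S.I1_le _) (S.F_off_le_Kx_iT th w) (S.indep_Kx _)
    hf.integrable (hfm.mono (S.Sp_le_Kx_iT w) le_rfl).stronglyMeasurable.aestronglyMeasurable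

/-- Product formula for a function of the time of `w` against a switched-off variable. -/
lemma integral_T_mul (w : V × ℕ) {h : unitInterval → ℝ} (hh : Measurable h) {K : ℝ}
    (hK : ∀ t, |h t| ≤ K) {ζ : S.Om → ℝ} (hζ : Bdd S.P ζ)
    (hζm : AEStronglyMeasurable[S.Kx (S.iT w)] ζ S.P) :
    ∫ ω, h (ω.2 (S.iT w)) * ζ ω ∂S.P = (∫ t, h t) * ∫ ω, ζ ω ∂S.P := by
  rw [← S.integral_label (S.iT w) hh]
  exact integral_mul_of_indep' (S.I1_le _) (S.Kx_le _) (S.indep_Kx _).symm
    (hh.comp (comap_measurable (fun ω : S.Om => ω.2 (S.iT w)))).stronglyMeasurable.aestronglyMeasurable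
    hζm

end Setup

end Crest.Agent.R160

end
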