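import Crest.Agent.R160.Post

/-! Row 160: the innovations. -/

noncomputable section

namespace Crest.Agent.R160

open Classical MeasureTheory ProbabilityTheory

universe u

namespace Setup

variable {V : Type u} (S : Setup V)

/-- Bounded variables measurable for a sub-σ-algebra. -/
lemma innov_bdd {H : MeasurableSpace S.Om} (hH : H ≤ (Prod.instMeasurableSpace : MeasurableSpace S.Om))
    {g : S.Om → ℝ} (hg : Measurable[H] g) {K : ℝ} (hK : ∀ ω, |g ω| ≤ K) : Bdd S.P g :=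
  Bdd.of_meas (hg.mono hH le_rfl) hK

/-- An everywhere bounded measurable version. -/
lemma innov_version {H : MeasurableSpace S.Om} {ζ : S.Om → ℝ} (hζ : Bdd S.P ζ)
    (hζm : AEStronglyMeasurable[H] ζ S.P) :
    ∃ (ζ' : S.Om → ℝ) (K : ℝ), Measurable[H] ζ' ∧ (∀ ω, |ζ' ω| ≤ K) ∧ ζ =ᵐ[S.P] ζ' := by
  obtain ⟨-, K, hK⟩ := hζ
  refine ⟨fun ω => clip |K| (hζm.mk ζ ω), |K|,
    Measurable.clip' _ hζm.stronglyMeasurable_mk.measurable,
    fun ω => abs_clip_le (abs_nonneg K) _, ?_⟩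
  filter_upwards [hK, hζm.ae_eq_mk] with ω h1 h2
  rw [← h2, clip_of_abs_le (h1.trans (le_abs_self K))]

lemma innov_meas_integral {γ : Type*} [MeasurableSpace γ] {G : γ × unitInterval → ℝ}
    (hG : Measurable G) : Measurable (fun p : γ => ∫ u : unitInterval, G (p, u)) :=
  (hG.stronglyMeasurable.integral_prod_right').measurable

lemma innov_abs_a (w : V × ℕ) (ω : S.Om) : |S.a w ω| ≤ 1 / 4 := by
  rw [abs_of_nonneg (S.a_nonneg w ω)]; exact S.a_le w ω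

lemma innov_abs_jh (w : V × ℕ) (ω : S.Om) {u m : ℝ} (h0 : 0 ≤ u) (h1 : u ≤ 1) (hm : |m| ≤ 1) :
    |jh u (S.a w ω) m| ≤ 1 / 2 := by
  have := abs_jh_le h0 h1 (S.a_nonneg w ω) (S.a_le w ω) hm
  have := S.a_le w ω
  linarith

lemma innov_abs_mul_le {x y K L : ℝ} (hx : |x| ≤ K) (hy : |y| ≤ L) : |x * y| ≤ K * L := by
  rw [abs_mul]
  exact mul_le_mul hx hy (abs_nonneg _) ((abs_nonneg _).trans hx)

lemma innov_abs_ind (w : V × ℕ) (s δ : ℝ) (ω : S.Om) : |S.ind w s δ ω| ≤ 1 := by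
  rcases S.ind_cases w s δ ω with h | h <;> simp [h]

/-- The key formula. `H` does not see the noise label of `w` but sees its time, `X` is
`H`-measurable, `m'` is a version of `P[σ w.1 | H]`, `f` does not depend on the noise label.
Proof: `integral_label_of_Kx` at `iN w` (with the variable `(f, σ, a, m', X)`), then
`integral_spin_Qi` pointwise, then `integral_mul_condExp`. -/
lemma key_formula (w : V × ℕ) {H : MeasurableSpace S.Om} (hH : H ≤ S.Kx (S.iN w))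
    (hT : Measurable[H] (S.T w)) {m' : S.Om → ℝ} (hm' : Measurable[H] m') (hm1 : ∀ ω, |m' ω| ≤ 1)
    {β : Type*} [MeasurableSpace β] {X : S.Om → β} (hX : Measurable[H] X) {ζ : β × ℝ → ℝ}
    (hζ : Measurable ζ) {K : ℝ} (hK : ∀ ω y, |y| ≤ 1 → |ζ (X ω, y)| ≤ K) {f : S.Om → ℝ}
    (hf : Measurable[S.Sp] f) (hf1 : ∀ ω, |f ω| ≤ 1) :
    ∫ ω, f ω * ζ (X ω, S.Y w ω) ∂S.P =
      ∫ ω, (S.P[f | H] ω * (∫ u : unitInterval, ζ (X ω, Qi u (S.a w ω * m' ω))) +
        (S.P[fun ω => f ω * S.σ w.1 ω | H] ω - S.P[f | H] ω * m' ω) *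
          ∫ u : unitInterval, ζ (X ω, Qi u (S.a w ω * m' ω)) * jh u (S.a w ω) (m' ω)) ∂S.P := by
  have hHle : H ≤ (Prod.instMeasurableSpace : MeasurableSpace S.Om) := hH.trans (S.Kx_le _)
  have ha : Measurable[H] (S.a w) := Measurable.aa' hT
  have hσS : Measurable[S.Sp] (S.σ w.1) :=
    (S.measurable_σ_Sg w.1).mono (le_iSup S.Sg w.1) le_rfl
  have hXt : Measurable[S.Kx (S.iN w)] (fun ω => (f ω, S.σ w.1 ω, S.a w ω, X ω)) :=
    (hf.mono (S.Sp_le_Kx_iN w) le_rfl).prodMk ((hσS.mono (S.Sp_le_Kx_iN w) le_rfl).prodMk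
      ((ha.mono hH le_rfl).prodMk (hX.mono hH le_rfl)))
  have hζt : Measurable (fun p : (ℝ × ℝ × ℝ × β) × unitInterval =>
      p.1.1 * ζ (p.1.2.2.2, p.1.2.1 * Qi p.2 p.1.2.2.1)) := by
    refine Measurable.mul (by fun_prop) (hζ.comp (Measurable.prodMk (by fun_prop) ?_))
    exact Measurable.mul (by fun_prop) (Measurable.Qi' (by fun_prop) (by fun_prop))
  have hsQ : ∀ ω (t : unitInterval), |S.σ w.1 ω * Qi t (S.a w ω)| ≤ 1 := fun ω t => by
    rw [abs_mul, S.abs_σ, one_mul]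
    exact abs_Qi_le t.2.1 t.2.2 (S.innov_abs_a w ω)
  have hQ : ∀ ω (t : unitInterval), |Qi t (S.a w ω * m' ω)| ≤ 1 := fun ω t =>
    abs_Qi_le t.2.1 t.2.2 (abs_mul_le_quarter (S.a_nonneg w ω) (S.a_le w ω) (hm1 ω))
  have h1 := S.integral_label_of_Kx (S.iN w) hXt hζt (K := 1 * K)
    (fun ω t => innov_abs_mul_le (hf1 ω) (hK ω _ (hsQ ω t)))
  set A : S.Om → ℝ := fun ω => ∫ u : unitInterval, ζ (X ω, Qi u (S.a w ω * m' ω)) with hA
  set B : S.Om → ℝ := fun ω =>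
    ∫ u : unitInterval, ζ (X ω, Qi u (S.a w ω * m' ω)) * jh u (S.a w ω) (m' ω) with hB
  have hAm : Measurable[H] A := by
    have h0 : Measurable (fun p : (β × ℝ × ℝ) × unitInterval =>
        ζ (p.1.1, Qi p.2 (p.1.2.1 * p.1.2.2))) :=
      hζ.comp (Measurable.prodMk (by fun_prop) (Measurable.Qi' (by fun_prop) (by fun_prop)))
    exact (innov_meas_integral h0).comp (hX.prodMk (ha.prodMk hm'))
  have hBm : Measurable[H] B := by
    have h0 : Measurable (fun p : (β × ℝ × ℝ) × unitInterval =>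
        ζ (p.1.1, Qi p.2 (p.1.2.1 * p.1.2.2)) * jh p.2 p.1.2.1 p.1.2.2) :=
      (hζ.comp (Measurable.prodMk (by fun_prop) (Measurable.Qi' (by fun_prop) (by fun_prop)))).mul
        (Measurable.jh' (by fun_prop) (by fun_prop) (by fun_prop))
    exact (innov_meas_integral h0).comp (hX.prodMk (ha.prodMk hm'))
  have hAb : Bdd S.P A := S.innov_bdd hHle hAm (K := K)
    (fun ω => abs_integral_unit_le (fun u => hK ω _ (hQ ω u)))
  have hBb : Bdd S.P B := S.innov_bdd hHle hBm (K := K * (1 / 2))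
    (fun ω => abs_integral_unit_le (fun u => innov_abs_mul_le (hK ω _ (hQ ω u))
      (S.innov_abs_jh w ω u.2.1 u.2.2 (hm1 ω))))
  have hmb : Bdd S.P m' := S.innov_bdd hHle hm' hm1
  have hfb : Bdd S.P f := S.innov_bdd S.Sp_le hf hf1
  have hfσ : Bdd S.P (fun ω => f ω * S.σ w.1 ω) := hfb.mul (S.bdd_σ _)
  have hpt : ∀ ω, (∫ t : unitInterval, f ω * ζ (X ω, S.σ w.1 ω * Qi t (S.a w ω))) =
      A ω * f ω + B ω * (f ω * S.σ w.1 ω) - (m' ω * B ω) * f ω := by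
    intro ω
    have h2 := integral_spin_Qi (S.σ_cases w.1 ω) (S.a_nonneg w ω) (S.a_le w ω) (hm1 ω)
      (z := fun y => ζ (X ω, clip 1 y))
      (hζ.comp (measurable_const.prodMk (Measurable.clip' 1 measurable_id))) (K := K)
      (fun y => hK ω _ (abs_clip_le zero_le_one y))
    simp only [clip_of_abs_le (hsQ ω _), clip_of_abs_le (hQ ω _)] at h2
    rw [integral_const_mul, h2]
    simp only [hA, hB]
    ring
  have h3 : ∫ ω, f ω * ζ (X ω, S.Y w ω) ∂S.P =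
      ∫ ω, (A ω * f ω + B ω * (f ω * S.σ w.1 ω) - (m' ω * B ω) * f ω) ∂S.P := by
    refine Eq.trans h1 ?_
    exact integral_congr_ae (Filter.Eventually.of_forall hpt)
  have e1 := integral_mul_condExp hHle hfb hAb hAm.stronglyMeasurable.aestronglyMeasurable
  have e2 := integral_mul_condExp hHle hfσ hBb hBm.stronglyMeasurable.aestronglyMeasurable
  have e3 := integral_mul_condExp hHle hfb (hmb.mul hBb)
    (hm'.mul hBm).stronglyMeasurable.aestronglyMeasurable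
  have c1 := hfb.condExp H hHle
  have c2 := hfσ.condExp H hHle
  rw [h3, integral_sub ((hAb.mul hfb).add (hBb.mul hfσ)).integrable
    ((hmb.mul hBb).mul hfb).integrable, integral_add (hAb.mul hfb).integrable
    (hBb.mul hfσ).integrable, ← e1, ← e2, ← e3, ← integral_add (hAb.mul c1).integrable
    (hBb.mul c2).integrable, ← integral_sub ((hAb.mul c1).add (hBb.mul c2)).integrable
    ((hmb.mul hBb).mul c1).integrable]
  refine integral_congr_ae (Filter.Eventually.of_forall fun ω => ?_)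
  simp only [hA, hB]
  ring

/-- The innovation is uniform and independent of any `H` that predicts the spin as `Flt w` does. -/
lemma integral_U (w : V × ℕ) {H : MeasurableSpace S.Om} (hH : H ≤ S.Kx (S.iN w))
    (hF : S.Flt w ≤ H) (hM : S.M w =ᵐ[S.P] S.P[S.σ w.1 | H])
    {β : Type*} [MeasurableSpace β] {X : S.Om → β} (hX : Measurable[H] X) {ζ : β × ℝ → ℝ}
    (hζ : Measurable ζ) {K : ℝ} (hK : ∀ ω u, 0 ≤ u → u ≤ 1 → |ζ (X ω, u)| ≤ K) :
    ∫ ω, ζ (X ω, S.U w ω) ∂S.P = ∫ ω, (∫ u : unitInterval, ζ (X ω, u)) ∂S.P := by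
  have hHle : H ≤ (Prod.instMeasurableSpace : MeasurableSpace S.Om) := hH.trans (S.Kx_le _)
  have hMm : Measurable[H] (S.M w) := (S.measurable_M_Flt w).mono hF le_rfl
  have ham : Measurable[H] (S.a w) := (S.measurable_a_Flt w).mono hF le_rfl
  have hζ' : Measurable (fun p : (β × ℝ) × ℝ => ζ (p.1.1, Fc p.2 p.1.2)) :=
    hζ.comp (Measurable.prodMk (by fun_prop) (Measurable.Fc' (by fun_prop) (by fun_prop)))
  have h := S.key_formula w hH ((S.measurable_T_Flt w).mono hF le_rfl) hMm (S.abs_M_le w)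
    (hX.prodMk (ham.mul hMm)) hζ' (K := K)
    (fun ω y hy => hK ω _ (Fc_nonneg hy (S.abs_aM_le w ω)) (Fc_le_one hy (S.abs_aM_le w ω)))
    (f := fun _ => 1) measurable_const (fun _ => by simp)
  simp only [one_mul] at h
  refine Eq.trans h ?_
  refine integral_congr_ae ?_
  filter_upwards [hM] with ω h1
  rw [condExp_const hHle]
  have h2 : ∀ u : unitInterval, Fc (Qi u (S.a w ω * S.M w ω)) (S.a w ω * S.M w ω) = u :=
    fun u => Fc_Qi u.2.1 u.2.2 (S.abs_aM_le w ω)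
  have h3 : (S.P[fun ω => S.σ w.1 ω | H]) ω = S.M w ω := h1.symm
  simp only [Pi.mul_apply, h2, h3]
  ring

/-- K2. -/
lemma integral_mul_jh (w : V × ℕ) {Z m₁ : S.Om → ℝ} (hZ : Measurable[S.Flt w] Z) {K : ℝ}
    (hK : ∀ ω, |Z ω| ≤ K) (hm : Measurable[S.Flt w] m₁) (hm1 : ∀ ω, |m₁ ω| ≤ 1) :
    ∫ ω, Z ω * jh (S.U w ω) (S.a w ω) (m₁ ω) ∂S.P = 0 := by
  have hζ : Measurable (fun p : (ℝ × ℝ × ℝ) × ℝ => p.1.1 * jh p.2 p.1.2.1 p.1.2.2) :=
    Measurable.mul (by fun_prop) (Measurable.jh' (by fun_prop) (by fun_prop) (by fun_prop))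
  have h := S.integral_U w (S.Flt_le_Kx_iN w) le_rfl (S.M_ae_eq w)
    (hZ.prodMk ((S.measurable_a_Flt w).prodMk hm)) hζ (K := K * (1 / 2))
    (fun ω u h0 h1 => innov_abs_mul_le (hK ω) (S.innov_abs_jh w ω h0 h1 (hm1 ω)))
  refine Eq.trans h ?_
  have h2 : ∀ ω, (∫ u : unitInterval, Z ω * jh u (S.a w ω) (m₁ ω)) = 0 := fun ω => by
    rw [integral_const_mul, integral_jh (S.a_nonneg w ω) (S.a_le w ω) (hm1 ω), mul_zero]
  simp only [h2, integral_zero]

/-- K3. -/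
lemma integral_mul_jh_sq (w : V × ℕ) {Z m₁ : S.Om → ℝ} (hZ : Measurable[S.Flt w] Z) {K : ℝ}
    (hK : ∀ ω, |Z ω| ≤ K) (hm : Measurable[S.Flt w] m₁) (hm1 : ∀ ω, |m₁ ω| ≤ 1) :
    ∫ ω, Z ω * jh (S.U w ω) (S.a w ω) (m₁ ω) ^ 2 ∂S.P =
      ∫ ω, Z ω * kap (S.a w ω) (m₁ ω) (m₁ ω) ∂S.P := by
  have hζ : Measurable (fun p : (ℝ × ℝ × ℝ) × ℝ => p.1.1 * jh p.2 p.1.2.1 p.1.2.2 ^ 2) :=
    Measurable.mul (by fun_prop)
      ((Measurable.jh' (by fun_prop) (by fun_prop) (by fun_prop)).pow_const 2)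
  have h := S.integral_U w (S.Flt_le_Kx_iN w) le_rfl (S.M_ae_eq w)
    (hZ.prodMk ((S.measurable_a_Flt w).prodMk hm)) hζ (K := K * (1 / 2 * (1 / 2)))
    (fun ω u h0 h1 => innov_abs_mul_le (hK ω) (by
      rw [sq]
      exact innov_abs_mul_le (S.innov_abs_jh w ω h0 h1 (hm1 ω)) (S.innov_abs_jh w ω h0 h1 (hm1 ω))))
  refine Eq.trans h ?_
  refine integral_congr_ae (Filter.Eventually.of_forall fun ω => ?_)
  simp only [integral_const_mul, kap, sq]

/-- Posterior covariance just before `w` is revealed. -/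
def Clt (w : V × ℕ) (x : V) (ω : S.Om) : ℝ :=
  cE S.P (S.Flt w) (fun ω => S.σ x ω * S.σ w.1 ω) ω - cE S.P (S.Flt w) (S.σ x) ω * S.M w ω

/-- K4. -/
lemma integral_σ_mul_jh (w : V × ℕ) (x : V) {Z m₁ : S.Om → ℝ} (hZ : Measurable[S.Flt w] Z)
    {K : ℝ} (hK : ∀ ω, |Z ω| ≤ K) (hm : Measurable[S.Flt w] m₁) (hm1 : ∀ ω, |m₁ ω| ≤ 1) :
    ∫ ω, S.σ x ω * (Z ω * jh (S.U w ω) (S.a w ω) (m₁ ω)) ∂S.P =
      ∫ ω, Z ω * S.Clt w x ω * kap (S.a w ω) (m₁ ω) (S.M w ω) ∂S.P := by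
  have hζ : Measurable (fun p : (ℝ × ℝ × ℝ × ℝ) × ℝ =>
      p.1.1 * jh (Fc p.2 (p.1.2.1 * p.1.2.2.2)) p.1.2.1 p.1.2.2.1) :=
    Measurable.mul (by fun_prop)
      (Measurable.jh' (Measurable.Fc' (by fun_prop) (by fun_prop)) (by fun_prop) (by fun_prop))
  have hσS : Measurable[S.Sp] (S.σ x) := (S.measurable_σ_Sg x).mono (le_iSup S.Sg x) le_rfl
  have h := S.key_formula w (S.Flt_le_Kx_iN w) (S.measurable_T_Flt w) (S.measurable_M_Flt w)
    (S.abs_M_le w)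
    (hZ.prodMk ((S.measurable_a_Flt w).prodMk (hm.prodMk (S.measurable_M_Flt w)))) hζ
    (K := K * (1 / 2))
    (fun ω y hy => innov_abs_mul_le (hK ω) (S.innov_abs_jh w ω (Fc_nonneg hy (S.abs_aM_le w ω))
      (Fc_le_one hy (S.abs_aM_le w ω)) (hm1 ω)))
    hσS (fun ω => (S.abs_σ x ω).le)
  refine Eq.trans h ?_
  refine integral_congr_ae ?_
  have e1 := cE_ae_eq (P := S.P) (S.Flt w) (f := fun ω => S.σ x ω * S.σ w.1 ω)
    (Filter.Eventually.of_forall fun ω => by rw [abs_mul, S.abs_σ, S.abs_σ, one_mul])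
  have e2 := cE_ae_eq (P := S.P) (S.Flt w) (f := S.σ x)
    (Filter.Eventually.of_forall fun ω => (S.abs_σ x ω).le)
  filter_upwards [e1, e2] with ω h1 h2
  have h3 : ∀ u : unitInterval, Fc (Qi u (S.a w ω * S.M w ω)) (S.a w ω * S.M w ω) = u :=
    fun u => Fc_Qi u.2.1 u.2.2 (S.abs_aM_le w ω)
  simp only [h3, mul_assoc, integral_const_mul,
    integral_jh (S.a_nonneg w ω) (S.a_le w ω) (hm1 ω), Clt, h1, h2, kap]
  ring

/-- K6 (`H = F (off th w) ⊔ I1 (iT w)`, `condExp_off_sup`). -/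
lemma integral_mul_jj_sq (th : V × ℕ → ℝ) (w : V × ℕ) {Z : S.Om → ℝ}
    (hZ : Measurable[S.F (off th w) ⊔ S.I1 (S.iT w)] Z) {K : ℝ} (hK : ∀ ω, |Z ω| ≤ K) :
    ∫ ω, Z ω * jj (S.Y w ω) (S.a w ω) (S.m (off th w) w.1 ω) ^ 2 ∂S.P =
      ∫ ω, Z ω * kap (S.a w ω) (S.m (off th w) w.1 ω) (S.m (off th w) w.1 ω) ∂S.P := by
  have hH : S.F (off th w) ⊔ S.I1 (S.iT w) ≤ S.Kx (S.iN w) :=
    sup_le (S.F_off_le_Kx_iN th w) (S.I1_le_Kx (by simp [iT, iN]))
  have hHle : S.F (off th w) ⊔ S.I1 (S.iT w) ≤ (Prod.instMeasurableSpace : MeasurableSpace S.Om) :=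
    hH.trans (S.Kx_le _)
  have hmm : Measurable[S.F (off th w) ⊔ S.I1 (S.iT w)] (S.m (off th w) w.1) :=
    (S.measurable_m_F _ _).mono le_sup_left le_rfl
  have ham : Measurable[S.F (off th w) ⊔ S.I1 (S.iT w)] (S.a w) :=
    (S.measurable_a_I1 w).mono le_sup_right le_rfl
  have hζ : Measurable (fun p : (ℝ × ℝ × ℝ) × ℝ => p.1.1 * jj p.2 p.1.2.1 p.1.2.2 ^ 2) :=
    Measurable.mul (by fun_prop)
      ((Measurable.jj' (by fun_prop) (by fun_prop) (by fun_prop)).pow_const 2)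
  have hσS : Measurable[S.Sp] (S.σ w.1) :=
    (S.measurable_σ_Sg w.1).mono (le_iSup S.Sg w.1) le_rfl
  have hjj : ∀ ω y, |y| ≤ 1 → |jj y (S.a w ω) (S.m (off th w) w.1 ω)| ≤ 1 / 2 := fun ω y hy => by
    have := abs_jj_le hy (S.a_nonneg w ω) (S.a_le w ω) (S.abs_m_le (off th w) w.1 ω)
    have := S.a_le w ω
    linarith
  have h := S.key_formula w hH ((S.measurable_T_I1 w).mono le_sup_right le_rfl) hmm
    (S.abs_m_le _ _) (hZ.prodMk (ham.prodMk hmm)) hζ (K := K * (1 / 2 * (1 / 2)))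
    (fun ω y hy => innov_abs_mul_le (hK ω) (by
      rw [sq]
      exact innov_abs_mul_le (hjj ω y hy) (hjj ω y hy)))
    (f := fun _ => 1) measurable_const (fun _ => by simp)
  simp only [one_mul] at h
  refine Eq.trans h ?_
  refine integral_congr_ae ?_
  filter_upwards [S.condExp_off_sup th w (S.bdd_σ w.1) hσS, S.m_ae_eq (off th w) w.1] with ω h1 h2
  rw [condExp_const hHle]
  have h3 : (S.P[fun ω => S.σ w.1 ω | S.F (off th w) ⊔ S.I1 (S.iT w)]) ω =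
      S.m (off th w) w.1 ω := h1.trans h2.symm
  simp only [h3, integral_const_mul, kap, jh, sq]
  ring

/-! ### The jumps `LL` -/

section LL

variable {s δ : ℝ} {c m₁ : S.Om → ℝ}

/-- The part of a variable seen when `w` is revealed after `s`. -/
def innovLoc (w : V × ℕ) (s : ℝ) (g : S.Om → ℝ) (ω : S.Om) : ℝ :=
  if ω ∈ {ω | s ≤ S.tm w ω} then g ω else 0

lemma innov_measurable_loc (w : V × ℕ) {g : S.Om → ℝ} (hg : Measurable[S.F (cst s)] g) :
    Measurable[S.Flt w] (S.innovLoc w s g) :=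
  (S.loc_F_Flt w s).measurable_ite hg 0

lemma innov_abs_loc (w : V × ℕ) {g : S.Om → ℝ} {K : ℝ} (hg : ∀ ω, |g ω| ≤ K) (ω : S.Om) :
    |S.innovLoc w s g ω| ≤ K := by
  unfold innovLoc
  split_ifs
  · exact hg ω
  · simpa using (abs_nonneg _).trans (hg ω)

lemma innov_loc_cases (w : V × ℕ) (s δ : ℝ) (ω : S.Om) :
    S.ind w s δ ω = 0 ∨ (S.ind w s δ ω = 1 ∧ ∀ g : S.Om → ℝ, S.innovLoc w s g ω = g ω) := by
  unfold ind innovLoc
  by_cases h : s ≤ S.tm w ω ∧ S.tm w ω < s + δ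
  · right
    exact ⟨if_pos h, fun g => if_pos h.1⟩
  · left
    exact if_neg h

lemma innov_LL_eq (w : V × ℕ) (ω : S.Om) : S.LL w s δ c m₁ ω =
    (S.ind w s δ ω * S.innovLoc w s c ω) * jh (S.U w ω) (S.a w ω) (S.innovLoc w s m₁ ω) := by
  unfold LL
  rcases S.innov_loc_cases w s δ ω with h | ⟨h, h'⟩
  · simp [h]
  · rw [h', h']

lemma abs_LL_le (w : V × ℕ) (hc : ∀ ω, |c ω| ≤ 2) (hm : ∀ ω, |m₁ ω| ≤ 1) (ω : S.Om) :
    |S.LL w s δ c m₁ ω| ≤ 1 := by
  have h := innov_abs_mul_le (innov_abs_mul_le (S.innov_abs_ind w s δ ω) (hc ω))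
    (S.innov_abs_jh w ω (S.U_nonneg w ω) (S.U_le_one w ω) (hm ω))
  unfold LL
  linarith

lemma measurable_LL_Fle (w : V × ℕ) (hc : Measurable[S.F (cst s)] c)
    (hm : Measurable[S.F (cst s)] m₁) : Measurable[S.Fle w] (S.LL w s δ c m₁) := by
  have hle : S.Flt w ≤ S.Fle w := le_sup_left
  have e : S.LL w s δ c m₁ = fun ω => (S.ind w s δ ω * S.innovLoc w s c ω) *
      jh (S.U w ω) (S.a w ω) (S.innovLoc w s m₁ ω) := funext (S.innov_LL_eq w)
  rw [e]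
  exact (((S.measurable_ind_Flt w s δ).mono hle le_rfl).mul
    ((S.innov_measurable_loc w hc).mono hle le_rfl)).mul
    (Measurable.jh' (S.measurable_U_Fle w) ((S.measurable_a_Flt w).mono hle le_rfl)
      ((S.innov_measurable_loc w hm).mono hle le_rfl))

lemma measurable_LL_F (w : V × ℕ) (hc : Measurable[S.F (cst s)] c)
    (hm : Measurable[S.F (cst s)] m₁) : Measurable[S.F (cst (s + δ))] (S.LL w s δ c m₁) := by
  refine (S.loc_Fle_F w (s + δ)).measurable_of_zero (S.measurable_LL_Fle w hc hm) ?_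
  intro ω hω
  have : S.ind w s δ ω = 0 := if_neg (fun h => hω h.2)
  simp [LL, this]

lemma measurable_LL_Gs (w : V × ℕ) (hδ : 0 ≤ δ) (hc : Measurable[S.Gs s] c)
    (hm : Measurable[S.Gs s] m₁) : Measurable[S.Gs (s + δ)] (S.LL w s δ c m₁) := by
  have hle : S.Gs s ≤ S.Gs (s + δ) := S.Gs_mono (by linarith)
  have hL := S.loc_U_Gs w (s + δ)
  have hU : Measurable[S.I1 (S.iT w) ⊔ MeasurableSpace.comap (S.U w) inferInstance] (S.U w) :=
    (Measurable.of_comap_le le_rfl).mono le_sup_right le_rfl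
  have h1 := hL.measurable_ite ((S.measurable_ind_I1 w s δ).mono le_sup_left le_rfl) (0 : ℝ)
  have h2 := hL.measurable_ite ((S.measurable_a_I1 w).mono le_sup_left le_rfl) (0 : ℝ)
  have h3 := hL.measurable_ite hU (0 : ℝ)
  have h4 := (h1.mul (hc.mono hle le_rfl)).mul (Measurable.jh' h3 h2 (hm.mono hle le_rfl))
  convert h4 using 1
  funext ω
  unfold LL
  by_cases h : ω ∈ {ω | S.tm w ω < s + δ}
  · simp only [Pi.mul_apply, if_pos h]
  · have : S.ind w s δ ω = 0 := if_neg (fun h' => h h'.2)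
    simp only [Pi.mul_apply, if_neg h, this, zero_mul]

lemma bdd_LL (w : V × ℕ) (hc : Measurable[S.F (cst s)] c) (hc2 : ∀ ω, |c ω| ≤ 2)
    (hm : Measurable[S.F (cst s)] m₁) (hm1 : ∀ ω, |m₁ ω| ≤ 1) : Bdd S.P (S.LL w s δ c m₁) := by
  exact S.innov_bdd (S.Fle_le w) (S.measurable_LL_Fle w hc hm) (S.abs_LL_le w hc2 hm1)

lemma innov_integral_Z_mul_LL (w : V × ℕ) (hc : Measurable[S.F (cst s)] c) (hc2 : ∀ ω, |c ω| ≤ 2)
    (hm : Measurable[S.F (cst s)] m₁) (hm1 : ∀ ω, |m₁ ω| ≤ 1) {Z : S.Om → ℝ}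
    (hZ : Measurable[S.Flt w] Z) {K : ℝ} (hK : ∀ ω, |Z ω| ≤ K) :
    ∫ ω, Z ω * S.LL w s δ c m₁ ω ∂S.P = 0 := by
  have h := S.integral_mul_jh w
    (hZ.mul ((S.measurable_ind_Flt w s δ).mul (S.innov_measurable_loc w hc))) (K := K * (1 * 2))
    (fun ω => innov_abs_mul_le (hK ω)
      (innov_abs_mul_le (S.innov_abs_ind w s δ ω) (S.innov_abs_loc w hc2 ω)))
    (S.innov_measurable_loc w hm) (S.innov_abs_loc w hm1)
  refine Eq.trans ?_ h
  refine integral_congr_ae (Filter.Eventually.of_forall fun ω => ?_)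
  simp only [Pi.mul_apply, S.innov_LL_eq w ω]
  ring

/-- Orthogonality to the past. -/
lemma integral_mul_LL (w : V × ℕ) (hc : Measurable[S.F (cst s)] c) (hc2 : ∀ ω, |c ω| ≤ 2)
    (hm : Measurable[S.F (cst s)] m₁) (hm1 : ∀ ω, |m₁ ω| ≤ 1) {ζ : S.Om → ℝ} (hζ : Bdd S.P ζ)
    (hζm : AEStronglyMeasurable[S.F (cst s)] ζ S.P) :
    ∫ ω, ζ ω * S.LL w s δ c m₁ ω ∂S.P = 0 := by
  obtain ⟨ζ', K, h1, h2, h3⟩ := S.innov_version hζ hζm
  have h := S.innov_integral_Z_mul_LL (δ := δ) w hc hc2 hm hm1 (S.innov_measurable_loc w h1)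
    (S.innov_abs_loc w h2)
  refine Eq.trans ?_ h
  refine integral_congr_ae ?_
  filter_upwards [h3] with ω hω
  rw [hω]
  rcases S.innov_loc_cases w s δ ω with h | ⟨-, h'⟩
  · simp [LL, h]
  · rw [h']

/-- Orthogonality of the jumps of distinct indices (split along `tm w < tm w'`, `ae_tm_ne`,
`loc_Fle_Flt`). -/
lemma integral_LL_mul_LL {w w' : V × ℕ} (hw : w ≠ w') (hc : Measurable[S.F (cst s)] c)
    (hc2 : ∀ ω, |c ω| ≤ 2) (hm : Measurable[S.F (cst s)] m₁) (hm1 : ∀ ω, |m₁ ω| ≤ 1)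
    {c' m₁' : S.Om → ℝ} (hc' : Measurable[S.F (cst s)] c') (hc2' : ∀ ω, |c' ω| ≤ 2)
    (hm' : Measurable[S.F (cst s)] m₁') (hm1' : ∀ ω, |m₁' ω| ≤ 1) :
    ∫ ω, S.LL w s δ c m₁ ω * S.LL w' s δ c' m₁' ω ∂S.P = 0 := by
  have hZ1 := (S.loc_Fle_Flt w w').measurable_ite (S.measurable_LL_Fle (δ := δ) w' hc' hm') (0 : ℝ)
  have hZ2 := (S.loc_Fle_Flt w' w).measurable_ite (S.measurable_LL_Fle (δ := δ) w hc hm) (0 : ℝ)
  have hb1 : ∀ ω, |if ω ∈ {ω | S.tm w' ω < S.tm w ω} then S.LL w' s δ c' m₁' ω else 0| ≤ 1 := by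
    intro ω
    split_ifs
    · exact S.abs_LL_le w' hc2' hm1' ω
    · simp
  have hb2 : ∀ ω, |if ω ∈ {ω | S.tm w ω < S.tm w' ω} then S.LL w s δ c m₁ ω else 0| ≤ 1 := by
    intro ω
    split_ifs
    · exact S.abs_LL_le w hc2 hm1 ω
    · simp
  have e1 := S.innov_integral_Z_mul_LL (δ := δ) w hc hc2 hm hm1 hZ1 hb1
  have e2 := S.innov_integral_Z_mul_LL (δ := δ) w' hc' hc2' hm' hm1' hZ2 hb2
  have i1 := ((S.innov_bdd (S.Flt_le w) hZ1 hb1).mul (S.bdd_LL (δ := δ) w hc hc2 hm hm1)).integrable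
  have i2 := ((S.innov_bdd (S.Flt_le w') hZ2 hb2).mul
    (S.bdd_LL (δ := δ) w' hc' hc2' hm' hm1')).integrable
  have e3 := integral_add i1 i2
  rw [e1, e2, add_zero] at e3
  refine Eq.trans ?_ e3
  refine integral_congr_ae ?_
  filter_upwards [S.ae_tm_ne hw] with ω hω
  rcases lt_or_gt_of_ne hω with h | h
  · rw [if_neg (not_lt.mpr h.le), if_pos h]
    ring
  · rw [if_pos h, if_neg (not_lt.mpr h.le)]
    ring

lemma integral_LL_sq (w : V × ℕ) (hc : Measurable[S.F (cst s)] c) (hc2 : ∀ ω, |c ω| ≤ 2)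
    (hm : Measurable[S.F (cst s)] m₁) (hm1 : ∀ ω, |m₁ ω| ≤ 1) :
    ∫ ω, S.LL w s δ c m₁ ω ^ 2 ∂S.P =
      ∫ ω, S.ind w s δ ω * c ω ^ 2 * kap (S.a w ω) (m₁ ω) (m₁ ω) ∂S.P := by
  have h := S.integral_mul_jh_sq w
    (((S.measurable_ind_Flt w s δ).mul (S.innov_measurable_loc w hc)).pow_const 2)
    (K := (1 * 2) * (1 * 2))
    (fun ω => by
      rw [sq]
      exact innov_abs_mul_le
        (innov_abs_mul_le (S.innov_abs_ind w s δ ω) (S.innov_abs_loc w hc2 ω))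
        (innov_abs_mul_le (S.innov_abs_ind w s δ ω) (S.innov_abs_loc w hc2 ω)))
    (S.innov_measurable_loc w hm) (S.innov_abs_loc w hm1)
  refine Eq.trans ?_ (h.trans ?_)
  · refine integral_congr_ae (Filter.Eventually.of_forall fun ω => ?_)
    simp only [Pi.mul_apply, S.innov_LL_eq w ω]
    ring
  · refine integral_congr_ae (Filter.Eventually.of_forall fun ω => ?_)
    rcases S.innov_loc_cases w s δ ω with h | ⟨h, h'⟩
    · simp [h]
    · simp only [Pi.mul_apply, h, h']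
      ring

lemma integral_σ_mul_LL (w : V × ℕ) (x : V) (hc : Measurable[S.F (cst s)] c)
    (hc2 : ∀ ω, |c ω| ≤ 2) (hm : Measurable[S.F (cst s)] m₁) (hm1 : ∀ ω, |m₁ ω| ≤ 1) :
    ∫ ω, S.σ x ω * S.LL w s δ c m₁ ω ∂S.P =
      ∫ ω, S.ind w s δ ω * c ω * S.Clt w x ω * kap (S.a w ω) (m₁ ω) (S.M w ω) ∂S.P := by
  have h := S.integral_σ_mul_jh w x
    ((S.measurable_ind_Flt w s δ).mul (S.innov_measurable_loc w hc)) (K := 1 * 2)
    (fun ω => innov_abs_mul_le (S.innov_abs_ind w s δ ω) (S.innov_abs_loc w hc2 ω))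
    (S.innov_measurable_loc w hm) (S.innov_abs_loc w hm1)
  refine Eq.trans ?_ (h.trans ?_)
  · refine integral_congr_ae (Filter.Eventually.of_forall fun ω => ?_)
    simp only [Pi.mul_apply, S.innov_LL_eq w ω]
  · refine integral_congr_ae (Filter.Eventually.of_forall fun ω => ?_)
    rcases S.innov_loc_cases w s δ ω with h | ⟨h, h'⟩
    · simp [h]
    · simp only [Pi.mul_apply, h, h']

end LL

lemma innov_window_mul (w : V × ℕ) (s δ : ℝ) {ζ : S.Om → ℝ}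
    (hζ : Bdd S.P ζ) (hζm : AEStronglyMeasurable[S.Kx (S.iT w)] ζ S.P) :
    ∫ ω, S.ind w s δ ω * S.a w ω ^ 2 * ζ ω ∂S.P =
      (∫ t : unitInterval, (if s ≤ w.2 + (t : ℝ) ∧ w.2 + (t : ℝ) < s + δ then aa t ^ 2 else 0)) *
        ∫ ω, ζ ω ∂S.P := by
  have hm : Measurable (fun t : unitInterval =>
      if s ≤ w.2 + (t : ℝ) ∧ w.2 + (t : ℝ) < s + δ then aa t ^ 2 else 0) := by
    refine Measurable.ite ?_ ((Measurable.aa' measurable_subtype_coe).pow_const 2) measurable_const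
    have h1 : MeasurableSet {t : unitInterval | s ≤ w.2 + (t : ℝ)} :=
      measurableSet_le (by fun_prop) (by fun_prop)
    have h2 : MeasurableSet {t : unitInterval | w.2 + (t : ℝ) < s + δ} :=
      measurableSet_lt (by fun_prop) (by fun_prop)
    exact h1.inter h2
  have h := S.integral_T_mul w hm (K := 1) (fun t => by
    split_ifs
    · have h1 := aa_nonneg t.2.1 t.2.2
      have h2 := aa_le (t : ℝ)
      rw [abs_of_nonneg (sq_nonneg _)]
      nlinarith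
    · simp) hζ hζm
  refine Eq.trans ?_ h
  refine integral_congr_ae (Filter.Eventually.of_forall fun ω => ?_)
  simp only [ind, tm, a, T]
  split_ifs <;> simp

/-- Decoupling. On `{s ≤ tm w}`, `ζ = ζ°` with `ζ°` a function of `D (off (cst s) w)` (`D_eq_off`),
independent of `T w` (`integral_T_mul`); then `integral_window_aa_le`. -/
lemma integral_ind_a_sq_le (w : V × ℕ) {s δ : ℝ} (hδ : 0 ≤ δ) (hs : (w.2 : ℝ) ≤ s)
    (hsδ : s + δ ≤ w.2 + 1) {ζ : S.Om → ℝ} (hζ : Bdd S.P ζ)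
    (hζm : AEStronglyMeasurable[S.F (cst s)] ζ S.P) (hζ0 : ∀ᵐ ω ∂S.P, 0 ≤ ζ ω) :
    ∫ ω, S.ind w s δ ω * S.a w ω ^ 2 * ζ ω ∂S.P ≤ δ * min 1 (s + δ) ^ 2 * ∫ ω, ζ ω ∂S.P := by
  obtain ⟨ζ', K, h1, h2, h3⟩ := S.innov_version hζ hζm
  obtain ⟨g, hg, hge⟩ := Measurable.exists_eq_measurable_comp (f := S.D (cst s)) h1
  have hK : 0 ≤ |K| := abs_nonneg K
  set g' : Data V → ℝ := fun d => |clip |K| (g d)| with hg'
  have hg'm : Measurable g' := (Measurable.clip' _ hg).abs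
  have hg'0 : ∀ d, 0 ≤ g' d := fun d => abs_nonneg _
  have hg'K : ∀ d, |g' d| ≤ |K| := fun d => by
    rw [hg', abs_abs]; exact abs_clip_le hK _
  have hζg : ζ =ᵐ[S.P] fun ω => g' (S.D (cst s) ω) := by
    filter_upwards [h3, hζ0] with ω e1 e2
    have e3 : ζ' ω = g (S.D (cst s) ω) := congrFun hge ω
    simp only [hg']
    rw [← e3, clip_of_abs_le ((h2 ω).trans (le_abs_self K)), ← e1, abs_of_nonneg e2]
  set z : S.Om → ℝ := fun ω => g' (S.D (off (cst s) w) ω) with hz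
  have hzF : Measurable[S.F (off (cst s) w)] z := hg'm.comp (Measurable.of_comap_le le_rfl)
  have hzK : Measurable[S.Kx (S.iT w)] z := hzF.mono (S.F_off_le_Kx_iT _ w) le_rfl
  have hzb : Bdd S.P z := S.innov_bdd (S.F_le _) hzF (fun ω => hg'K _)
  have hz0 : 0 ≤ ∫ ω, z ω ∂S.P := integral_nonneg fun ω => hg'0 _
  have e1 : ∫ ω, S.ind w s δ ω * S.a w ω ^ 2 * ζ ω ∂S.P =
      ∫ ω, S.ind w s δ ω * S.a w ω ^ 2 * z ω ∂S.P := by
    refine integral_congr_ae ?_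
    filter_upwards [hζg] with ω hω
    by_cases h : s ≤ S.tm w ω
    · rw [hω, S.D_eq_off (th := cst s) (w := w) h]
    · have : S.ind w s δ ω = 0 := if_neg (fun h' => h h'.1)
      simp [this]
  have hm2 : Measurable (fun t : unitInterval => if s ≤ w.2 + (t : ℝ) then (1 : ℝ) else 0) :=
    Measurable.ite (measurableSet_le (by fun_prop) (by fun_prop)) measurable_const measurable_const
  have hb2 : ∀ t : unitInterval, |if s ≤ w.2 + (t : ℝ) then (1 : ℝ) else 0| ≤ 1 := fun t => by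
    split_ifs <;> simp
  have e2 := S.integral_T_mul w hm2 hb2 hzb hzK.stronglyMeasurable.aestronglyMeasurable
  have hb3 : Bdd S.P (fun ω : S.Om => if s ≤ w.2 + ((ω.2 (S.iT w) : unitInterval) : ℝ) then (1 : ℝ) else 0) :=
    Bdd.of_meas (hm2.comp (S.mp_label (S.iT w)).measurable) (fun ω => hb2 _)
  have e3 : (∫ t : unitInterval, (if s ≤ w.2 + (t : ℝ) then (1 : ℝ) else 0)) * ∫ ω, z ω ∂S.P ≤
      ∫ ω, ζ ω ∂S.P := by
    rw [← e2]
    refine integral_mono_ae (hb3.mul hzb).integrable hζ.integrable ?_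
    filter_upwards [hζg, hζ0] with ω hω h0
    split_ifs with h
    · rw [one_mul, hω, S.D_eq_off (th := cst s) (w := w) h]
    · simpa using h0
  rw [e1, S.innov_window_mul w s δ hzb hzK.stronglyMeasurable.aestronglyMeasurable]
  have e4 := integral_window_aa_le hδ hs hsδ
  have e5 : 0 ≤ δ * min 1 (s + δ) ^ 2 := by positivity
  calc _ ≤ (δ * min 1 (s + δ) ^ 2 *
        ∫ t : unitInterval, (if s ≤ w.2 + (t : ℝ) then (1 : ℝ) else 0)) * ∫ ω, z ω ∂S.P :=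
        mul_le_mul_of_nonneg_right e4 hz0
    _ = δ * min 1 (s + δ) ^ 2 * ((∫ t : unitInterval, (if s ≤ w.2 + (t : ℝ) then (1 : ℝ) else 0)) *
        ∫ ω, z ω ∂S.P) := by ring
    _ ≤ _ := mul_le_mul_of_nonneg_left e3 e5

/-- Decoupling for a variable that does not depend on the time of `w`. -/
lemma integral_ind_a_sq_le' (w : V × ℕ) (s : ℝ) {δ : ℝ} (hδ : 0 ≤ δ) {ζ : S.Om → ℝ}
    (hζ : Bdd S.P ζ) (hζm : AEStronglyMeasurable[S.Kx (S.iT w)] ζ S.P)
    (hζ0 : ∀ᵐ ω ∂S.P, 0 ≤ ζ ω) :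
    ∫ ω, S.ind w s δ ω * S.a w ω ^ 2 * ζ ω ∂S.P ≤ δ / 16 * ∫ ω, ζ ω ∂S.P := by
  rw [S.innov_window_mul w s δ hζ hζm]
  refine mul_le_mul_of_nonneg_right ?_ (integral_nonneg_of_ae hζ0)
  have h1 := integral_window_bound w.2 s δ (M := 1 / 16) (by norm_num) (fun t => aa t ^ 2)
    (fun t => sq_nonneg _) (fun t h0 h1 _ _ => by
      have h2 := aa_nonneg h0 h1
      have h3 := aa_le t
      nlinarith)
  have h2 := integral_window_le w.2 s hδ
  linarith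

end Setup

end Crest.Agent.R160

end
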