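import Crest.Agent.R160.Innov
import Crest.Agent.R160.Decay

/-! Row 160: size of the martingale increment over a short window. -/

noncomputable section

namespace Crest.Agent.R160

open Classical MeasureTheory ProbabilityTheory

universe u

lemma abs_cov_le {α β γ : ℝ} (hα : |α| ≤ 1) (hβ : |β| ≤ 1) (hγ : |γ| ≤ 1) : |γ - α * β| ≤ 2 := by
  have h1 : |α * β| ≤ 1 := by rw [abs_mul]; exact mul_le_one₀ hα (abs_nonneg _) hβ
  have := abs_sub γ (α * β)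
  linarith

lemma abs_cov_sub_le {α β γ α₁ β₁ γ₁ : ℝ} (hα : |α| ≤ 1) (hβ₁ : |β₁| ≤ 1) :
    |(γ₁ - α₁ * β₁) - (γ - α * β)| ≤ |α₁ - α| + |β₁ - β| + |γ₁ - γ| := by
  have e : (γ₁ - α₁ * β₁) - (γ - α * β) = (γ₁ - γ) - ((α₁ - α) * β₁ + α * (β₁ - β)) := by ring
  rw [e]
  have h1 : |(α₁ - α) * β₁| ≤ |α₁ - α| := by
    rw [abs_mul]; exact mul_le_of_le_one_right (abs_nonneg _) hβ₁
  have h2 : |α * (β₁ - β)| ≤ |β₁ - β| := by
    rw [abs_mul]; exact mul_le_of_le_one_left (abs_nonneg _) hα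
  have h3 := abs_sub (γ₁ - γ) ((α₁ - α) * β₁ + α * (β₁ - β))
  have h4 := abs_add_le ((α₁ - α) * β₁) (α * (β₁ - β))
  linarith

lemma three_abs_le {x y z η : ℝ} (hη : 0 < η) :
    |x| + |y| + |z| ≤ η + 1 / η * (x ^ 2 + y ^ 2 + z ^ 2) := by
  have h : (|x| + |y| + |z|) * η ≤ η ^ 2 + (x ^ 2 + y ^ 2 + z ^ 2) := by
    rw [← sq_abs x, ← sq_abs y, ← sq_abs z]
    nlinarith [sq_nonneg (|x| - η / 2), sq_nonneg (|y| - η / 2), sq_nonneg (|z| - η / 2),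
      sq_nonneg η]
  have e : η + 1 / η * (x ^ 2 + y ^ 2 + z ^ 2) = (η ^ 2 + (x ^ 2 + y ^ 2 + z ^ 2)) / η := by
    field_simp
  rw [e, le_div_iff₀ hη]
  exact h

/-- Comparison of the quadratic forms at two triples of posterior means. -/
lemma abs_quad_sub_le {a α β γ α₁ β₁ γ₁ α₂ β₂ γ₂ : ℝ} (ha0 : 0 ≤ a) (ha : a ≤ 1 / 4)
    (hα : |α| ≤ 1) (hβ : |β| ≤ 1) (hγ : |γ| ≤ 1) (hα₁ : |α₁| ≤ 1) (hβ₁ : |β₁| ≤ 1)
    (hγ₁ : |γ₁| ≤ 1) (hα₂ : |α₂| ≤ 1) (hβ₂ : |β₂| ≤ 1) (hγ₂ : |γ₂| ≤ 1) {η : ℝ} (hη : 0 < η) :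
    |(γ₁ - α₁ * β₁) * (γ₂ - α₂ * β₂) * kap a β₁ β₂ - (γ - α * β) ^ 2 * kap a β β| ≤
      a ^ 2 * (48 * η + 24 / η * (((α₁ - α) ^ 2 + (β₁ - β) ^ 2 + (γ₁ - γ) ^ 2) +
        ((α₂ - α) ^ 2 + (β₂ - β) ^ 2 + (γ₂ - γ) ^ 2))) := by
  have c0 := abs_cov_le hα hβ hγ
  have c2 := abs_cov_le hα₂ hβ₂ hγ₂
  have d1 := abs_cov_sub_le (β := β) (γ := γ) (α₁ := α₁) (γ₁ := γ₁) hα hβ₁
  have d2 := abs_cov_sub_le (β := β) (γ := γ) (α₁ := α₂) (γ₁ := γ₂) hα hβ₂
  have k1 := abs_kap_le ha0 ha hβ₁ hβ₂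
  have k2 := abs_kap_sub_le ha0 ha hβ₁ hβ₂ hβ hβ
  have t1 := three_abs_le (x := α₁ - α) (y := β₁ - β) (z := γ₁ - γ) hη
  have t2 := three_abs_le (x := α₂ - α) (y := β₂ - β) (z := γ₂ - γ) hη
  set C := γ - α * β
  set C₁ := γ₁ - α₁ * β₁
  set C₂ := γ₂ - α₂ * β₂
  set D₁ := |α₁ - α| + |β₁ - β| + |γ₁ - γ| with hD₁
  set D₂ := |α₂ - α| + |β₂ - β| + |γ₂ - γ| with hD₂
  have e : C₁ * C₂ * kap a β₁ β₂ - C ^ 2 * kap a β β =
      ((C₁ - C) * C₂ + C * (C₂ - C)) * kap a β₁ β₂ + C ^ 2 * (kap a β₁ β₂ - kap a β β) := by ring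
  have b1 : |(C₁ - C) * C₂ + C * (C₂ - C)| ≤ 2 * (D₁ + D₂) := by
    have h1 : |(C₁ - C) * C₂| ≤ D₁ * 2 := by
      rw [abs_mul]; exact mul_le_mul d1 c2 (abs_nonneg _) (by positivity)
    have h2 : |C * (C₂ - C)| ≤ 2 * D₂ := by
      rw [abs_mul]; exact mul_le_mul c0 d2 (abs_nonneg _) (by positivity)
    have := abs_add_le ((C₁ - C) * C₂) (C * (C₂ - C))
    linarith
  have b2 : |((C₁ - C) * C₂ + C * (C₂ - C)) * kap a β₁ β₂| ≤ 2 * (D₁ + D₂) * (4 * a ^ 2) := by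
    rw [abs_mul]; exact mul_le_mul b1 k1 (abs_nonneg _) (by positivity)
  have b3 : |C ^ 2 * (kap a β₁ β₂ - kap a β β)| ≤ 4 * (4 * a ^ 2 * (D₁ + D₂)) := by
    rw [abs_mul]
    refine mul_le_mul ?_ (k2.trans ?_) (abs_nonneg _) (by positivity)
    · rw [abs_pow]; nlinarith [abs_nonneg C]
    · refine mul_le_mul_of_nonneg_left ?_ (by positivity)
      have := abs_nonneg (α₁ - α); have := abs_nonneg (γ₁ - γ)
      have := abs_nonneg (α₂ - α); have := abs_nonneg (γ₂ - γ)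
      linarith
  rw [e]
  refine (abs_add_le _ _).trans ?_
  have f : 2 * (D₁ + D₂) * (4 * a ^ 2) + 4 * (4 * a ^ 2 * (D₁ + D₂)) =
      a ^ 2 * (24 * (D₁ + D₂)) := by ring
  refine (add_le_add b2 b3).trans (f.le.trans (mul_le_mul_of_nonneg_left ?_ (sq_nonneg a)))
  have g : ∀ x : ℝ, 24 / η * x = 24 * (1 / η * x) := fun x => by ring
  rw [g, mul_add (1 / η)]
  linarith

namespace Setup

variable {V : Type u} (S : Setup V)

/-- The leading term of the quadratic variation contributed by `w`. -/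
def ell (w : V × ℕ) (s δ : ℝ) : ℝ :=
  ∫ ω, S.ind w s δ ω * S.C (cst s) S.o w.1 ω ^ 2 *
    kap (S.a w ω) (S.m (cst s) w.1 ω) (S.m (cst s) w.1 ω) ∂S.P

lemma F_off_mono {th th' : V × ℕ → ℝ} (h : ∀ w', th w' ≤ th' w') (w : V × ℕ) :
    S.F (off th w) ≤ S.F (off th' w) := by
  refine S.F_mono fun w' => ?_
  by_cases e : w' = w
  · subst e; simp [off]
  · simp [off, e, h w']

lemma integral_m_sq_eq_condExp (th : V × ℕ → ℝ) (v : V) :
    ∫ ω, S.m th v ω ^ 2 ∂S.P = ∫ ω, S.P[S.σ v | S.F th] ω ^ 2 ∂S.P := by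
  refine integral_congr_ae ?_
  filter_upwards [S.m_ae_eq th v] with ω h using by rw [h]

lemma integral_pp_sq_eq_condExp (th : V × ℕ → ℝ) (x y : V) :
    ∫ ω, S.pp th x y ω ^ 2 ∂S.P = ∫ ω, S.P[fun ω => S.σ x ω * S.σ y ω | S.F th] ω ^ 2 ∂S.P := by
  refine integral_congr_ae ?_
  filter_upwards [S.pp_ae_eq th x y] with ω h using by rw [h]

lemma ee_mono (w : V × ℕ) {s t : ℝ} (h : s ≤ t) : S.ee w s ≤ S.ee w t := by
  have hF : S.F (off (cst s) w) ≤ S.F (off (cst t) w) := S.F_off_mono (fun _ => h) w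
  unfold ee
  simp only [integral_m_sq_eq_condExp, integral_pp_sq_eq_condExp]
  exact add_le_add (add_le_add (integral_condExp_sq_mono hF (S.F_le _) (S.bdd_σ _))
    (integral_condExp_sq_mono hF (S.F_le _) (S.bdd_σ _)))
    (integral_condExp_sq_mono hF (S.F_le _) (S.bdd_σσ _ _))

lemma ee_nonneg (w : V × ℕ) (s : ℝ) : 0 ≤ S.ee w s := by
  unfold ee
  exact add_nonneg (add_nonneg (integral_nonneg fun _ => sq_nonneg _)
    (integral_nonneg fun _ => sq_nonneg _)) (integral_nonneg fun _ => sq_nonneg _)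

lemma integral_sq_le_one {f : S.Om → ℝ} (hf : Bdd S.P f) (h : ∀ ω, |f ω| ≤ 1) :
    ∫ ω, f ω ^ 2 ∂S.P ≤ 1 := by
  calc ∫ ω, f ω ^ 2 ∂S.P ≤ ∫ _, (1 : ℝ) ∂S.P :=
        integral_mono (hf.pow 2).integrable (integrable_const _) fun ω => by
          have := h ω
          show f ω ^ 2 ≤ 1
          rw [← sq_abs]; nlinarith [abs_nonneg (f ω)]
    _ = 1 := by simp

lemma ee_le (w : V × ℕ) (s : ℝ) : S.ee w s ≤ 3 := by
  unfold ee
  have h1 := S.integral_sq_le_one (S.bdd_m (off (cst s) w) S.o) (S.abs_m_le _ _)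
  have h2 := S.integral_sq_le_one (S.bdd_m (off (cst s) w) w.1) (S.abs_m_le _ _)
  have h3 := S.integral_sq_le_one (S.bdd_pp (off (cst s) w) S.o w.1) (S.abs_pp_le _ _ _)
  linarith

/-- Sandwich for a switched-off record between times `s` and `s + δ`. -/
lemma sandwich_off (w : V × ℕ) {s δ : ℝ} (hδ : 0 ≤ δ) {th : V × ℕ → ℝ} (h1 : ∀ w', s ≤ th w')
    (h2 : ∀ w', th w' ≤ s + δ) {f : S.Om → ℝ} (hf : Bdd S.P f) :
    ∫ ω, S.ind w s δ ω * S.a w ω ^ 2 *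
        (S.P[f | S.F (off th w)] ω - S.P[f | S.F (off (cst s) w)] ω) ^ 2 ∂S.P ≤
      δ / 16 * (∫ ω, S.P[f | S.F (off (cst (s + δ)) w)] ω ^ 2 ∂S.P -
        ∫ ω, S.P[f | S.F (off (cst s) w)] ω ^ 2 ∂S.P) := by
  have hF1 : S.F (off (cst s) w) ≤ S.F (off th w) := S.F_off_mono h1 w
  have hF2 : S.F (off th w) ≤ S.F (off (cst (s + δ)) w) := S.F_off_mono h2 w
  have hb := ((hf.condExp _ (S.F_le (off th w))).sub (hf.condExp _ (S.F_le (off (cst s) w)))).pow 2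
  have hm : StronglyMeasurable[S.Kx (S.iT w)]
      (fun ω => (S.P[f | S.F (off th w)] ω - S.P[f | S.F (off (cst s) w)] ω) ^ 2) :=
    ((stronglyMeasurable_condExp.mono (S.F_off_le_Kx_iT th w)).sub
      (stronglyMeasurable_condExp.mono (S.F_off_le_Kx_iT _ w))).pow 2
  refine (S.integral_ind_a_sq_le' w s hδ hb hm.aestronglyMeasurable
    (Filter.Eventually.of_forall fun _ => sq_nonneg _)).trans ?_
  refine mul_le_mul_of_nonneg_left ?_ (by positivity)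
  rw [integral_sq_condExp_sub hF1 (S.F_le _) hf]
  exact sub_le_sub_right (integral_condExp_sq_mono hF2 (S.F_le _) hf) _

lemma ind_mul_self (w : V × ℕ) (s δ : ℝ) (ω : S.Om) :
    S.ind w s δ ω * S.ind w s δ ω = S.ind w s δ ω := by
  rcases S.ind_cases w s δ ω with h | h <;> simp [h]

lemma ind_nonneg (w : V × ℕ) (s δ : ℝ) (ω : S.Om) : 0 ≤ S.ind w s δ ω := by
  rcases S.ind_cases w s δ ω with h | h <;> simp [h]

lemma ind_eq_zero_of_lt {w : V × ℕ} {s δ : ℝ} {ω : S.Om} (h : ¬ s ≤ S.tm w ω) :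
    S.ind w s δ ω = 0 := by
  simp [ind, h]

lemma ind_eq_zero_of_ge {w : V × ℕ} {s δ : ℝ} {ω : S.Om} (h : ¬ S.tm w ω < s + δ) :
    S.ind w s δ ω = 0 := by
  simp [ind, h]

/-- Sandwich for the record just before `w`. -/
lemma sandwich_Flt (w : V × ℕ) {s δ : ℝ} (hδ : 0 ≤ δ) {f : S.Om → ℝ} (hf : Bdd S.P f)
    (hfm : Measurable[S.Sp] f) :
    ∫ ω, S.ind w s δ ω * S.a w ω ^ 2 *
        (S.P[f | S.Flt w] ω - S.P[f | S.F (off (cst s) w)] ω) ^ 2 ∂S.P ≤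
      δ / 16 * (∫ ω, S.P[f | S.F (off (cst (s + δ)) w)] ω ^ 2 ∂S.P -
        ∫ ω, S.P[f | S.F (off (cst s) w)] ω ^ 2 ∂S.P) := by
  refine le_trans ?_ (S.sandwich_off w hδ (th := cst (s + δ)) (fun _ => by simp [cst, hδ])
    (fun _ => le_rfl) hf)
  set X := S.P[f | S.Flt w] with hX
  set X₀ := S.P[f | S.F (off (cst s) w)] with hX₀
  set X₃ := S.P[f | S.F (off (cst (s + δ)) w)] with hX₃
  have bX : Bdd S.P X := hf.condExp _ (S.Flt_le w)
  have bX₀ : Bdd S.P X₀ := hf.condExp _ (S.F_le _)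
  have bX₃ : Bdd S.P X₃ := hf.condExp _ (S.F_le _)
  have bi := S.bdd_ind w s δ
  have ba := S.bdd_a w
  set g : S.Om → ℝ := fun ω => S.ind w s δ ω * S.a w ω * (X ω - X₀ ω) with hg
  set h : S.Om → ℝ := fun ω => S.ind w s δ ω * S.a w ω * (X₃ ω - X₀ ω) with hh
  have bg : Bdd S.P g := (bi.mul ba).mul (bX.sub bX₀)
  have bh : Bdd S.P h := (bi.mul ba).mul (bX₃.sub bX₀)
  set Z : S.Om → ℝ := fun ω => S.ind w s δ ω * S.a w ω * g ω with hZ
  have bZ : Bdd S.P Z := (bi.mul ba).mul bg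
  have hX₀m : Measurable[S.F (cst s)] X₀ :=
    (stronglyMeasurable_condExp.mono (S.F_off_le (cst s) w)).measurable
  have hZF : Measurable[S.Flt w] Z := by
    have e : Z = fun ω => S.ind w s δ ω * S.a w ω * (S.ind w s δ ω * S.a w ω *
        (X ω - if ω ∈ {ω | s ≤ S.tm w ω} then X₀ ω else 0)) := by
      funext ω
      by_cases hω : s ≤ S.tm w ω
      · simp [hZ, hg, hω]
      · simp [hZ, hg, S.ind_eq_zero_of_lt hω]
    have m1 := (S.loc_F_Flt w s).measurable_ite hX₀m 0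
    have m2 : Measurable[S.Flt w] X := stronglyMeasurable_condExp.measurable
    have m3 := S.measurable_ind_Flt w s δ
    have m4 := S.measurable_a_Flt w
    rw [e]
    let _ : MeasurableSpace S.Om := S.Flt w
    exact (m3.mul m4).mul ((m3.mul m4).mul (m2.sub m1))
  have hZ3 : Measurable[S.F (off (cst (s + δ)) w) ⊔ S.I1 (S.iT w)] Z :=
    (S.loc_Flt_off w (s + δ)).measurable_of_zero hZF fun ω hω => by
      simp [hZ, S.ind_eq_zero_of_ge hω]
  have hH3 : S.F (off (cst (s + δ)) w) ⊔ S.I1 (S.iT w) ≤ (inferInstance : MeasurableSpace S.Om) :=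
    sup_le (S.F_le _) (S.I1_le _)
  have e1 : ∫ ω, Z ω * X ω ∂S.P = ∫ ω, Z ω * f ω ∂S.P :=
    integral_mul_condExp (S.Flt_le w) hf bZ hZF.aestronglyMeasurable
  have e3 : ∫ ω, Z ω * X₃ ω ∂S.P = ∫ ω, Z ω * f ω ∂S.P := by
    rw [← integral_mul_condExp hH3 hf bZ hZ3.aestronglyMeasurable]
    refine integral_congr_ae ?_
    filter_upwards [S.condExp_off_sup (cst (s + δ)) w hf hfm] with ω hω
    rw [hω]
  have egh : ∫ ω, g ω * h ω ∂S.P = ∫ ω, g ω ^ 2 ∂S.P := by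
    have a1 : ∀ ω, g ω * h ω = Z ω * X₃ ω - Z ω * X₀ ω := fun ω => by simp only [hZ, hh]; ring
    have a2 : ∀ ω, g ω ^ 2 = Z ω * X ω - Z ω * X₀ ω := fun ω => by
      simp only [hZ]; rw [sq]; nth_rewrite 2 [hg]; ring
    simp only [a1, a2]
    rw [integral_sub (bZ.mul bX₃).integrable (bZ.mul bX₀).integrable,
      integral_sub (bZ.mul bX).integrable (bZ.mul bX₀).integrable, e1, e3]
  have i1 : 0 ≤ ∫ ω, (h ω - g ω) ^ 2 ∂S.P := integral_nonneg fun _ => sq_nonneg _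
  have i2 : ∫ ω, (h ω - g ω) ^ 2 ∂S.P =
      ∫ ω, h ω ^ 2 ∂S.P - 2 * ∫ ω, g ω * h ω ∂S.P + ∫ ω, g ω ^ 2 ∂S.P := by
    rw [← integral_const_mul, ← integral_sub (bh.pow 2).integrable
      ((bg.mul bh).const_mul 2).integrable, ← integral_add
      ((bh.pow 2).sub ((bg.mul bh).const_mul 2)).integrable (bg.pow 2).integrable]
    refine integral_congr_ae (Filter.Eventually.of_forall fun ω => ?_)
    ring
  have j1 : ∀ ω, S.ind w s δ ω * S.a w ω ^ 2 * (X ω - X₀ ω) ^ 2 = g ω ^ 2 := fun ω => by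
    simp only [hg]
    nth_rewrite 1 [← S.ind_mul_self w s δ ω]; ring
  have j2 : ∀ ω, S.ind w s δ ω * S.a w ω ^ 2 * (X₃ ω - X₀ ω) ^ 2 = h ω ^ 2 := fun ω => by
    simp only [hh]
    nth_rewrite 1 [← S.ind_mul_self w s δ ω]; ring
  simp only [j1, j2]
  linarith

lemma ell_eq_off (w : V × ℕ) (s δ : ℝ) : S.ell w s δ =
    ∫ ω, S.ind w s δ ω * S.C (off (cst s) w) S.o w.1 ω ^ 2 *
      kap (S.a w ω) (S.m (off (cst s) w) w.1 ω) (S.m (off (cst s) w) w.1 ω) ∂S.P := by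
  refine integral_congr_ae ?_
  filter_upwards [S.m_eq_off (cst s) w S.o, S.m_eq_off (cst s) w w.1,
    S.pp_eq_off (cst s) w S.o w.1] with ω h1 h2 h3
  by_cases hω : s ≤ S.tm w ω
  · simp only [C]
    rw [h1 hω, h2 hω, h3 hω]
  · simp [S.ind_eq_zero_of_lt hω]

lemma bdd_kap (w : V × ℕ) {β₁ β₂ : S.Om → ℝ} (h₁ : Measurable β₁) (h₂ : Measurable β₂)
    (b₁ : ∀ ω, |β₁ ω| ≤ 1) (b₂ : ∀ ω, |β₂ ω| ≤ 1) :
    Bdd S.P (fun ω => kap (S.a w ω) (β₁ ω) (β₂ ω)) :=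
  Bdd.of_meas (Measurable.kap' (S.measurable_a w) h₁ h₂) (K := 1) fun ω => by
    have h0 := S.a_nonneg w ω
    have h1 := S.a_le w ω
    refine (abs_kap_le h0 h1 (b₁ ω) (b₂ ω)).trans ?_
    nlinarith

/-- Integrated comparison with the base triple. -/
lemma abs_integral_quad_le (w : V × ℕ) (s : ℝ) {δ : ℝ} (hδ : 0 ≤ δ) {η : ℝ} (hη : 0 < η)
    {α₁ β₁ γ₁ α₂ β₂ γ₂ : S.Om → ℝ} (mα₁ : Measurable α₁) (mβ₁ : Measurable β₁)
    (mγ₁ : Measurable γ₁) (mα₂ : Measurable α₂) (mβ₂ : Measurable β₂) (mγ₂ : Measurable γ₂)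
    (hα₁ : ∀ ω, |α₁ ω| ≤ 1) (hβ₁ : ∀ ω, |β₁ ω| ≤ 1) (hγ₁ : ∀ ω, |γ₁ ω| ≤ 1)
    (hα₂ : ∀ ω, |α₂ ω| ≤ 1) (hβ₂ : ∀ ω, |β₂ ω| ≤ 1) (hγ₂ : ∀ ω, |γ₂ ω| ≤ 1) {e : ℝ}
    (he : ∫ ω, S.ind w s δ ω * S.a w ω ^ 2 * (α₁ ω - S.m (off (cst s) w) S.o ω) ^ 2 ∂S.P +
      ∫ ω, S.ind w s δ ω * S.a w ω ^ 2 * (β₁ ω - S.m (off (cst s) w) w.1 ω) ^ 2 ∂S.P +
      ∫ ω, S.ind w s δ ω * S.a w ω ^ 2 * (γ₁ ω - S.pp (off (cst s) w) S.o w.1 ω) ^ 2 ∂S.P +
      (∫ ω, S.ind w s δ ω * S.a w ω ^ 2 * (α₂ ω - S.m (off (cst s) w) S.o ω) ^ 2 ∂S.P +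
      ∫ ω, S.ind w s δ ω * S.a w ω ^ 2 * (β₂ ω - S.m (off (cst s) w) w.1 ω) ^ 2 ∂S.P +
      ∫ ω, S.ind w s δ ω * S.a w ω ^ 2 * (γ₂ ω - S.pp (off (cst s) w) S.o w.1 ω) ^ 2 ∂S.P) ≤
      δ / 8 * e) :
    |∫ ω, S.ind w s δ ω * ((γ₁ ω - α₁ ω * β₁ ω) * (γ₂ ω - α₂ ω * β₂ ω) *
      kap (S.a w ω) (β₁ ω) (β₂ ω)) ∂S.P - S.ell w s δ| ≤ 3 * δ * (η + e / η) := by
  rw [ell_eq_off]
  set α := S.m (off (cst s) w) S.o
  set β := S.m (off (cst s) w) w.1
  set γ := S.pp (off (cst s) w) S.o w.1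
  have bα : Bdd S.P α := S.bdd_m _ _
  have bβ : Bdd S.P β := S.bdd_m _ _
  have bγ : Bdd S.P γ := S.bdd_pp _ _ _
  have bα₁ := Bdd.of_meas (P := S.P) mα₁ hα₁
  have bβ₁ := Bdd.of_meas (P := S.P) mβ₁ hβ₁
  have bγ₁ := Bdd.of_meas (P := S.P) mγ₁ hγ₁
  have bα₂ := Bdd.of_meas (P := S.P) mα₂ hα₂
  have bβ₂ := Bdd.of_meas (P := S.P) mβ₂ hβ₂
  have bγ₂ := Bdd.of_meas (P := S.P) mγ₂ hγ₂
  have bi := S.bdd_ind w s δ
  have bia := bi.mul ((S.bdd_a w).pow 2)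
  have b1 := bi.mul (((bγ₁.sub (bα₁.mul bβ₁)).mul (bγ₂.sub (bα₂.mul bβ₂))).mul
    (S.bdd_kap w mβ₁ mβ₂ hβ₁ hβ₂))
  have b2 := (bi.mul ((S.bdd_C (off (cst s) w) S.o w.1).pow 2)).mul
    (S.bdd_kap w (S.measurable_m (off (cst s) w) w.1) (S.measurable_m (off (cst s) w) w.1)
      (S.abs_m_le _ _) (S.abs_m_le _ _))
  rw [← integral_sub b1.integrable b2.integrable]
  refine abs_integral_le_integral_abs.trans ?_
  have q : ∀ {x y : S.Om → ℝ}, Bdd S.P x → Bdd S.P y →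
      Bdd S.P (fun ω => S.ind w s δ ω * S.a w ω ^ 2 * (x ω - y ω) ^ 2) :=
    fun hx hy => bia.mul ((hx.sub hy).pow 2)
  have b3 := ((bia.mul (Bdd.const 1)).const_mul (48 * η)).add
    ((((((q bα₁ bα).add (q bβ₁ bβ)).add (q bγ₁ bγ)).add
      (((q bα₂ bα).add (q bβ₂ bβ)).add (q bγ₂ bγ)))).const_mul (24 / η))
  refine (integral_mono (b1.sub b2).abs.integrable b3.integrable fun ω => ?_).trans ?_
  · have h := abs_quad_sub_le (S.a_nonneg w ω) (S.a_le w ω) (S.abs_m_le (off (cst s) w) S.o ω)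
      (S.abs_m_le (off (cst s) w) w.1 ω) (S.abs_pp_le (off (cst s) w) S.o w.1 ω)
      (hα₁ ω) (hβ₁ ω) (hγ₁ ω) (hα₂ ω) (hβ₂ ω) (hγ₂ ω) hη
    rcases S.ind_cases w s δ ω with h0 | h0
    · simp [h0]
    · simp only [h0, one_mul, C]
      refine h.trans (le_of_eq ?_)
      ring
  · rw [integral_add ((bia.mul (Bdd.const 1)).const_mul (48 * η)).integrable
      ((((((q bα₁ bα).add (q bβ₁ bβ)).add (q bγ₁ bγ)).add
        (((q bα₂ bα).add (q bβ₂ bβ)).add (q bγ₂ bγ)))).const_mul (24 / η)).integrable,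
      integral_const_mul, integral_const_mul,
      integral_add (((q bα₁ bα).add (q bβ₁ bβ)).add (q bγ₁ bγ)).integrable
        (((q bα₂ bα).add (q bβ₂ bβ)).add (q bγ₂ bγ)).integrable,
      integral_add ((q bα₁ bα).add (q bβ₁ bβ)).integrable (q bγ₁ bγ).integrable,
      integral_add ((q bα₂ bα).add (q bβ₂ bβ)).integrable (q bγ₂ bγ).integrable,
      integral_add (q bα₁ bα).integrable (q bβ₁ bβ).integrable,
      integral_add (q bα₂ bα).integrable (q bβ₂ bβ).integrable]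
    have h1 := S.integral_ind_a_sq_le' w s hδ (Bdd.const 1) aestronglyMeasurable_const
      (Filter.Eventually.of_forall fun _ => zero_le_one)
    simp only [integral_const, probReal_univ, smul_eq_mul, mul_one] at h1 ⊢
    have h2 := mul_le_mul_of_nonneg_left h1 (by positivity : 0 ≤ 48 * η)
    have h3 := mul_le_mul_of_nonneg_left he (by positivity : 0 ≤ 24 / η)
    have e1 : 3 * δ * (η + e / η) = 48 * η * (δ / 16) + 24 / η * (δ / 8 * e) := by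
      field_simp; ring
    rw [e1]
    exact add_le_add h2 h3

lemma measurable_σ_Sp (v : V) : Measurable[S.Sp] (S.σ v) :=
  (S.measurable_σ_Sg v).mono (le_iSup S.Sg v) le_rfl

lemma measurable_σσ_Sp (x y : V) : Measurable[S.Sp] (fun ω => S.σ x ω * S.σ y ω) := by
  have h1 := S.measurable_σ_Sp x
  have h2 := S.measurable_σ_Sp y
  let _ : MeasurableSpace S.Om := S.Sp
  exact h1.mul h2

lemma integral_ind_congr (w : V × ℕ) (s δ : ℝ) {x x' y y' : S.Om → ℝ} (hx : x =ᵐ[S.P] x')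
    (hy : y =ᵐ[S.P] y') :
    ∫ ω, S.ind w s δ ω * S.a w ω ^ 2 * (x ω - y ω) ^ 2 ∂S.P =
      ∫ ω, S.ind w s δ ω * S.a w ω ^ 2 * (x' ω - y' ω) ^ 2 ∂S.P := by
  refine integral_congr_ae ?_
  filter_upwards [hx, hy] with ω h1 h2 using by rw [h1, h2]

lemma integral_JJ_sq_eq (w : V × ℕ) (s δ : ℝ) (th : V × ℕ → ℝ) :
    ∫ ω, S.JJ w s δ (off th w) ω ^ 2 ∂S.P =
      ∫ ω, S.ind w s δ ω * S.C (off th w) S.o w.1 ω ^ 2 *
        kap (S.a w ω) (S.m (off th w) w.1 ω) (S.m (off th w) w.1 ω) ∂S.P := by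
  have hZ : Measurable[S.F (off th w) ⊔ S.I1 (S.iT w)]
      (fun ω => S.ind w s δ ω * S.C (off th w) S.o w.1 ω ^ 2) := by
    have h1 := (S.measurable_ind_I1 w s δ).mono
      (le_sup_right : _ ≤ S.F (off th w) ⊔ S.I1 (S.iT w)) le_rfl
    have h2 := (S.measurable_C_F (off th w) S.o w.1).mono
      (le_sup_left : _ ≤ S.F (off th w) ⊔ S.I1 (S.iT w)) le_rfl
    let _ : MeasurableSpace S.Om := S.F (off th w) ⊔ S.I1 (S.iT w)
    exact h1.mul (h2.pow_const 2)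
  rw [← S.integral_mul_jj_sq th w hZ (K := 4) fun ω => ?_]
  · refine integral_congr_ae (Filter.Eventually.of_forall fun ω => ?_)
    simp only [JJ]
    nth_rewrite 2 [← S.ind_mul_self w s δ ω]; ring
  · have h := S.abs_C_le (off th w) S.o w.1 ω
    rcases S.ind_cases w s δ ω with h0 | h0
    · simp [h0]
    · rw [h0, one_mul, abs_pow]; nlinarith [abs_nonneg (S.C (off th w) S.o w.1 ω)]

lemma integral_JJ_sq_le (w : V × ℕ) {s δ : ℝ} (hδ : 0 ≤ δ) {th : V × ℕ → ℝ}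
    (h1 : ∀ w', s ≤ th w') (h2 : ∀ w', th w' ≤ s + δ) {η : ℝ} (hη : 0 < η) :
    ∫ ω, S.JJ w s δ (off th w) ω ^ 2 ∂S.P ≤
      S.ell w s δ + 3 * δ * (η + (S.ee w (s + δ) - S.ee w s) / η) := by
  have s1 := S.sandwich_off w hδ h1 h2 (S.bdd_σ S.o)
  have s2 := S.sandwich_off w hδ h1 h2 (S.bdd_σ w.1)
  have s3 := S.sandwich_off w hδ h1 h2 (S.bdd_σσ S.o w.1)
  rw [← S.integral_ind_congr w s δ (S.m_ae_eq _ _) (S.m_ae_eq _ _), ← integral_m_sq_eq_condExp,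
    ← integral_m_sq_eq_condExp] at s1 s2
  rw [← S.integral_ind_congr w s δ (S.pp_ae_eq _ _ _) (S.pp_ae_eq _ _ _),
    ← integral_pp_sq_eq_condExp, ← integral_pp_sq_eq_condExp] at s3
  have h := S.abs_integral_quad_le w s hδ hη (S.measurable_m (off th w) S.o)
    (S.measurable_m (off th w) w.1) (S.measurable_pp (off th w) S.o w.1)
    (S.measurable_m (off th w) S.o) (S.measurable_m (off th w) w.1)
    (S.measurable_pp (off th w) S.o w.1) (S.abs_m_le _ _) (S.abs_m_le _ _) (S.abs_pp_le _ _ _)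
    (S.abs_m_le _ _) (S.abs_m_le _ _) (S.abs_pp_le _ _ _) (e := S.ee w (s + δ) - S.ee w s)
    (by unfold ee; linarith)
  rw [integral_JJ_sq_eq]
  have e : ∫ ω, S.ind w s δ ω * S.C (off th w) S.o w.1 ω ^ 2 *
        kap (S.a w ω) (S.m (off th w) w.1 ω) (S.m (off th w) w.1 ω) ∂S.P =
      ∫ ω, S.ind w s δ ω * ((S.pp (off th w) S.o w.1 ω - S.m (off th w) S.o ω * S.m (off th w) w.1 ω)
        * (S.pp (off th w) S.o w.1 ω - S.m (off th w) S.o ω * S.m (off th w) w.1 ω) *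
        kap (S.a w ω) (S.m (off th w) w.1 ω) (S.m (off th w) w.1 ω)) ∂S.P := by
    refine integral_congr_ae (Filter.Eventually.of_forall fun ω => ?_)
    simp only [C]; ring
  rw [e]
  linarith [(abs_le.1 h).2]

lemma le_integral_σ_mul_LL (w : V × ℕ) (s : ℝ) {δ : ℝ} (hδ : 0 ≤ δ) {η : ℝ} (hη : 0 < η) :
    S.ell w s δ - 3 * δ * (η + (S.ee w (s + δ) - S.ee w s) / η) ≤
      ∫ ω, S.σ S.o ω * S.LL w s δ (S.C (cst s) S.o w.1) (S.m (cst s) w.1) ω ∂S.P := by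
  have s1 := S.sandwich_Flt w (s := s) hδ (S.bdd_σ S.o) (S.measurable_σ_Sp _)
  have s2 := S.sandwich_Flt w (s := s) hδ (S.bdd_σ w.1) (S.measurable_σ_Sp _)
  have s3 := S.sandwich_Flt w (s := s) hδ (S.bdd_σσ S.o w.1) (S.measurable_σσ_Sp _ _)
  have c1 : cE S.P (S.Flt w) (S.σ S.o) =ᵐ[S.P] S.P[S.σ S.o | S.Flt w] :=
    cE_ae_eq _ (Filter.Eventually.of_forall fun ω => (S.abs_σ _ ω).le)
  have c3 : cE S.P (S.Flt w) (fun ω => S.σ S.o ω * S.σ w.1 ω) =ᵐ[S.P]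
      S.P[fun ω => S.σ S.o ω * S.σ w.1 ω | S.Flt w] :=
    cE_ae_eq _ (Filter.Eventually.of_forall fun ω => by simp [abs_mul, S.abs_σ])
  rw [← S.integral_ind_congr w s δ c1 (S.m_ae_eq _ _), ← integral_m_sq_eq_condExp,
    ← integral_m_sq_eq_condExp] at s1
  rw [← S.integral_ind_congr w s δ (S.M_ae_eq _) (S.m_ae_eq _ _), ← integral_m_sq_eq_condExp,
    ← integral_m_sq_eq_condExp] at s2
  rw [← S.integral_ind_congr w s δ c3 (S.pp_ae_eq _ _ _),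
    ← integral_pp_sq_eq_condExp, ← integral_pp_sq_eq_condExp] at s3
  have hee := S.ee_mono w (le_add_of_nonneg_right hδ : s ≤ s + δ)
  have h := S.abs_integral_quad_le w s hδ hη (S.measurable_m (off (cst s) w) S.o)
    (S.measurable_m (off (cst s) w) w.1) (S.measurable_pp (off (cst s) w) S.o w.1)
    ((measurable_cE (P := S.P) (S.Flt w) (S.σ S.o)).mono (S.Flt_le w) le_rfl) (S.measurable_M w)
    ((measurable_cE (P := S.P) (S.Flt w) (fun ω => S.σ S.o ω * S.σ w.1 ω)).mono (S.Flt_le w) le_rfl)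
    (S.abs_m_le _ _) (S.abs_m_le _ _) (S.abs_pp_le _ _ _)
    (abs_cE_le _ _) (S.abs_M_le _) (abs_cE_le _ _) (e := S.ee w (s + δ) - S.ee w s)
    (by
      have : δ / 16 * (S.ee w (s + δ) - S.ee w s) ≤ δ / 8 * (S.ee w (s + δ) - S.ee w s) :=
        mul_le_mul_of_nonneg_right (by linarith) (by linarith)
      simp only [sub_self, ne_eq, OfNat.ofNat_ne_zero, not_false_eq_true, zero_pow, mul_zero,
        integral_zero, add_zero, zero_add]
      refine le_trans ?_ this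
      unfold ee; linarith)
  rw [S.integral_σ_mul_LL w S.o (S.measurable_C_F _ _ _) (S.abs_C_le _ _ _) (S.measurable_m_F _ _)
    (S.abs_m_le _ _)]
  have e : ∫ ω, S.ind w s δ ω * S.C (cst s) S.o w.1 ω * S.Clt w S.o ω *
        kap (S.a w ω) (S.m (cst s) w.1 ω) (S.M w ω) ∂S.P =
      ∫ ω, S.ind w s δ ω * ((S.pp (off (cst s) w) S.o w.1 ω -
        S.m (off (cst s) w) S.o ω * S.m (off (cst s) w) w.1 ω) *
        (cE S.P (S.Flt w) (fun ω => S.σ S.o ω * S.σ w.1 ω) ω -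
          cE S.P (S.Flt w) (S.σ S.o) ω * S.M w ω) *
        kap (S.a w ω) (S.m (off (cst s) w) w.1 ω) (S.M w ω)) ∂S.P := by
    refine integral_congr_ae ?_
    filter_upwards [S.m_eq_off (cst s) w S.o, S.m_eq_off (cst s) w w.1,
      S.pp_eq_off (cst s) w S.o w.1] with ω h1 h2 h3
    by_cases hω : s ≤ S.tm w ω
    · simp only [C, Clt]
      rw [h1 hω, h2 hω, h3 hω]; ring
    · simp [S.ind_eq_zero_of_lt hω]
  rw [e]
  linarith [(abs_le.1 h).1]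

lemma integral_JJ_sq_le_tail (w : V × ℕ) {s δ : ℝ} (hδ : 0 ≤ δ) {th : V × ℕ → ℝ}
    (h1 : ∀ w', s ≤ th w') :
    ∫ ω, S.JJ w s δ (off th w) ω ^ 2 ∂S.P ≤
      δ / 4 * (S.θ ^ 2 * S.vt s) ^ S.G.dist S.o w.1 := by
  rw [integral_JJ_sq_eq]
  have bC := (S.bdd_C (off th w) S.o w.1).pow 2
  have hC := S.integral_C_sq_le (th := off th w) (s := s) (v := w.1) (fun w' hw' => by
    have : w' ≠ w := fun e => hw' (e ▸ rfl)
    simpa [off, this] using h1 w') S.o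
  have hm : Measurable[S.Kx (S.iT w)] (fun ω => S.C (off th w) S.o w.1 ω ^ 2) := by
    have h2 := (S.measurable_C_F (off th w) S.o w.1).mono (S.F_off_le_Kx_iT th w) le_rfl
    let _ : MeasurableSpace S.Om := S.Kx (S.iT w)
    exact h2.pow_const 2
  have h2 := S.integral_ind_a_sq_le' w s hδ bC hm.aestronglyMeasurable
    (Filter.Eventually.of_forall fun _ => sq_nonneg _)
  calc _ ≤ ∫ ω, 4 * (S.ind w s δ ω * S.a w ω ^ 2 * S.C (off th w) S.o w.1 ω ^ 2) ∂S.P := by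
        refine integral_mono (((S.bdd_ind w s δ).mul bC).mul (S.bdd_kap w (S.measurable_m _ _)
          (S.measurable_m _ _) (S.abs_m_le _ _) (S.abs_m_le _ _))).integrable
          ((((S.bdd_ind w s δ).mul ((S.bdd_a w).pow 2)).mul bC).const_mul 4).integrable fun ω => ?_
        have k := (le_abs_self _).trans (abs_kap_le (S.a_nonneg w ω) (S.a_le w ω)
          (S.abs_m_le (off th w) w.1 ω) (S.abs_m_le (off th w) w.1 ω))
        have := mul_le_mul_of_nonneg_left k (mul_nonneg (S.ind_nonneg w s δ ω)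
          (sq_nonneg (S.C (off th w) S.o w.1 ω)))
        show _ ≤ 4 * _
        linarith
    _ ≤ 4 * (δ / 16 * (S.θ ^ 2 * S.vt s) ^ S.G.dist S.o w.1) := by
        rw [integral_const_mul]
        exact mul_le_mul_of_nonneg_left
          (h2.trans (mul_le_mul_of_nonneg_left hC (by positivity))) (by norm_num)
    _ = _ := by ring

lemma JJ_eq_zero {w : V × ℕ} {r : ℕ} (hw : w.2 ≠ r) {s δ : ℝ} (hs : (r : ℝ) ≤ s)
    (hsδ : s + δ ≤ r + 1) (th : V × ℕ → ℝ) (ω : S.Om) : S.JJ w s δ th ω = 0 := by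
  unfold JJ
  by_cases h : s ≤ S.tm w ω ∧ S.tm w ω < s + δ
  · have : S.a w ω = 0 :=
      aa_eq_zero_of_ne hw hs hsδ (S.T_nonneg w ω) (S.T_le_one w ω) h.1 h.2
    simp [this, jj]
  · simp [ind, h]

/-- Raising the threshold of one index from `s` to `s + δ`. -/
lemma m_update_sub (th : V × ℕ → ℝ) (w : V × ℕ) {s δ : ℝ} (hδ : 0 ≤ δ) :
    ∀ᵐ ω ∂S.P, S.m (Function.update th w (s + δ)) S.o ω - S.m (Function.update th w s) S.o ω =
      S.JJ w s δ (off th w) ω := by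
  have e : ∀ t, off (Function.update th w t) w = off th w := fun t => by simp [off]
  filter_upwards [S.m_sub_off (Function.update th w (s + δ)) w S.o,
    S.m_sub_off (Function.update th w s) w S.o] with ω h1 h2
  rw [e, Function.update_self] at h1 h2
  unfold JJ ind
  by_cases a : S.tm w ω < s
  · have b : S.tm w ω < s + δ := by linarith
    rw [if_pos b] at h1; rw [if_pos a] at h2
    rw [if_neg (fun h => absurd h.1 (not_le.2 a))]
    linarith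
  · rw [if_neg a] at h2
    by_cases b : S.tm w ω < s + δ
    · rw [if_pos b] at h1
      rw [if_pos ⟨not_lt.1 a, b⟩]
      linarith
    · rw [if_neg b] at h1
      rw [if_neg (fun h => b h.2)]
      linarith

/-- Thresholds raised on a finite set. -/
def thW (s δ : ℝ) (W : Finset (V × ℕ)) : V × ℕ → ℝ := fun w => if w ∈ W then s + δ else s

lemma integral_m_thW_le {s δ : ℝ} (hδ : 0 ≤ δ) {B : V × ℕ → ℝ}
    (hB : ∀ w (th : V × ℕ → ℝ), (∀ w', s ≤ th w') → (∀ w', th w' ≤ s + δ) →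
      ∫ ω, S.JJ w s δ (off th w) ω ^ 2 ∂S.P ≤ B w) (W : Finset (V × ℕ)) :
    ∫ ω, S.m (thW s δ W) S.o ω ^ 2 ∂S.P ≤ ∫ ω, S.m (cst s) S.o ω ^ 2 ∂S.P + ∑ w ∈ W, B w := by
  induction W using Finset.induction_on with
  | empty =>
    have : thW s δ (∅ : Finset (V × ℕ)) = cst s := by funext w; simp [thW, cst]
    simp [this]
  | insert w W hw ih =>
    have e1 : thW s δ (insert w W) = Function.update (thW s δ W) w (s + δ) := by
      funext w'
      by_cases h : w' = w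
      · subst h; simp [thW]
      · simp [thW, h]
    have e2 : thW s δ W = Function.update (thW s δ W) w s := by
      funext w'
      by_cases h : w' = w
      · subst h; simp [thW, hw]
      · simp [h]
    have hF : S.F (thW s δ W) ≤ S.F (thW s δ (insert w W)) := S.F_mono fun w' => by
      simp only [thW, Finset.mem_insert]
      by_cases h : w' ∈ W
      · simp [h]
      · rw [if_neg h]; split_ifs <;> linarith
    have p := integral_sq_condExp_sub hF (S.F_le _) (S.bdd_σ S.o)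
    rw [← integral_m_sq_eq_condExp, ← integral_m_sq_eq_condExp] at p
    have p2 : ∫ ω, (S.P[S.σ S.o | S.F (thW s δ (insert w W))] ω -
        S.P[S.σ S.o | S.F (thW s δ W)] ω) ^ 2 ∂S.P =
        ∫ ω, S.JJ w s δ (off (thW s δ W) w) ω ^ 2 ∂S.P := by
      refine integral_congr_ae ?_
      filter_upwards [S.m_update_sub (thW s δ W) w (s := s) hδ, S.m_ae_eq (thW s δ W) S.o,
        S.m_ae_eq (thW s δ (insert w W)) S.o] with ω h1 h2 h3
      rw [← e1, ← e2] at h1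
      rw [← h1, h2, h3]
    have p3 := hB w (thW s δ W) (fun w' => by unfold thW; split_ifs <;> linarith)
      (fun w' => by unfold thW; split_ifs <;> linarith)
    rw [Finset.sum_insert hw]
    linarith

/-- The increment over the window, index by index. -/
lemma integral_dM_sq_le {s δ : ℝ} (hδ : 0 ≤ δ) {B : V × ℕ → ℝ}
    (hB : ∀ w (th : V × ℕ → ℝ), (∀ w', s ≤ th w') → (∀ w', th w' ≤ s + δ) →
      ∫ ω, S.JJ w s δ (off th w) ω ^ 2 ∂S.P ≤ B w) {β : ℝ}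
    (hβ : ∀ W : Finset (V × ℕ), ∑ w ∈ W, B w ≤ β) :
    ∫ ω, (S.m (cst (s + δ)) S.o ω - S.m (cst s) S.o ω) ^ 2 ∂S.P ≤ β := by
  have := S.countable
  have : Nonempty (V × ℕ) := ⟨(S.o, 0)⟩
  obtain ⟨e, he⟩ := exists_surjective_nat (V × ℕ)
  set W : ℕ → Finset (V × ℕ) := fun k => (Finset.range k).image e with hW
  have hmem : ∀ w, ∃ k, w ∈ W k := fun w => by
    obtain ⟨i, rfl⟩ := he w
    exact ⟨i + 1, Finset.mem_image_of_mem _ (Finset.self_mem_range_succ i)⟩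
  have hsup : S.F (cst (s + δ)) = ⨆ k, S.F (thW s δ (W k)) := by
    refine S.F_iSup (fun w ω => ⟨fun h => ?_, fun ⟨k, h⟩ => ?_⟩) fun w => ?_
    · obtain ⟨k, hk⟩ := hmem w
      exact ⟨k, by simpa [thW, hk, cst] using h⟩
    · refine h.trans_le ?_
      unfold thW cst; split_ifs <;> linarith
    · obtain ⟨k, hk⟩ := hmem w
      exact ⟨k, by simp [thW, hk, cst]⟩
  have hmono : Monotone fun k => S.F (thW s δ (W k)) := fun k l hkl => S.F_mono fun w => by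
    have hs : W k ⊆ W l := Finset.image_subset_image (Finset.range_mono hkl)
    unfold thW
    by_cases h : w ∈ W k
    · simp [h, hs h]
    · rw [if_neg h]; split_ifs <;> linarith
  have hlim := tendsto_integral_sq_condExp hmono (fun k => S.F_le _) (S.bdd_σ S.o)
  rw [← hsup] at hlim
  have hF0 : S.F (cst s) ≤ S.F (cst (s + δ)) := S.F_mono fun _ => by simp [cst, hδ]
  have p := integral_sq_condExp_sub hF0 (S.F_le _) (S.bdd_σ S.o)
  rw [← integral_m_sq_eq_condExp, ← integral_m_sq_eq_condExp] at p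
  have p1 : ∫ ω, (S.m (cst (s + δ)) S.o ω - S.m (cst s) S.o ω) ^ 2 ∂S.P =
      ∫ ω, S.m (cst (s + δ)) S.o ω ^ 2 ∂S.P - ∫ ω, S.m (cst s) S.o ω ^ 2 ∂S.P := by
    rw [← p]
    refine integral_congr_ae ?_
    filter_upwards [S.m_ae_eq (cst s) S.o, S.m_ae_eq (cst (s + δ)) S.o] with ω h1 h2
    rw [h1, h2]
  rw [p1, ← sub_nonpos]
  refine ge_of_tendsto' hlim fun k => ?_
  have hFk : S.F (thW s δ (W k)) ≤ S.F (cst (s + δ)) := hsup ▸ le_iSup (fun k => S.F (thW s δ (W k))) k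
  have p2 := integral_sq_condExp_sub hFk (S.F_le _) (S.bdd_σ S.o)
  rw [← integral_m_sq_eq_condExp, ← integral_m_sq_eq_condExp] at p2
  have p3 : ∫ ω, (S.P[S.σ S.o | S.F (thW s δ (W k))] ω - S.P[S.σ S.o | S.F (cst (s + δ))] ω) ^ 2 ∂S.P
      = ∫ ω, (S.P[S.σ S.o | S.F (cst (s + δ))] ω - S.P[S.σ S.o | S.F (thW s δ (W k))] ω) ^ 2 ∂S.P :=
    integral_congr_ae (Filter.Eventually.of_forall fun ω => by ring)
  have p4 := S.integral_m_thW_le hδ hB (W k)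
  have p5 := hβ (W k)
  rw [p3, p2]
  linarith

end Setup

end Crest.Agent.R160

end
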