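import Crest.Agent.R160.Moments

/-! Row 160: exponential moments of the cavity magnetisation at small times. -/

noncomputable section

namespace Crest.Agent.R160

open Classical MeasureTheory ProbabilityTheory

universe u

namespace Setup

variable {V : Type u} (S : Setup V)

lemma abs_n_le_sum {s : ℝ} (hs0 : 0 ≤ s) (hs : s ≤ 1) {x y : V} (h : S.G.Adj x y) :
    ∀ᵐ ω ∂S.P, |S.n (cst s) x y ω| ≤ s + S.θ * ∑ z ∈ S.ch x y, |S.nh (cst s) y z ω| := by
  have hθ := S.θ0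
  have key : ∀ Z : Finset V, Z ⊆ S.nb y →
      ∀ᵐ ω ∂S.P, |S.m (S.resZ (cst s) y Z) y ω| ≤ s + S.θ * ∑ z ∈ Z, |S.nh (cst s) y z ω| := by
    intro Z
    induction Z using Finset.induction_on with
    | empty =>
      intro _
      rw [S.resZ_empty]
      filter_upwards [S.m_res_singleton hs y] with ω hω
      rw [hω]
      simp only [Finset.sum_empty, mul_zero, add_zero]
      unfold Nw
      split_ifs with hh
      · rw [abs_mul, abs_of_nonneg (S.a_nonneg _ _)]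
        have h1 : S.a (y, 0) ω ≤ S.T (y, 0) ω := aa_le_self (S.T_nonneg _ _)
        have h2 : S.T (y, 0) ω < s := by simpa [tm, cst] using hh
        have h3 := S.abs_Y_le (y, 0) ω
        have h4 := S.a_nonneg (y, 0) ω
        calc S.a (y, 0) ω * |S.Y (y, 0) ω| ≤ S.a (y, 0) ω * 1 := mul_le_mul_of_nonneg_left h3 h4
          _ ≤ s := by linarith
      · simpa using hs0
    | insert z Z hz ih =>
      intro hZ
      have hZ' : Z ⊆ S.nb y := (Finset.subset_insert z Z).trans hZ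
      have hyz : S.G.Adj y z := (S.mem_nb _ _).1 (hZ (Finset.mem_insert_self z Z))
      filter_upwards [ih hZ', S.m_resZ_insert (cst s) hZ' hyz hz, S.nh_ae_eq (cst s) y z]
        with ω h1 h2 h3
      rw [h2, Finset.sum_insert hz, h3, abs_mul, S.abs_σ, one_mul]
      have h4 : |S.θ * S.n (cst s) y z ω| = S.θ * |S.n (cst s) y z ω| := by
        rw [abs_mul, abs_of_nonneg hθ]
      have h5 : |S.θ * S.n (cst s) y z ω| ≤ 3 / 4 := by
        rw [h4]
        have := mul_le_mul S.theta_le (S.abs_n_le (cst s) y z ω) (abs_nonneg _) (by norm_num)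
        linarith
      have h6 := abs_op_le_add (S.abs_m_le (S.resZ (cst s) y Z) y ω) h5
      rw [h4] at h6
      rw [mul_add]
      linarith
  have := key (S.ch x y) (Finset.erase_subset _ _)
  rw [S.resZ_ch (cst s) h] at this
  exact this

/-- The recursion `Φ(λ) ≤ e^{λ s} Φ(θ λ)^b` for `Φ(λ) = ∫ exp (λ |n|)`. -/
lemma mgf_rec {s : ℝ} (hs0 : 0 ≤ s) (hs : s ≤ 1) {l : ℝ} (hl : 0 ≤ l) :
    ∫ ω, Real.exp (l * |S.n (cst s) S.o S.o' ω|) ∂S.P ≤
      Real.exp (l * s) * (∫ ω, Real.exp (S.θ * l * |S.n (cst s) S.o S.o' ω|) ∂S.P) ^ S.b := by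
  have hθ := S.θ0
  have hb : ∀ z, Bdd S.P (fun ω => Real.exp (S.θ * l * |S.nh (cst s) S.o' z ω|)) := fun z =>
    ((S.bdd_nh (cst s) S.o' z).abs.const_mul _).exp
  have h1 : ∫ ω, Real.exp (l * |S.n (cst s) S.o S.o' ω|) ∂S.P ≤
      ∫ ω, Real.exp (l * s) *
        ∏ z ∈ S.ch S.o S.o', Real.exp (S.θ * l * |S.nh (cst s) S.o' z ω|) ∂S.P := by
    refine integral_mono_ae ((S.bdd_n _ _ _).abs.const_mul _).exp.integrable
      ((Bdd.prod _ fun z _ => hb z).const_mul _).integrable ?_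
    filter_upwards [S.abs_n_le_sum hs0 hs S.adj_o'] with ω hω
    rw [← Real.exp_sum, ← Real.exp_add, ← Finset.mul_sum]
    refine Real.exp_le_exp.2 ?_
    have := mul_le_mul_of_nonneg_left hω hl
    linarith
  refine h1.trans (le_of_eq ?_)
  rw [integral_const_mul]
  congr 1
  rw [S.integral_prod_of_disjoint (S.ch S.o S.o') (A := fun z => S.reg (S.sub S.o' z))
    (f := fun z ω => Real.exp (S.θ * l * |S.nh (cst s) S.o' z ω|)) ?_ (fun z _ => hb z) ?_]
  · rw [← S.card_ch S.adj_o', ← Finset.prod_const]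
    refine Finset.prod_congr rfl fun z hz => ?_
    have hz' := (S.mem_ch.1 hz).2
    rw [← S.integral_n_eq s hz' S.adj_o' (Φ := fun t => Real.exp (S.θ * l * |t|)) (by fun_prop)]
    refine integral_congr_ae ?_
    filter_upwards [S.nh_ae_eq (cst s) S.o' z] with ω hω
    rw [hω, abs_mul, S.abs_σ, one_mul]
  · intro z hz z' hz' hne
    exact S.reg_disjoint (S.sub_disjoint (S.mem_ch.1 hz).2 (S.mem_ch.1 hz').2 hne)
  · intro z hz
    have hm := S.measurable_nh_reg (cst s) (S.mem_ch.1 hz).2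
    have hΦ : Measurable (fun t : ℝ => Real.exp (S.θ * l * |t|)) := by fun_prop
    exact (hΦ.comp hm).aestronglyMeasurable

private lemma mgf_le_exp (s : ℝ) (x x' : V) {l : ℝ} (hl : 0 ≤ l) :
    ∫ ω, Real.exp (l * |S.n (cst s) x x' ω|) ∂S.P ≤ Real.exp l := by
  have h1 : ∫ ω, Real.exp (l * |S.n (cst s) x x' ω|) ∂S.P ≤ ∫ _ω, Real.exp l ∂S.P := by
    refine integral_mono ((S.bdd_n _ _ _).abs.const_mul _).exp.integrable (integrable_const _)
      fun ω => ?_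
    refine Real.exp_le_exp.2 ?_
    have := mul_le_mul_of_nonneg_left (S.abs_n_le (cst s) x x' ω) hl
    linarith
  simpa using h1

private lemma exp_le_of_small {t : ℝ} (ht : t ≤ 9 / 100) : Real.exp t ≤ 11 / 10 := by
  have h1 : Real.exp t ≤ Real.exp (9 / 100) := Real.exp_le_exp.2 ht
  have h2 := Real.exp_bound_div_one_sub_of_interval (x := 9 / 100) (by norm_num) (by norm_num)
  have h3 : (1 : ℝ) / (1 - 9 / 100) ≤ 11 / 10 := by norm_num
  linarith

/-- One step of the downward propagation. -/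
private lemma mgf_step {s : ℝ} (hs0 : 0 ≤ s) (hs : s ≤ 1) {l a : ℝ} (hl : 0 ≤ l) (ha : 0 < a)
    (hε : l * s + S.b * (S.θ * l * ((S.q s / a + a) / 2)) + l ^ 2 * S.q s / 2 ≤ 1 / 400)
    (hΦ : ∫ ω, Real.exp (19 / 20 * l * |S.n (cst s) S.o S.o' ω|) ∂S.P ≤ 11 / 10) :
    ∫ ω, Real.exp (l * |S.n (cst s) S.o S.o' ω|) ∂S.P ≤ 11 / 10 := by
  have hθ := S.θ0
  have hθ' := S.theta_le
  have hcrit := S.crit
  have hq := S.q_nonneg s
  have hbn := S.bdd_n (cst s) S.o S.o'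
  have i1 : Integrable (fun ω => S.n (cst s) S.o S.o' ω ^ 2) S.P := (hbn.pow 2).integrable
  have i2 : Integrable (fun ω => Real.exp (19 / 20 * l * |S.n (cst s) S.o S.o' ω|)) S.P :=
    (hbn.abs.const_mul _).exp.integrable
  obtain ⟨A, hA⟩ : ∃ A, A = 1 + S.θ * l * a / 2 - (S.θ / (19 / 20)) ^ 3 := ⟨_, rfl⟩
  obtain ⟨B, hB⟩ : ∃ B, B = S.θ * l / a / 2 + S.θ ^ 2 * l ^ 2 / 2 := ⟨_, rfl⟩
  obtain ⟨C, hC⟩ : ∃ C, C = (S.θ / (19 / 20)) ^ 3 := ⟨_, rfl⟩
  have h1 : ∫ ω, Real.exp (S.θ * l * |S.n (cst s) S.o S.o' ω|) ∂S.P ≤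
      ∫ ω, (A + B * S.n (cst s) S.o S.o' ω ^ 2 +
        C * Real.exp (19 / 20 * l * |S.n (cst s) S.o S.o' ω|)) ∂S.P := by
    refine integral_mono (hbn.abs.const_mul _).exp.integrable
      (((integrable_const _).add (i1.const_mul _)).add (i2.const_mul _)) fun ω => ?_
    obtain ⟨t, ht⟩ : ∃ t, t = S.n (cst s) S.o S.o' ω := ⟨_, rfl⟩
    simp only [← ht]
    have e1 : S.θ * l * |t| = S.θ / (19 / 20) * (19 / 20 * l * |t|) := by field_simp
    have e2 := exp_mul_le (θ := S.θ / (19 / 20)) (x := 19 / 20 * l * |t|) (by positivity)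
      (by rw [div_le_one (by norm_num)]; linarith) (by positivity)
    rw [← e1] at e2
    have e3 : (S.θ / (19 / 20)) ^ 2 * (19 / 20 * l * |t|) ^ 2 = S.θ ^ 2 * l ^ 2 * t ^ 2 := by
      rw [← mul_pow, ← e1, mul_pow, mul_pow, sq_abs]
    rw [e3] at e2
    have e4 : |t| ≤ (t ^ 2 / a + a) / 2 := by
      have e5 : t ^ 2 / a + a - 2 * |t| = (|t| - a) ^ 2 / a := by
        rw [← sq_abs t]; field_simp; ring
      have e6 : 0 ≤ (|t| - a) ^ 2 / a := by positivity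
      linarith
    have e7 := mul_le_mul_of_nonneg_left e4 (mul_nonneg hθ hl)
    have e8 : A + B * t ^ 2 + C * Real.exp (19 / 20 * l * |t|) =
        1 + S.θ * l * ((t ^ 2 / a + a) / 2) + S.θ ^ 2 * l ^ 2 * t ^ 2 / 2 +
          (S.θ / (19 / 20)) ^ 3 * (Real.exp (19 / 20 * l * |t|) - 1) := by
      rw [hA, hB, hC]; ring
    rw [e8]
    linarith
  have i3 : Integrable (fun ω => A + B * S.n (cst s) S.o S.o' ω ^ 2) S.P :=
    (integrable_const _).add (i1.const_mul _)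
  rw [integral_add i3 (i2.const_mul _),
    integral_add (integrable_const _) (i1.const_mul _), integral_const_mul, integral_const_mul,
    integral_const] at h1
  simp only [probReal_univ, one_smul] at h1
  have hqe : ∫ ω, S.n (cst s) S.o S.o' ω ^ 2 ∂S.P = S.q s := rfl
  rw [hqe] at h1
  have hC0 : 0 ≤ C := by rw [hC]; positivity
  have h2 := mul_le_mul_of_nonneg_left hΦ hC0
  obtain ⟨E, hE⟩ : ∃ E, E = S.θ * l * ((S.q s / a + a) / 2) + S.θ ^ 2 * l ^ 2 * S.q s / 2 +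
      C / 10 := ⟨_, rfl⟩
  have h3 : ∫ ω, Real.exp (S.θ * l * |S.n (cst s) S.o S.o' ω|) ∂S.P ≤ Real.exp E := by
    have e1 : A + B * S.q s + C * (11 / 10) = E + 1 := by
      rw [hA, hB, hE, hC]; ring
    have e2 := Real.add_one_le_exp E
    linarith
  have h4 : (∫ ω, Real.exp (S.θ * l * |S.n (cst s) S.o S.o' ω|) ∂S.P) ^ S.b ≤
      Real.exp E ^ S.b :=
    pow_le_pow_left₀ (integral_nonneg fun ω => (Real.exp_pos _).le) h3 _
  have h5 := (S.mgf_rec hs0 hs hl).trans (mul_le_mul_of_nonneg_left h4 (Real.exp_pos _).le)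
  rw [← Real.exp_nat_mul, ← Real.exp_add] at h5
  refine h5.trans (exp_le_of_small ?_)
  have e1 : (S.b : ℝ) * C ≤ 7 / 8 := by
    have e2 : (S.b : ℝ) * C = (S.b * S.θ ^ 2) * S.θ * (8000 / 6859) := by rw [hC]; ring
    have e3 : (S.b * S.θ ^ 2) * S.θ ≤ 1 * (3 / 4) := mul_le_mul hcrit hθ' hθ (by norm_num)
    rw [e2]
    linarith
  have e4 : (S.b : ℝ) * (S.θ ^ 2 * l ^ 2 * S.q s / 2) ≤ l ^ 2 * S.q s / 2 := by
    have e5 : (S.b : ℝ) * (S.θ ^ 2 * l ^ 2 * S.q s / 2) = (S.b * S.θ ^ 2) * (l ^ 2 * S.q s / 2) := by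
      ring
    have e6 := mul_le_mul_of_nonneg_right hcrit (by positivity : 0 ≤ l ^ 2 * S.q s / 2)
    rw [e5]
    linarith
  have e7 : (S.b : ℝ) * E = S.b * (S.θ * l * ((S.q s / a + a) / 2)) +
      S.b * (S.θ ^ 2 * l ^ 2 * S.q s / 2) + S.b * C / 10 := by rw [hE]; ring
  rw [e7]
  linarith

private lemma mgf_small {s : ℝ} (hs0 : 0 ≤ s) (hs : s ≤ 1) {l a : ℝ} (hl : 0 ≤ l) (ha : 0 < a)
    (hε : l * s + S.b * (S.θ * l * ((S.q s / a + a) / 2)) + l ^ 2 * S.q s / 2 ≤ 1 / 400) :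
    ∫ ω, Real.exp (l * |S.n (cst s) S.o S.o' ω|) ∂S.P ≤ 11 / 10 := by
  have hθ := S.θ0
  have hq := S.q_nonneg s
  have key : ∀ j : ℕ, ∀ l' : ℝ, 0 ≤ l' → l' ≤ l → (19 / 20 : ℝ) ^ j * l' ≤ 9 / 100 →
      ∫ ω, Real.exp (l' * |S.n (cst s) S.o S.o' ω|) ∂S.P ≤ 11 / 10 := by
    intro j
    induction j with
    | zero =>
      intro l' h0 _ h2
      exact (S.mgf_le_exp s _ _ h0).trans (exp_le_of_small (by simpa using h2))
    | succ j ih =>
      intro l' h0 h1 h2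
      refine S.mgf_step hs0 hs h0 ha (le_trans ?_ hε)
        (ih (19 / 20 * l') (by positivity) (by linarith) (by rw [← mul_assoc, ← pow_succ]; exact h2))
      gcongr
  obtain ⟨j, hj⟩ := exists_pow_lt_of_lt_one (x := 9 / 100 / (l + 1)) (y := (19 / 20 : ℝ))
    (by positivity) (by norm_num)
  refine key j l hl le_rfl ?_
  rw [lt_div_iff₀ (by positivity)] at hj
  have : (0 : ℝ) ≤ (19 / 20 : ℝ) ^ j := by positivity
  nlinarith

/-- Proof: with `θ' = 19/20`, `exp_mul_le` at `θ/θ'` gives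
`Φ(λ) ≤ exp (ε + (7/8) (Φ(θ' λ) - 1))` with `ε = λ s + b θ λ √q + λ² q/2` (use `b θ² ≤ 1`,
`θ ≤ 3/4`, `q ≤ c y⁶` from `exists_q_upper` at `y²`); `Φ(θ'^j λ) ≤ 11/10` for large `j`, and this
bound propagates down to `j = 0` when `ε ≤ 1/200`. For `y = 1` use `|n| ≤ 1`. For `s < 0` the
record equals the one at `s = 0` (`D_congr`). -/
lemma exists_mgf : ∃ c : ℝ, 0 < c ∧ ∀ s y : ℝ, 0 < y → y ≤ 1 → (s ≤ y ^ 4 ∨ y = 1) →
    ∀ x x' : V, S.G.Adj x x' →
      ∫ ω, Real.exp (c / y ^ 3 * |S.n (cst s) x x' ω|) ∂S.P ≤ 2 := by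
  obtain ⟨c₀, hc₀, hq⟩ := S.exists_q_upper
  have hθ := S.θ0
  have hθ' := S.theta_le
  obtain ⟨K, hK⟩ : ∃ K : ℝ, K = 1 + S.b * (c₀ + 1) + c₀ := ⟨_, rfl⟩
  have hb0 : (0 : ℝ) ≤ S.b := Nat.cast_nonneg _
  have hK1 : 1 ≤ K := by
    have : 0 ≤ (S.b : ℝ) * (c₀ + 1) := by positivity
    linarith
  obtain ⟨c, hc⟩ : ∃ c : ℝ, c = 1 / (400 * K) := ⟨_, rfl⟩
  have hc0 : 0 < c := by rw [hc]; positivity
  have hcK : c * K = 1 / 400 := by rw [hc]; field_simp
  have hc1 : c ≤ 1 / 400 := by nlinarith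
  refine ⟨c, hc0, ?_⟩
  have main : ∀ s y : ℝ, 0 ≤ s → 0 < y → y ≤ 1 → s ≤ y ^ 4 →
      ∫ ω, Real.exp (c / y ^ 3 * |S.n (cst s) S.o S.o' ω|) ∂S.P ≤ 11 / 10 := by
    intro s y hs0 hy0 hy1 hs
    have hy4 : y ^ 4 ≤ 1 := pow_le_one₀ hy0.le hy1
    have hy3 : 0 < y ^ 3 := by positivity
    have hq1 : S.q s ≤ c₀ * (y ^ 2) ^ 3 :=
      (hq s (y ^ 2) (by positivity) (pow_le_one₀ hy0.le hy1) (by rw [← pow_mul]; exact hs)).1
    have hq0 := S.q_nonneg s
    refine S.mgf_small hs0 (hs.trans hy4) (a := y ^ 3) (by positivity) hy3 ?_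
    have e1 : c / y ^ 3 * s ≤ c := by
      have e2 : c / y ^ 3 * s ≤ c / y ^ 3 * y ^ 4 := mul_le_mul_of_nonneg_left hs (by positivity)
      have e3 : c / y ^ 3 * y ^ 4 = c * y := by field_simp
      have e4 : c * y ≤ c * 1 := mul_le_mul_of_nonneg_left hy1 hc0.le
      linarith
    have e5 : S.θ * (c / y ^ 3) * ((S.q s / y ^ 3 + y ^ 3) / 2) ≤ c * (c₀ + 1) := by
      have e6 : S.θ * (c / y ^ 3) * ((S.q s / y ^ 3 + y ^ 3) / 2) ≤
          1 * (c / y ^ 3) * ((c₀ * (y ^ 2) ^ 3 / y ^ 3 + y ^ 3) / 2) := by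
        gcongr
        linarith
      have e7 : 1 * (c / y ^ 3) * ((c₀ * (y ^ 2) ^ 3 / y ^ 3 + y ^ 3) / 2) = c * (c₀ + 1) / 2 := by
        field_simp
      have e8 : 0 ≤ c * (c₀ + 1) := by positivity
      linarith
    have e9 : (c / y ^ 3) ^ 2 * S.q s / 2 ≤ c * c₀ := by
      have e10 : (c / y ^ 3) ^ 2 * S.q s ≤ (c / y ^ 3) ^ 2 * (c₀ * (y ^ 2) ^ 3) :=
        mul_le_mul_of_nonneg_left hq1 (by positivity)
      have e11 : (c / y ^ 3) ^ 2 * (c₀ * (y ^ 2) ^ 3) = c * (c * c₀) := by field_simp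
      have e12 : c * (c * c₀) ≤ 1 * (c * c₀) :=
        mul_le_mul_of_nonneg_right (by linarith) (by positivity)
      have e13 : 0 ≤ c * c₀ := by positivity
      linarith
    have e14 := mul_le_mul_of_nonneg_left e5 hb0
    have e15 : c * K = c + S.b * (c * (c₀ + 1)) + c * c₀ := by rw [hK]; ring
    linarith
  intro s y hy0 hy1 hs x x' hx
  rcases hs with hs | rfl
  · rw [S.integral_n_eq s hx S.adj_o' (Φ := fun t => Real.exp (c / y ^ 3 * |t|)) (by fun_prop)]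
    rcases le_total 0 s with hs0 | hs0
    · linarith [main s y hs0 hy0 hy1 hs]
    · have e : S.n (cst s) S.o S.o' = S.n (cst 0) S.o S.o' := by
        refine S.m_congr (fun w ω => ?_) _
        have := S.tm_nonneg w ω
        unfold res cst
        split_ifs
        · constructor <;> intro h <;> linarith
        · rfl
      rw [e]
      linarith [main 0 y le_rfl hy0 hy1 (by positivity)]
  · refine (S.mgf_le_exp s x x' (by positivity)).trans ?_
    have := exp_le_of_small (t := c / 1 ^ 3) (by rw [one_pow, div_one]; linarith)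
    linarith

/-- Tail bound. -/
lemma exists_tail : ∃ c : ℝ, 0 < c ∧ ∀ s y : ℝ, 0 < y → y ≤ 1 → (s ≤ y ^ 4 ∨ y = 1) →
    ∀ x x' : V, S.G.Adj x x' → ∀ M : ℝ,
      S.P.real {ω | M < |S.n (cst s) x x' ω|} ≤ 2 * Real.exp (-(c / y ^ 3 * M)) := by
  obtain ⟨c, hc, h⟩ := S.exists_mgf
  refine ⟨c, hc, fun s y hy0 hy1 hs x x' hx M => ?_⟩
  have h1 := h s y hy0 hy1 hs x x' hx
  have hl : 0 ≤ c / y ^ 3 := by positivity
  have hi : Integrable (fun ω => Real.exp (c / y ^ 3 * |S.n (cst s) x x' ω|)) S.P :=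
    ((S.bdd_n _ _ _).abs.const_mul _).exp.integrable
  have h2 := mul_meas_ge_le_integral_of_nonneg
    (Filter.Eventually.of_forall fun ω => (Real.exp_pos _).le) hi (Real.exp (c / y ^ 3 * M))
  have h3 : S.P.real {ω | M < |S.n (cst s) x x' ω|} ≤
      S.P.real {ω | Real.exp (c / y ^ 3 * M) ≤ Real.exp (c / y ^ 3 * |S.n (cst s) x x' ω|)} := by
    refine measureReal_mono (fun ω hω => ?_) (measure_ne_top _ _)
    exact Real.exp_le_exp.2 (mul_le_mul_of_nonneg_left (le_of_lt hω) hl)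
  refine h3.trans ?_
  rw [Real.exp_neg, ← div_eq_mul_inv, le_div_iff₀ (Real.exp_pos _), mul_comm]
  exact h2.trans h1

end Setup

end Crest.Agent.R160

end
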