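import Crest.Agent.R160.Geo
import Crest.Agent.R160.CE

/-! Row 160: the probability space and all random variables (definitions, trivial facts). -/

set_option warn.classDefReducibility false

noncomputable section

namespace Crest.Agent.R160

open Classical MeasureTheory ProbabilityTheory

universe u

/-- A fair coin. -/
def coin : Measure Bool :=
  (1 / 2 : ENNReal) • Measure.dirac true + (1 / 2 : ENNReal) • Measure.dirac false

instance : IsProbabilityMeasure coin := by
  constructor
  simp [coin, ENNReal.inv_two_add_inv_two]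

/-- The sign of a Boolean. -/
def sgn (b : Bool) : ℝ := if b then 1 else -1

/-- Observation records: for every index a time and a value (`(-1,0)` if not revealed). -/
abbrev Data (V : Type u) : Type u := V × ℕ → ℝ × ℝ

/-- Multiply the values of a record by a sign. -/
def act {V : Type u} (ε : ℝ) (d : Data V) : Data V := fun w => ((d w).1, ε * (d w).2)

/-- The constant threshold function. -/
def cst {V : Type u} (s : ℝ) : V × ℕ → ℝ := fun _ => s

/-- Restrict a threshold function to the vertices of `B` (nothing is revealed elsewhere). -/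
def res {V : Type u} (th : V × ℕ → ℝ) (B : Set V) : V × ℕ → ℝ :=
  fun w => if w.1 ∈ B then th w else 0

/-- Switch off the index `w`. -/
def off {V : Type u} (th : V × ℕ → ℝ) (w : V × ℕ) : V × ℕ → ℝ := Function.update th w 0

/-- Keep only the index `w`. -/
def single {V : Type u} (th : V × ℕ → ℝ) (w : V × ℕ) : V × ℕ → ℝ :=
  fun w' => if w' = w then th w else 0

/-- `m` is contained in `m'` locally on the event `E`. -/
def Loc {Ω : Type*} (E : Set Ω) (m m' : MeasurableSpace Ω) : Prop :=
  MeasurableSet[m'] E ∧ ∀ A, MeasurableSet[m] A → MeasurableSet[m'] (A ∩ E)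

/-- Only vertices of `B` can be revealed. -/
def Supp {V : Type u} (th : V × ℕ → ℝ) (B : Set V) : Prop := ∀ w, 0 < th w → w.1 ∈ B

namespace Setup

variable {V : Type u} (S : Setup V)

/-- Independent coordinates: one per edge, and a time and a noise per (vertex, round). -/
abbrev Idx : Type u := S.G.edgeSet ⊕ ((V × ℕ) ⊕ (V × ℕ))

/-- The sample space: a coin and uniform labels. -/
abbrev Om : Type u := Bool × (S.Idx → unitInterval)

def lab : Measure (S.Idx → unitInterval) :=
  Measure.infinitePi (fun _ : S.Idx => (volume : Measure unitInterval))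

instance : IsProbabilityMeasure S.lab := by unfold lab; infer_instance

def P : Measure S.Om := coin.prod S.lab

instance : IsProbabilityMeasure S.P := by unfold P; infer_instance

def iE (e : S.G.edgeSet) : S.Idx := Sum.inl e
def iT (w : V × ℕ) : S.Idx := Sum.inr (Sum.inl w)
def iN (w : V × ℕ) : S.Idx := Sum.inr (Sum.inr w)

/-- The edge sign: `+1` with probability `(1+θ)/2`. -/
def tau (x y : V) (ω : S.Om) : ℝ :=
  if h : S.G.Adj x y then (if (ω.2 (S.iE ⟨s(x, y), h⟩) : ℝ) ≤ (1 + S.θ) / 2 then 1 else -1) else 1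

/-- The Ising spins. -/
def σ (v : V) (ω : S.Om) : ℝ := sgn ω.1 * S.Pi (fun x y => S.tau x y ω) S.o v

def T (w : V × ℕ) (ω : S.Om) : ℝ := ω.2 (S.iT w)
def eta (w : V × ℕ) (ω : S.Om) : ℝ := ω.2 (S.iN w)

/-- The time at which the index `w` is revealed. -/
def tm (w : V × ℕ) (ω : S.Om) : ℝ := w.2 + S.T w ω

/-- The signal strength of the index `w`. -/
def a (w : V × ℕ) (ω : S.Om) : ℝ := aa (S.T w ω)

def Yh (w : V × ℕ) (ω : S.Om) : ℝ := Qi (S.eta w ω) (S.a w ω)

/-- The observation: density `(1 + a σ y)/2` on `[-1,1]`. -/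
def Y (w : V × ℕ) (ω : S.Om) : ℝ := S.σ w.1 ω * S.Yh w ω

/-- The record of the observations revealed strictly before their thresholds. -/
def D (th : V × ℕ → ℝ) (ω : S.Om) : Data V :=
  fun w => if S.tm w ω < th w then (S.tm w ω, S.Y w ω) else (-1, 0)

def F (th : V × ℕ → ℝ) : MeasurableSpace S.Om := MeasurableSpace.comap (S.D th) inferInstance

/-- The record available just before `w` is revealed. -/
def Dlt (w : V × ℕ) (ω : S.Om) : ℝ × Data V := (S.tm w ω, S.D (cst (S.tm w ω)) ω)

def Flt (w : V × ℕ) : MeasurableSpace S.Om := MeasurableSpace.comap (S.Dlt w) inferInstance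

/-- The record available just after `w` is revealed. -/
def Fle (w : V × ℕ) : MeasurableSpace S.Om :=
  S.Flt w ⊔ MeasurableSpace.comap (S.Y w) inferInstance

def M (w : V × ℕ) : S.Om → ℝ := cE S.P (S.Flt w) (S.σ w.1)

/-- The innovation. -/
def U (w : V × ℕ) (ω : S.Om) : ℝ := Fc (S.Y w ω) (S.a w ω * S.M w ω)

/-- The record of innovations revealed strictly before time `s`. -/
def Gam (s : ℝ) (ω : S.Om) : Data V :=
  fun w => if S.tm w ω < s then (S.tm w ω, S.U w ω) else (-1, 0)

def Gs (s : ℝ) : MeasurableSpace S.Om := MeasurableSpace.comap (S.Gam s) inferInstance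

/-- All times and innovations. -/
def Xi (ω : S.Om) : V → ℕ → unitInterval × unitInterval :=
  fun v i => (ω.2 (S.iT (v, i)), Set.projIcc 0 1 zero_le_one (S.U (v, i) ω))

/-- Posterior magnetisation. -/
def m (th : V × ℕ → ℝ) (v : V) : S.Om → ℝ := cE S.P (S.F th) (S.σ v)

def pp (th : V × ℕ → ℝ) (x y : V) : S.Om → ℝ := cE S.P (S.F th) (fun ω => S.σ x ω * S.σ y ω)

/-- Posterior covariance. -/
def C (th : V × ℕ → ℝ) (x y : V) (ω : S.Om) : ℝ := S.pp th x y ω - S.m th x ω * S.m th y ω

/-- Cavity magnetisation of `y` given the half-tree `sub x y`. -/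
def n (th : V × ℕ → ℝ) (x y : V) : S.Om → ℝ := S.m (res th (S.sub x y)) y

lemma exists_mfun (th : V × ℕ → ℝ) (v : V) :
    ∃ g : Data V → ℝ, Measurable g ∧ (∀ d, |g d| ≤ 1) ∧ ∀ ω, S.m th v ω = g (S.D th ω) := by
  have h : Measurable[MeasurableSpace.comap (S.D th) inferInstance] (S.m th v) :=
    measurable_cE _ _
  obtain ⟨g, hg, hge⟩ := h.exists_eq_measurable_comp
  refine ⟨fun d => clip 1 (g d), Measurable.clip' 1 hg, fun d => abs_clip_le zero_le_one _,
    fun ω => ?_⟩
  have h1 : S.m th v ω = g (S.D th ω) := congrFun hge ω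
  show S.m th v ω = clip 1 (g (S.D th ω))
  rw [← h1]; exact (clip_of_abs_le (abs_cE_le _ _ _)).symm

/-- The posterior magnetisation as a function of the record. -/
def mfun (th : V × ℕ → ℝ) (v : V) : Data V → ℝ := (S.exists_mfun th v).choose

/-- The record seen relative to the spin at `y`. -/
def Dh (th : V × ℕ → ℝ) (y : V) (ω : S.Om) : Data V := act (S.σ y ω) (S.D th ω)

/-- A version of `σ y * m th y` that is a function of the relative record. -/
def mh (th : V × ℕ → ℝ) (y : V) (ω : S.Om) : ℝ :=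
  (S.mfun th y (S.Dh th y ω) - S.mfun th y (act (-1) (S.Dh th y ω))) / 2

def nh (th : V × ℕ → ℝ) (x y : V) : S.Om → ℝ := S.mh (res th (S.sub x y)) y

/-- The normalised regression coefficient of the oriented edge `(x,y)`. -/
def rh (th : V × ℕ → ℝ) (x y : V) (ω : S.Om) : ℝ := rho S.θ (S.nh th x y ω)

/-- Product of the regression coefficients along the geodesic from `x` to `y`. -/
def Pr (th : V × ℕ → ℝ) (x y : V) (ω : S.Om) : ℝ := S.Pi (fun p q => S.rh th p q ω) x y

/-- The Bayes factor of the single index `w`. -/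
def Nw (th : V × ℕ → ℝ) (w : V × ℕ) (ω : S.Om) : ℝ :=
  if S.tm w ω < th w then S.a w ω * S.Y w ω else 0

/-- σ-algebra of one label. -/
def I1 (i : S.Idx) : MeasurableSpace S.Om :=
  MeasurableSpace.comap (fun ω : S.Om => ω.2 i) inferInstance

/-- σ-algebra of a set of labels. -/
def I (A : Set S.Idx) : MeasurableSpace S.Om := ⨆ i ∈ A, S.I1 i

/-- σ-algebra of one spin. -/
def Sg (y : V) : MeasurableSpace S.Om := MeasurableSpace.comap (S.σ y) inferInstance

/-- σ-algebra of all spins. -/
def Sp : MeasurableSpace S.Om := ⨆ v, S.Sg v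

/-- Everything except the label `i`. -/
def Kx (i : S.Idx) : MeasurableSpace S.Om := S.Sg S.o ⊔ S.I {i}ᶜ

/-- The labels attached to the vertex set `B` and to the edges inside `B`. -/
def reg (B : Set V) : Set S.Idx :=
  {i | Sum.elim (fun e : S.G.edgeSet => ∀ v ∈ (e : Sym2 V), v ∈ B)
    (Sum.elim (fun w : V × ℕ => w.1 ∈ B) (fun w : V × ℕ => w.1 ∈ B)) i}

/-- The action of an automorphism on the indices. -/
def idxMap (g : S.G ≃g S.G) : S.Idx ≃ S.Idx :=
  Equiv.sumCongr g.mapEdgeSet
    (Equiv.sumCongr (Equiv.prodCongr g.toEquiv (Equiv.refl ℕ))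
      (Equiv.prodCongr g.toEquiv (Equiv.refl ℕ)))

/-- The action of an automorphism on the sample space: `σ v (Θ g ω) = σ (g v) ω`. -/
def Θ (g : S.G ≃g S.G) (ω : S.Om) : S.Om :=
  (decide (0 < S.σ (g S.o) ω), fun i => ω.2 (S.idxMap g i))

/-- The global spin flip. -/
def flip (ω : S.Om) : S.Om := (!ω.1, ω.2)

/-- Indicator that `w` is revealed in the window `[s, s+δ)`. -/
def ind (w : V × ℕ) (s δ : ℝ) (ω : S.Om) : ℝ :=
  if s ≤ S.tm w ω ∧ S.tm w ω < s + δ then 1 else 0

/-- The part of `f` that is not predicted by the innovations. -/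
def til (s : ℝ) (f : S.Om → ℝ) (ω : S.Om) : ℝ := f ω - S.P[f | S.Gs s] ω

/-- A jump driven by the innovation of `w`. -/
def LL (w : V × ℕ) (s δ : ℝ) (c m₁ : S.Om → ℝ) (ω : S.Om) : ℝ :=
  S.ind w s δ ω * c ω * jh (S.U w ω) (S.a w ω) (m₁ ω)

/-- The jump of the posterior mean of `σ o` caused by `w` on top of the record `th`. -/
def JJ (w : V × ℕ) (s δ : ℝ) (th : V × ℕ → ℝ) (ω : S.Om) : ℝ :=
  S.ind w s δ ω * S.C th S.o w.1 ω * jj (S.Y w ω) (S.a w ω) (S.m th w.1 ω)

/-- Information gauge of the three spin functions attached to `w`, with `w` switched off. -/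
def ee (w : V × ℕ) (t : ℝ) : ℝ :=
  ∫ ω, S.m (off (cst t) w) S.o ω ^ 2 ∂S.P + ∫ ω, S.m (off (cst t) w) w.1 ω ^ 2 ∂S.P +
    ∫ ω, S.pp (off (cst t) w) S.o w.1 ω ^ 2 ∂S.P

/-- Logarithm of the regression coefficient. -/
def av (s : ℝ) (x y : V) (ω : S.Om) : ℝ := Real.log (S.rh (cst s) x y ω)

/-- Logarithm of the posterior variance. -/
def a0 (s : ℝ) (x : V) (ω : S.Om) : ℝ := Real.log (1 - S.m (cst s) x ω ^ 2)

/-- Threshold function of `y` together with the branches behind the neighbours in `Z`. -/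
def resZ (th : V × ℕ → ℝ) (y : V) (Z : Finset V) : V × ℕ → ℝ :=
  res th {v | v = y ∨ ∃ z ∈ Z, v ∈ S.sub y z}

/-- Transport of a threshold function along an automorphism. -/
def push (g : S.G ≃g S.G) (th : V × ℕ → ℝ) : V × ℕ → ℝ := fun w => th (g.symm w.1, w.2)

/-- The quantity to be shown to vanish. -/
def phi (s : ℝ) : ℝ := ∫ ω, S.til s (S.m (cst s) S.o) ω ^ 2 ∂S.P

def psi (s : ℝ) (u : V) : ℝ :=
  ∫ ω, S.til s (S.C (cst s) S.o u) ω ^ 2 ∂S.P +
    ∫ ω, S.C (cst s) S.o u ω ^ 2 * S.til s (S.m (cst s) u) ω ^ 2 ∂S.P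

/-- A fixed neighbour of the base vertex. -/
def o' : V := (S.exists_adj S.o).choose

/-- Second moment of the cavity magnetisation at time `s`. -/
def q (s : ℝ) : ℝ := ∫ ω, S.n (cst s) S.o S.o' ω ^ 2 ∂S.P

/-- Decay rate of the normalised path weights. -/
def vt (s : ℝ) : ℝ := 1 - S.θ ^ 2 * S.q s / 16

/-- The criticality parameter. -/
def kappa : ℝ := S.b * S.θ ^ 2

end Setup

end Crest.Agent.R160

end
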