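import Crest.Agent.R160.Post

/-! Row 160: second moments of the magnetisations. -/

noncomputable section

namespace Crest.Agent.R160

open Classical MeasureTheory ProbabilityTheory

universe u

namespace Setup

variable {V : Type u} (S : Setup V)

lemma integral_m_sq_mono {th th' : V × ℕ → ℝ} (h : S.F th ≤ S.F th') (v : V) :
    ∫ ω, S.m th v ω ^ 2 ∂S.P ≤ ∫ ω, S.m th' v ω ^ 2 ∂S.P := by
  rw [integral_congr_ae (g := fun ω => S.P[S.σ v | S.F th] ω ^ 2)
      (by filter_upwards [S.m_ae_eq th v] with ω hω; rw [hω]),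
    integral_congr_ae (f := fun ω => S.m th' v ω ^ 2) (g := fun ω => S.P[S.σ v | S.F th'] ω ^ 2)
      (by filter_upwards [S.m_ae_eq th' v] with ω hω; rw [hω])]
  exact integral_condExp_sq_mono h (S.F_le th') (S.bdd_σ v)

lemma integral_mh (th : V × ℕ → ℝ) (v : V) :
    ∫ ω, S.mh th v ω ∂S.P = ∫ ω, S.m th v ω ^ 2 ∂S.P := by
  rw [integral_congr_ae (g := fun ω => S.σ v ω * S.P[S.σ v | S.F th] ω)
      (by filter_upwards [S.m_ae_eq th v, S.mh_ae_eq th v] with ω hω h'; rw [h', hω]),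
    integral_mul_self_condExp (S.F_le th) (S.bdd_σ v)]
  exact integral_congr_ae (by filter_upwards [S.m_ae_eq th v] with ω hω; rw [hω])

lemma integral_mh_sq (th : V × ℕ → ℝ) (v : V) :
    ∫ ω, S.mh th v ω ^ 2 ∂S.P = ∫ ω, S.m th v ω ^ 2 ∂S.P := by
  refine integral_congr_ae ?_
  filter_upwards [S.mh_ae_eq th v] with ω h
  rw [h, mul_pow, sq (S.σ v ω), S.σ_mul_self, one_mul]

lemma q_mono {s t : ℝ} (h : s ≤ t) : S.q s ≤ S.q t := by
  refine S.integral_m_sq_mono (S.F_mono fun w => ?_) _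
  simp only [res, cst]
  split_ifs
  exacts [h, le_rfl]

lemma vt_anti {s t : ℝ} (h : s ≤ t) : S.vt t ≤ S.vt s := by
  have := mul_le_mul_of_nonneg_left (S.q_mono h) (sq_nonneg S.θ)
  simp only [vt]
  linarith

lemma q_le_integral_n_sq {th : V × ℕ → ℝ} {s : ℝ} {x y : V} (h : S.G.Adj x y)
    (hth : ∀ w, w.1 ∈ S.sub x y → s ≤ th w) : S.q s ≤ ∫ ω, S.n th x y ω ^ 2 ∂S.P := by
  rw [← S.integral_n_sq s h]
  refine S.integral_m_sq_mono (S.F_mono fun w => ?_) _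
  simp only [res, cst]
  split_ifs with hw
  exacts [hth w hw, le_rfl]

/-- Second moment after merging two independent records. With `X = mh th₁ y`, `Z = mh th₂ y`
(independent, `E X = E X² = x₁`, `E Z = E Z² = x₂`): `∫ m th y ^ 2 = ∫ σ y * m th y = ∫ op X Z`
(`spin_mul_op`), then `op_expand`. -/
lemma integral_merge {th th₁ th₂ : V × ℕ → ℝ}
    (hth : ∀ w ω, S.tm w ω < th w ↔ S.tm w ω < th₁ w ∨ S.tm w ω < th₂ w) {y z : V}
    (h : S.G.Adj y z) (h₁ : Supp th₁ (S.sub z y)) (h₂ : Supp th₂ (S.sub y z)) :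
    |∫ ω, S.m th y ω ^ 2 ∂S.P -
        ((∫ ω, S.m th₁ y ω ^ 2 ∂S.P) + (∫ ω, S.m th₂ y ω ^ 2 ∂S.P) -
          2 * (∫ ω, S.m th₁ y ω ^ 2 ∂S.P) * ∫ ω, S.m th₂ y ω ^ 2 ∂S.P)| ≤
      (∫ ω, S.m th₁ y ω ^ 2 ∂S.P) * ∫ ω, S.m th₂ y ω ^ 2 ∂S.P := by
  have hX := S.measurable_mh_of_Dh (S.measurable_Dh_reg h.symm h₁ (S.self_mem_sub h.symm))
  have hZ := S.measurable_mh_of_Dh (S.measurable_Dh_creg h h₂)
  have hind := S.indep_I (disjoint_compl_right (a := S.reg (S.sub z y)))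
  have bX := S.bdd_mh th₁ y
  have bZ := S.bdd_mh th₂ y
  have hprod : ∀ i j : ℕ, ∫ ω, S.mh th₁ y ω ^ i * S.mh th₂ y ω ^ j ∂S.P =
      (∫ ω, S.mh th₁ y ω ^ i ∂S.P) * ∫ ω, S.mh th₂ y ω ^ j ∂S.P := fun i j =>
    integral_mul_of_indep' (S.I_le _) (S.I_le _) hind (hX.pow_const i).aestronglyMeasurable
      (hZ.pow_const j).aestronglyMeasurable
  have h21 := hprod 2 1
  have h12 := hprod 1 2
  have h22 := hprod 2 2
  simp only [pow_one, S.integral_mh, S.integral_mh_sq] at h21 h12 h22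
  have hexp : ∀ᵐ ω ∂S.P, S.mh th y ω = S.mh th₁ y ω + S.mh th₂ y ω -
      (S.mh th₁ y ω ^ 2 * S.mh th₂ y ω + S.mh th₁ y ω * S.mh th₂ y ω ^ 2) +
      S.mh th₁ y ω ^ 2 * S.mh th₂ y ω ^ 2 * S.mh th y ω := by
    filter_upwards [S.mh_ae_eq th y, S.mh_ae_eq th₁ y, S.mh_ae_eq th₂ y, S.m_merge hth h h₁ h₂,
      S.abs_m_edge_le h h₂] with ω e e₁ e₂ e₃ e₄
    have e₅ : S.mh th y ω = op (S.mh th₁ y ω) (S.mh th₂ y ω) := by
      rw [e, e₃, spin_mul_op (S.σ_cases y ω), e₁, e₂]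
    have e₆ : |S.mh th₂ y ω| ≤ 3 / 4 := by rw [e₂, abs_mul, S.abs_σ, one_mul]; exact e₄
    rw [e₅]
    conv_lhs => rw [op_expand (S.abs_mh_le th₁ y ω) e₆]
    ring
  have b1 := (bX.pow 2).mul bZ
  have b2 := bX.mul (bZ.pow 2)
  have b3 := (bX.pow 2).mul (bZ.pow 2)
  have b4 := b3.mul (S.bdd_mh th y)
  rw [← S.integral_mh th y, integral_congr_ae hexp,
    integral_add ((bX.add bZ).sub (b1.add b2)).integrable b4.integrable,
    integral_sub (bX.add bZ).integrable (b1.add b2).integrable,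
    integral_add bX.integrable bZ.integrable, integral_add b1.integrable b2.integrable, h21, h12,
    S.integral_mh, S.integral_mh, ← h22]
  refine le_trans (le_of_eq ?_) ((abs_integral_le_integral_abs (μ := S.P) (f := fun ω =>
    S.mh th₁ y ω ^ 2 * S.mh th₂ y ω ^ 2 * S.mh th y ω)).trans
      (integral_mono b4.abs.integrable b3.integrable fun ω => ?_))
  · congr 1
    rw [mul_assoc, ← h22]
    ring
  · dsimp only
    rw [abs_mul, abs_of_nonneg (by positivity)]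
    exact mul_le_of_le_one_right (by positivity) (S.abs_mh_le th y ω)

lemma integral_Nw_sq (s : ℝ) (y : V) :
    ∫ ω, S.Nw (cst s) (y, 0) ω ^ 2 ∂S.P =
      (∫ t : unitInterval, (if (t : ℝ) < s then aa t ^ 2 else 0)) / 3 := by
  have haa : ∀ t : unitInterval, |aa t| ≤ 1 / 4 := fun t => by
    rw [abs_of_nonneg (aa_nonneg t.2.1 t.2.2)]; exact aa_le _
  have hset : MeasurableSet {t : unitInterval | (t : ℝ) < s} :=
    measurableSet_lt measurable_subtype_coe measurable_const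
  have h1 := S.integral_label_of_Kx (S.iN (y, 0)) (X := fun ω => ω.2 (S.iT (y, 0)))
    ((Measurable.of_comap_le le_rfl).mono
      (S.I1_le_Kx (i := S.iT (y, 0)) (by simp [iT, iN])) le_rfl)
    (ζ := fun p => if (p.1 : ℝ) < s then aa p.1 ^ 2 * Qi p.2 (aa p.1) ^ 2 else 0)
    (Measurable.ite (measurable_fst hset) (by unfold Qi aa; fun_prop) measurable_const) (K := 1)
    (fun ω t => by
      dsimp only
      split_ifs
      · rw [← mul_pow, abs_pow]
        refine pow_le_one₀ (abs_nonneg _) ?_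
        rw [abs_mul]
        exact mul_le_one₀ ((haa _).trans (by norm_num)) (abs_nonneg _)
          (abs_Qi_le t.2.1 t.2.2 (haa _))
      · simp)
  have h2 : ∀ t : unitInterval, (∫ η : unitInterval,
      if (t : ℝ) < s then aa t ^ 2 * Qi η (aa t) ^ 2 else 0) =
        (if (t : ℝ) < s then aa t ^ 2 else 0) / 3 := by
    intro t
    split_ifs
    · rw [integral_const_mul, integral_Qi_sq (haa t)]; ring
    · simp
  simp only [h2] at h1
  rw [S.integral_label _ (h := fun t => (if (t : ℝ) < s then aa t ^ 2 else 0) / 3)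
    ((Measurable.ite hset (by unfold aa; fun_prop) measurable_const).div_const _),
    integral_div] at h1
  rw [← h1]
  congr 1
  ext ω
  simp only [Nw, tm, cst, Nat.cast_zero, zero_add, T, a, Y, Yh, eta]
  split_ifs
  · rw [mul_pow, mul_pow, sq (S.σ y ω), S.σ_mul_self, one_mul]
  · simp

private lemma one_sub_pow_ge {t : ℝ} (h0 : 0 ≤ t) (h1 : t ≤ 1) {b : ℕ} (hb : 2 ≤ b) :
    1 - b * t + t ^ 2 ≤ (1 - t) ^ b := by
  induction b, hb using Nat.le_induction with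
  | base => push_cast; nlinarith
  | succ b hb ih =>
    have h2 := mul_le_mul_of_nonneg_right ih (sub_nonneg.2 h1)
    have h3 : (2 : ℝ) ≤ b := by exact_mod_cast hb
    rw [pow_succ (1 - t)]
    push_cast
    nlinarith [mul_nonneg (sq_nonneg t) (show 0 ≤ b - t by linarith)]

private lemma integral_m_branch (s : ℝ) {y z : V} (h : S.G.Adj y z) :
    ∫ ω, S.m (res (cst s) (S.sub y z)) y ω ^ 2 ∂S.P = S.θ ^ 2 * S.q s := by
  rw [← S.integral_n_sq s h, ← integral_const_mul]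
  refine integral_congr_ae ?_
  filter_upwards [S.m_edge h (supp_res (cst s) _)] with ω hω
  rw [hω, mul_pow]
  rfl

private lemma integral_res_singleton {s : ℝ} (hs : s ≤ 1) (y : V) :
    ∫ ω, S.m (S.resZ (cst s) y ∅) y ω ^ 2 ∂S.P =
      (∫ t : unitInterval, (if (t : ℝ) < s then aa t ^ 2 else 0)) / 3 := by
  rw [← S.integral_Nw_sq s y, S.resZ_empty]
  refine integral_congr_ae ?_
  filter_upwards [S.m_res_singleton hs y] with ω hω
  rw [hω]

private lemma resZ_step (s : ℝ) {y z : V} {Z : Finset V} (hZ : insert z Z ⊆ S.nb y)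
    (hzZ : z ∉ Z) :
    |∫ ω, S.m (S.resZ (cst s) y (insert z Z)) y ω ^ 2 ∂S.P -
        ((∫ ω, S.m (S.resZ (cst s) y Z) y ω ^ 2 ∂S.P) + S.θ ^ 2 * S.q s -
          2 * (∫ ω, S.m (S.resZ (cst s) y Z) y ω ^ 2 ∂S.P) * (S.θ ^ 2 * S.q s))| ≤
      (∫ ω, S.m (S.resZ (cst s) y Z) y ω ^ 2 ∂S.P) * (S.θ ^ 2 * S.q s) := by
  have hz : S.G.Adj y z := (S.mem_nb _ _).1 (hZ (Finset.mem_insert_self _ _))
  rw [← S.integral_m_branch s hz]
  exact S.integral_merge (S.split_resZ (cst s) y Z z) hz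
    (S.supp_resZ _ ((Finset.subset_insert _ _).trans hZ) hz hzZ) (supp_res _ _)

private lemma resZ_upper (s : ℝ) (y : V) (Z : Finset V) (hZ : Z ⊆ S.nb y) :
    (1 - ∫ ω, S.m (S.resZ (cst s) y ∅) y ω ^ 2 ∂S.P) * (1 - S.θ ^ 2 * S.q s) ^ Z.card ≤
      1 - ∫ ω, S.m (S.resZ (cst s) y Z) y ω ^ 2 ∂S.P := by
  induction Z using Finset.induction_on with
  | empty => simp
  | insert z Z hzZ ih =>
    have h1 := (abs_le.1 (S.resZ_step s hZ hzZ)).2
    have h2 : 0 ≤ 1 - S.θ ^ 2 * S.q s := by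
      nlinarith [S.theta_sq_le, S.q_le_one s, S.q_nonneg s, sq_nonneg S.θ]
    have h3 := mul_le_mul_of_nonneg_right (ih ((Finset.subset_insert _ _).trans hZ)) h2
    rw [Finset.card_insert_of_notMem hzZ, pow_succ, ← mul_assoc]
    linarith

private lemma resZ_lower (s : ℝ) {x y : V} (h : S.G.Adj x y) (Z : Finset V) (hZ : Z ⊆ S.ch x y) :
    ∫ ω, S.m (S.resZ (cst s) y ∅) y ω ^ 2 ∂S.P + Z.card * (S.θ ^ 2 * S.q s * (1 - 3 * S.q s)) ≤
      ∫ ω, S.m (S.resZ (cst s) y Z) y ω ^ 2 ∂S.P := by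
  induction Z using Finset.induction_on with
  | empty => simp
  | insert z Z hzZ ih =>
    have hZ' := (Finset.subset_insert _ _).trans hZ
    have h1 := (abs_le.1 (S.resZ_step s (hZ.trans (Finset.erase_subset _ _)) hzZ)).1
    have h2 : ∫ ω, S.m (S.resZ (cst s) y Z) y ω ^ 2 ∂S.P ≤ S.q s := by
      rw [← S.integral_n_sq s h, n, ← S.resZ_ch _ h]
      refine S.integral_m_sq_mono (S.F_res_mono _ ?_) _
      rintro v (rfl | ⟨w, hw, hv⟩)
      exacts [Or.inl rfl, Or.inr ⟨w, hZ' hw, hv⟩]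
    have h3 : 0 ≤ S.θ ^ 2 * S.q s := mul_nonneg (sq_nonneg _) (S.q_nonneg s)
    have h4 := mul_le_mul_of_nonneg_right h2 h3
    have h5 := ih hZ'
    rw [Finset.card_insert_of_notMem hzZ]
    push_cast
    linarith

/-- Upper bound. With `p = ∫ m (res (cst s) {y}) y ^ 2 ≤ s^3`, `t = θ² q`:
`1 - q ≥ (1-p)(1-t)^b ≥ 1 - p - b t + t²`, so `θ⁴ q² ≤ p` (and `q ≤ p` if `θ = 0`). -/
lemma exists_q_upper : ∃ c : ℝ, 0 ≤ c ∧ ∀ s y : ℝ, 0 ≤ y → y ≤ 1 → s ≤ y ^ 2 →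
    S.q s ≤ c * y ^ 3 ∧ ∫ ω, S.m (cst s) S.o ω ^ 2 ∂S.P ≤ c * y ^ 3 := by
  have hθ := S.theta_sq_le
  obtain ⟨c, hc, hq⟩ : ∃ c : ℝ, 0 ≤ c ∧ ∀ y : ℝ, 0 ≤ y → y ≤ 1 → S.q (y ^ 2) ≤ c * y ^ 3 := by
    have key : ∀ y : ℝ, 0 ≤ y → y ≤ 1 → S.q (y ^ 2) + (S.θ ^ 2 * S.q (y ^ 2)) ^ 2 ≤
        S.kappa * S.q (y ^ 2) + (y ^ 3) ^ 2 := by
      intro y h0 h1
      have hq0 := S.q_nonneg (y ^ 2)
      have hq1 := S.q_le_one (y ^ 2)
      have h2 := S.resZ_upper (y ^ 2) S.o' (S.ch S.o S.o') (Finset.erase_subset _ _)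
      rw [S.card_ch S.adj_o', S.resZ_ch _ S.adj_o', S.integral_res_singleton (by nlinarith)] at h2
      have h3 := integral_obs_le (s := y ^ 2) (by positivity)
      have h4 : 0 ≤ ∫ t : unitInterval, (if (t : ℝ) < y ^ 2 then aa t ^ 2 else 0) :=
        integral_nonneg fun t => by dsimp only; split_ifs <;> positivity
      have ht0 : 0 ≤ S.θ ^ 2 * S.q (y ^ 2) := by positivity
      have ht1 : S.θ ^ 2 * S.q (y ^ 2) ≤ 1 := by nlinarith
      have h5 := one_sub_pow_ge ht0 ht1 S.hb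
      have h6 : (1 - S.θ ^ 2 * S.q (y ^ 2)) ^ S.b ≤ 1 := pow_le_one₀ (by linarith) (by linarith)
      change _ ≤ 1 - S.q (y ^ 2) at h2
      rw [kappa]
      nlinarith
    rcases S.θ0.eq_or_lt with h | h
    · refine ⟨1, zero_le_one, fun y h0 h1 => ?_⟩
      have h2 := key y h0 h1
      have h3 : y ^ 3 ≤ 1 := pow_le_one₀ h0 h1
      have h4 : 0 ≤ y ^ 3 := by positivity
      simp only [kappa, ← h] at h2
      nlinarith
    · refine ⟨1 / S.θ ^ 2, by positivity, fun y h0 h1 => ?_⟩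
      have h2 := key y h0 h1
      have h3 := mul_le_mul_of_nonneg_right S.kappa_le_one (S.q_nonneg (y ^ 2))
      have h4 : S.θ ^ 2 * S.q (y ^ 2) ≤ y ^ 3 := le_of_sq_le_sq (by linarith) (by positivity)
      rw [div_mul_eq_mul_div, le_div_iff₀ (by positivity)]
      linarith
  refine ⟨2 * c, by positivity, fun s y h0 h1 hs => ?_⟩
  have h2 := (S.q_mono hs).trans (hq y h0 h1)
  have h3 := S.q_nonneg s
  have h4 := (abs_le.1 (S.integral_merge (S.split_sub (cst s) S.adj_o') S.adj_o'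
    (supp_res _ _) (supp_res _ _))).2
  rw [S.integral_m_branch s S.adj_o'] at h4
  have h5 : ∫ ω, S.m (res (cst s) (S.sub S.o' S.o)) S.o ω ^ 2 ∂S.P = S.q s :=
    S.integral_n_sq s S.adj_o'.symm
  rw [h5] at h4
  have h6 : 0 ≤ S.q s * (S.θ ^ 2 * S.q s) := by positivity
  constructor <;> nlinarith

/-- Lower bound. If `κ < 1` this is trivial; if `κ = 1`, `q ≥ p + b t - 3 b q²` gives
`3 b q² ≥ p ≥ s³/36` at `s = y²`, and `q` is monotone. -/
lemma exists_vt_upper : ∃ c : ℝ, 0 < c ∧ ∀ s y : ℝ, 0 ≤ y → y ≤ 1 / 2 → y ^ 2 ≤ s →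
    S.kappa * S.vt s ≤ 1 - c * y ^ 3 := by
  rcases S.kappa_le_one.eq_or_lt with h | h
  · have hθ : 0 < S.θ ^ 2 := by
      refine lt_of_le_of_ne (sq_nonneg _) fun h0 => ?_
      rw [kappa, ← h0] at h
      simp at h
    refine ⟨S.θ ^ 2 / 16 / 11, by positivity, fun s y h0 h1 hs => ?_⟩
    have h2 := S.resZ_lower (y ^ 2) S.adj_o' (S.ch S.o S.o') le_rfl
    rw [S.card_ch S.adj_o', S.resZ_ch _ S.adj_o', S.integral_res_singleton (by nlinarith),
      ← mul_assoc, ← mul_assoc, ← kappa, h] at h2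
    change _ ≤ S.q (y ^ 2) at h2
    have h3 := le_integral_obs (s := y ^ 2) (by positivity) (by nlinarith)
    have h4 : y ^ 3 / 11 ≤ S.q (y ^ 2) := by
      refine le_of_sq_le_sq ?_ (S.q_nonneg _)
      have : 0 ≤ (y ^ 2) ^ 3 := by positivity
      nlinarith
    have h5 := mul_le_mul_of_nonneg_left (h4.trans (S.q_mono hs)) hθ.le
    rw [h, one_mul, vt]
    linarith
  · refine ⟨1 - S.kappa, by linarith, fun s y h0 h1 _ => ?_⟩
    have h2 : y ^ 3 ≤ 1 := pow_le_one₀ h0 (by linarith)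
    have h3 := mul_le_mul_of_nonneg_left (S.vt_le_one s) S.kappa_nonneg
    nlinarith

lemma kappa_mul_vt_lt_one {s : ℝ} (hs : 0 < s) : S.kappa * S.vt s < 1 := by
  obtain ⟨c, hc, h⟩ := S.exists_vt_upper
  have h0 : 0 < min (1 / 2) s := lt_min (by norm_num) hs
  have h1 : min (1 / 2) s ≤ 1 / 2 := min_le_left _ _
  have h2 : min (1 / 2) s ≤ s := min_le_right _ _
  have h3 := h s (min (1 / 2) s) h0.le h1 (by nlinarith)
  have h4 : 0 < c * min (1 / 2) s ^ 3 := by positivity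
  linarith

end Setup

end Crest.Agent.R160

end
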