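import Crest.Agent.R160.Jump

/-! Row 160: the one-step inequality and the Gronwall argument on an interval. -/

noncomputable section

namespace Crest.Agent.R160

open Classical MeasureTheory ProbabilityTheory

universe u

/-- Discrete Gronwall lemma. -/
lemma discrete_gronwall {x e : ℕ → ℝ} {c : ℝ} (hc : 0 ≤ c) (he : ∀ i, 0 ≤ e i) (hx : 0 ≤ x 0)
    {N : ℕ} (h : ∀ i < N, x (i + 1) ≤ (1 + c) * x i + e i) :
    x N ≤ Real.exp (c * N) * (x 0 + ∑ i ∈ Finset.range N, e i) := by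
  induction N with
  | zero => simp
  | succ N ih =>
    have ih' := ih fun i hi => h i (Nat.lt_succ_of_lt hi)
    have h1 := h N (Nat.lt_succ_self N)
    have hs : 0 ≤ x 0 + ∑ i ∈ Finset.range N, e i :=
      add_nonneg hx (Finset.sum_nonneg fun i _ => he i)
    have h2 : 1 + c ≤ Real.exp c := by linarith [Real.add_one_le_exp c]
    have h3 : Real.exp (c * ((N + 1 : ℕ) : ℝ)) = Real.exp c * Real.exp (c * N) := by
      rw [← Real.exp_add]; congr 1; push_cast; ring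
    have h4 : 1 ≤ Real.exp (c * ((N + 1 : ℕ) : ℝ)) := Real.one_le_exp (by positivity)
    have h5 : (1 + c) * x N ≤ Real.exp c * (Real.exp (c * N) * (x 0 + ∑ i ∈ Finset.range N, e i)) :=
      (mul_le_mul_of_nonneg_left ih' (by linarith)).trans
        (mul_le_mul_of_nonneg_right h2 (by positivity))
    rw [Finset.sum_range_succ, ← add_assoc, mul_add]
    have h6 : e N ≤ Real.exp (c * ((N + 1 : ℕ) : ℝ)) * e N := le_mul_of_one_le_left (he N) h4
    rw [h3] at h6 ⊢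
    linarith

lemma integral_sum_sq_of_orth {Ω : Type*} {mΩ : MeasurableSpace Ω} {P : Measure Ω}
    [IsProbabilityMeasure P] {ι : Type*} (B : Finset ι) {L : ι → Ω → ℝ} (hL : ∀ i, Bdd P (L i))
    (h : ∀ i j, i ≠ j → ∫ ω, L i ω * L j ω ∂P = 0) :
    ∫ ω, (∑ i ∈ B, L i ω) ^ 2 ∂P = ∑ i ∈ B, ∫ ω, L i ω ^ 2 ∂P := by
  have e : ∀ ω, (∑ i ∈ B, L i ω) ^ 2 = ∑ i ∈ B, ∑ j ∈ B, L i ω * L j ω := fun ω => by
    rw [sq, Finset.sum_mul_sum]
  simp only [e]
  rw [integral_finsetSum _ fun i _ =>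
    (Bdd.sum B (F := fun j ω => L i ω * L j ω) fun j _ => (hL i).mul (hL j)).integrable]
  refine Finset.sum_congr rfl fun i hi => ?_
  rw [integral_finsetSum _ fun j _ => ((hL i).mul (hL j)).integrable,
    Finset.sum_eq_single_of_mem i hi fun j _ hj => h i j hj.symm]
  simp only [sq]

lemma integral_add_sq {Ω : Type*} {mΩ : MeasurableSpace Ω} {P : Measure Ω}
    [IsProbabilityMeasure P] {f g : Ω → ℝ} (hf : Bdd P f) (hg : Bdd P g) :
    ∫ ω, (f ω + g ω) ^ 2 ∂P = ∫ ω, f ω ^ 2 ∂P + 2 * ∫ ω, f ω * g ω ∂P + ∫ ω, g ω ^ 2 ∂P := by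
  rw [← integral_const_mul, ← integral_add (hf.pow 2).integrable
    ((hf.mul hg).const_mul 2).integrable, ← integral_add
    ((hf.pow 2).add ((hf.mul hg).const_mul 2)).integrable (hg.pow 2).integrable]
  refine integral_congr_ae (Filter.Eventually.of_forall fun ω => ?_)
  ring

lemma integral_sub_sq {Ω : Type*} {mΩ : MeasurableSpace Ω} {P : Measure Ω}
    [IsProbabilityMeasure P] {f g : Ω → ℝ} (hf : Bdd P f) (hg : Bdd P g) :
    ∫ ω, (f ω - g ω) ^ 2 ∂P = ∫ ω, f ω ^ 2 ∂P - 2 * ∫ ω, f ω * g ω ∂P + ∫ ω, g ω ^ 2 ∂P := by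
  rw [← integral_const_mul, ← integral_sub (hf.pow 2).integrable
    ((hf.mul hg).const_mul 2).integrable, ← integral_add
    ((hf.pow 2).sub ((hf.mul hg).const_mul 2)).integrable (hg.pow 2).integrable]
  refine integral_congr_ae (Filter.Eventually.of_forall fun ω => ?_)
  ring

lemma integral_add_sq_le {Ω : Type*} {mΩ : MeasurableSpace Ω} {P : Measure Ω}
    [IsProbabilityMeasure P] {f g : Ω → ℝ} (hf : Bdd P f) (hg : Bdd P g) :
    ∫ ω, (f ω + g ω) ^ 2 ∂P ≤ 2 * ∫ ω, f ω ^ 2 ∂P + 2 * ∫ ω, g ω ^ 2 ∂P := by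
  have h1 := integral_add_sq hf hg
  have h2 := integral_sub_sq hf hg
  have h3 : 0 ≤ ∫ ω, (f ω - g ω) ^ 2 ∂P := integral_nonneg fun _ => sq_nonneg _
  linarith

namespace Setup

variable {V : Type u} (S : Setup V)

/-- Sums over vertices are bounded by sums over spheres. -/
lemma sum_dist_le (B : Finset V) {g : ℕ → ℝ} (hg : ∀ k, 0 ≤ g k) :
    ∃ K : ℕ, ∑ u ∈ B, g (S.G.dist S.o u) ≤ ∑ k ∈ Finset.range K, 2 * (S.b : ℝ) ^ k * g k := by
  refine ⟨B.sup (fun u => S.G.dist S.o u) + 1, ?_⟩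
  rw [← Finset.sum_fiberwise_of_maps_to (g := fun u => S.G.dist S.o u)
    (t := Finset.range (B.sup (fun u => S.G.dist S.o u) + 1))
    (fun u hu => Finset.mem_range.2 (Nat.lt_succ_of_le
      (Finset.le_sup (f := fun u => S.G.dist S.o u) hu)))]
  refine Finset.sum_le_sum fun k _ => ?_
  rw [Finset.sum_congr rfl (g := fun _ => g k) (fun u hu => by rw [(Finset.mem_filter.1 hu).2]),
    Finset.sum_const, nsmul_eq_mul]
  refine mul_le_mul_of_nonneg_right ?_ (hg k)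
  have h1 : (B.filter fun u => S.G.dist S.o u = k).card ≤ (S.sph S.o k).card :=
    Finset.card_le_card fun u hu => S.mem_sph.2 (Finset.mem_filter.1 hu).2
  exact_mod_cast h1.trans (S.card_sph S.o k)

/-- The tail of the quadratic variation is small outside a large finite set. -/
lemma exists_tail_small {s : ℝ} (hs : 0 < s) {τ : ℝ} (hτ : 0 < τ) :
    ∃ B : Finset V, ∀ B' : Finset V, Disjoint B B' →
      ∑ u ∈ B', (S.θ ^ 2 * S.vt s) ^ S.G.dist S.o u ≤ τ := by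
  have h0 : 0 ≤ S.kappa * S.vt s := mul_nonneg S.kappa_nonneg (S.vt_nonneg s)
  have hsum : Summable fun k : ℕ => 2 * (S.kappa * S.vt s) ^ k :=
    (summable_geometric_of_lt_one h0 (S.kappa_mul_vt_lt_one hs)).mul_left 2
  obtain ⟨t, ht⟩ := hsum.vanishing (Iic_mem_nhds hτ)
  refine ⟨t.biUnion (S.sph S.o), fun B' hB' => ?_⟩
  have hp : 0 ≤ S.θ ^ 2 * S.vt s := mul_nonneg (sq_nonneg _) (S.vt_nonneg s)
  obtain ⟨K, hK⟩ := S.sum_dist_le B'
    (g := fun k => if k ∈ t then 0 else (S.θ ^ 2 * S.vt s) ^ k)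
    (fun k => by split_ifs <;> positivity)
  have e1 : ∑ u ∈ B', (S.θ ^ 2 * S.vt s) ^ S.G.dist S.o u =
      ∑ u ∈ B', (if S.G.dist S.o u ∈ t then 0 else (S.θ ^ 2 * S.vt s) ^ S.G.dist S.o u) := by
    refine Finset.sum_congr rfl fun u hu => ?_
    rw [if_neg]
    intro h
    exact Finset.disjoint_left.1 hB' (Finset.mem_biUnion.2 ⟨_, h, S.mem_sph.2 rfl⟩) hu
  have e2 : ∑ k ∈ Finset.range K, 2 * (S.b : ℝ) ^ k *
      (if k ∈ t then 0 else (S.θ ^ 2 * S.vt s) ^ k) =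
      ∑ k ∈ Finset.range K \ t, 2 * (S.kappa * S.vt s) ^ k := by
    rw [Finset.sdiff_eq_filter, Finset.sum_filter]
    refine Finset.sum_congr rfl fun k _ => ?_
    by_cases h : k ∈ t
    · simp [h]
    · simp only [h, if_false, not_false_eq_true, if_true, kappa]
      rw [mul_assoc, ← mul_pow, mul_assoc]
  rw [e1]
  refine hK.trans (e2.le.trans ?_)
  exact ht _ Finset.sdiff_disjoint

lemma integral_LL_sq_eq_ell (w : V × ℕ) (s δ : ℝ) :
    ∫ ω, S.LL w s δ (S.C (cst s) S.o w.1) (S.m (cst s) w.1) ω ^ 2 ∂S.P = S.ell w s δ :=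
  S.integral_LL_sq w (S.measurable_C_F _ _ _) (S.abs_C_le _ _ _) (S.measurable_m_F _ _)
    (S.abs_m_le _ _)

lemma bdd_LL₁ (w : V × ℕ) (s δ : ℝ) (u : V) :
    Bdd S.P (S.LL w s δ (S.C (cst s) S.o u) (S.m (cst s) u)) :=
  S.bdd_LL w (S.measurable_C_F _ _ _) (S.abs_C_le _ _ _) (S.measurable_m_F _ _) (S.abs_m_le _ _)

lemma measurable_cE_Gs_F (s : ℝ) (f : S.Om → ℝ) : Measurable[S.F (cst s)] (cE S.P (S.Gs s) f) :=
  (measurable_cE _ _).mono (S.Gs_le_F s) le_rfl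

lemma abs_cE_le_two (s : ℝ) (f : S.Om → ℝ) (ω : S.Om) : |cE S.P (S.Gs s) f ω| ≤ 2 :=
  (abs_cE_le _ _ _).trans one_le_two

lemma bdd_LL₂ (w : V × ℕ) (s δ : ℝ) (f g : S.Om → ℝ) :
    Bdd S.P (S.LL w s δ (cE S.P (S.Gs s) f) (cE S.P (S.Gs s) g)) :=
  S.bdd_LL w (S.measurable_cE_Gs_F _ _) (S.abs_cE_le_two _ _) (S.measurable_cE_Gs_F _ _)
    (abs_cE_le _ _)

/-- The linearisation error. -/
lemma integral_err_sq_le {r : ℕ} {s δ : ℝ} (hδ : 0 ≤ δ) (hs : (r : ℝ) ≤ s) (hsδ : s + δ ≤ r + 1)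
    (B : Finset V) {τ : ℝ}
    (hτ : ∀ B' : Finset V, Disjoint B B' → ∑ u ∈ B', (S.θ ^ 2 * S.vt s) ^ S.G.dist S.o u ≤ τ)
    {η : ℝ} (hη : 0 < η) :
    ∫ ω, (S.m (cst (s + δ)) S.o ω - S.m (cst s) S.o ω -
        ∑ u ∈ B, S.LL (u, r) s δ (S.C (cst s) S.o u) (S.m (cst s) u) ω) ^ 2 ∂S.P ≤
      9 * δ * ∑ u ∈ B, (η + (S.ee (u, r) (s + δ) - S.ee (u, r) s) / η) + δ / 4 * τ := by
  set L : V → S.Om → ℝ := fun u => S.LL (u, r) s δ (S.C (cst s) S.o u) (S.m (cst s) u) with hL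
  set E : V → ℝ := fun u => η + (S.ee (u, r) (s + δ) - S.ee (u, r) s) / η with hE
  have bL : ∀ u, Bdd S.P (L u) := fun u => S.bdd_LL₁ _ _ _ _
  have bD := (S.bdd_m (cst (s + δ)) S.o).sub (S.bdd_m (cst s) S.o)
  have hp : 0 ≤ S.θ ^ 2 * S.vt s := mul_nonneg (sq_nonneg _) (S.vt_nonneg s)
  -- the increment
  set Bw : V × ℕ → ℝ := fun w => if w.2 = r then
    (if w.1 ∈ B then S.ell w s δ + 3 * δ * E w.1
      else δ / 4 * (S.θ ^ 2 * S.vt s) ^ S.G.dist S.o w.1) else 0 with hBw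
  have hJ : ∀ u (th : V × ℕ → ℝ), (∀ w', s ≤ th w') → (∀ w', th w' ≤ s + δ) →
      ∫ ω, S.JJ (u, r) s δ (off th (u, r)) ω ^ 2 ∂S.P ≤ S.ell (u, r) s δ + 3 * δ * E u :=
    fun u th h1 h2 => S.integral_JJ_sq_le (u, r) hδ h1 h2 hη
  have hpos : ∀ u, 0 ≤ S.ell (u, r) s δ + 3 * δ * E u := fun u =>
    (integral_nonneg fun _ => sq_nonneg _).trans
      (hJ u (cst s) (fun _ => le_rfl) (fun _ => by simp [cst, hδ]))
  have d1 := S.integral_dM_sq_le (s := s) hδ (B := Bw)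
    (β := ∑ u ∈ B, (S.ell (u, r) s δ + 3 * δ * E u) + δ / 4 * τ) (by
      rintro ⟨u, i⟩ th h1 h2
      by_cases hi : i = r
      · subst hi
        by_cases hu : u ∈ B
        · simpa [hBw, hu] using hJ u th h1 h2
        · simpa [hBw, hu] using S.integral_JJ_sq_le_tail (u, i) hδ h1
      · simp [hBw, hi, S.JJ_eq_zero (w := (u, i)) hi hs hsδ]) (by
      intro W
      have e1 : ∑ w ∈ W, Bw w = ∑ u ∈ (W.filter fun w => w.2 = r).image Prod.fst, Bw (u, r) := by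
        rw [Finset.sum_image (by
          rintro ⟨u, i⟩ h1 ⟨u', i'⟩ h2 h
          simp only [Finset.coe_filter, Set.mem_ofPred_eq] at h1 h2
          exact Prod.ext h (h1.2.trans h2.2.symm)), Finset.sum_filter]
        refine Finset.sum_congr rfl fun w _ => ?_
        split_ifs with h
        · rw [← h]
        · simp [hBw, h]
      rw [e1, ← Finset.sum_filter_add_sum_filter_not _ (fun u => u ∈ B)]
      refine add_le_add ?_ ?_
      · refine le_trans (le_of_eq (Finset.sum_congr rfl fun u hu => ?_))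
          (Finset.sum_le_sum_of_subset_of_nonneg (fun u hu => (Finset.mem_filter.1 hu).2)
            fun u _ _ => hpos u)
        simp [hBw, (Finset.mem_filter.1 hu).2]
      · refine le_trans (le_of_eq ?_) (mul_le_mul_of_nonneg_left
          (hτ (((W.filter fun w => w.2 = r).image Prod.fst).filter fun u => u ∉ B)
            (Finset.disjoint_left.2 fun u hu h => (Finset.mem_filter.1 h).2 hu)) (by positivity))
        rw [Finset.mul_sum]
        refine Finset.sum_congr rfl fun u hu => ?_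
        simp [hBw, (Finset.mem_filter.1 hu).2])
  have d2 : ∀ u, S.ell (u, r) s δ - 3 * δ * E u ≤
      ∫ ω, (S.m (cst (s + δ)) S.o ω - S.m (cst s) S.o ω) * L u ω ∂S.P := by
    intro u
    refine (S.le_integral_σ_mul_LL (u, r) s hδ hη).trans (le_of_eq ?_)
    have a1 : ∫ ω, S.m (cst s) S.o ω * L u ω ∂S.P = 0 :=
      S.integral_mul_LL (u, r) (S.measurable_C_F _ _ _) (S.abs_C_le _ _ _) (S.measurable_m_F _ _)
        (S.abs_m_le _ _) (S.bdd_m _ _) (S.measurable_m_F _ _).aestronglyMeasurable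
    have a2 : ∫ ω, S.m (cst (s + δ)) S.o ω * L u ω ∂S.P = ∫ ω, S.σ S.o ω * L u ω ∂S.P := by
      have := integral_mul_condExp (S.F_le (cst (s + δ))) (S.bdd_σ S.o) (bL u)
        (S.measurable_LL_F (u, r) (S.measurable_C_F _ _ _)
          (S.measurable_m_F _ _)).aestronglyMeasurable
      simp only [mul_comm (L u _)] at this
      rw [← this]
      refine integral_congr_ae ?_
      filter_upwards [S.m_ae_eq (cst (s + δ)) S.o] with ω h using by rw [h]
    simp only [sub_mul]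
    rw [integral_sub ((S.bdd_m _ _).mul (bL u)).integrable ((S.bdd_m _ _).mul (bL u)).integrable,
      a1, a2, sub_zero]
  have d3 : ∫ ω, (∑ u ∈ B, L u ω) ^ 2 ∂S.P = ∑ u ∈ B, S.ell (u, r) s δ := by
    rw [integral_sum_sq_of_orth B bL fun u v huv => S.integral_LL_mul_LL
      (fun h => huv (congrArg Prod.fst h)) (S.measurable_C_F _ _ _) (S.abs_C_le _ _ _)
      (S.measurable_m_F _ _) (S.abs_m_le _ _) (S.measurable_C_F _ _ _) (S.abs_C_le _ _ _)
      (S.measurable_m_F _ _) (S.abs_m_le _ _)]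
    exact Finset.sum_congr rfl fun u _ => S.integral_LL_sq_eq_ell (u, r) s δ
  have d4 : ∑ u ∈ B, (S.ell (u, r) s δ - 3 * δ * E u) ≤
      ∫ ω, (S.m (cst (s + δ)) S.o ω - S.m (cst s) S.o ω) * ∑ u ∈ B, L u ω ∂S.P := by
    simp only [Finset.mul_sum]
    rw [integral_finsetSum _ fun u _ => (bD.mul (bL u)).integrable]
    exact Finset.sum_le_sum fun u _ => d2 u
  rw [integral_sub_sq bD (Bdd.sum B fun u _ => bL u), d3]
  rw [Finset.sum_add_distrib, ← Finset.mul_sum] at d1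
  rw [Finset.sum_sub_distrib, ← Finset.mul_sum] at d4
  linarith

lemma abs_C_le_one (th : V × ℕ → ℝ) (x y : V) : ∀ᵐ ω ∂S.P, |S.C th x y ω| ≤ 1 := by
  filter_upwards [S.C_nonneg th x y, S.C_le th x y] with ω h1 h2
  rw [abs_of_nonneg h1]
  refine h2.trans (mul_le_one₀ (pow_le_one₀ S.θ0 (by linarith [S.theta_le])) (S.Pr_nonneg _ _ _ _)
    (S.Pr_le_one _ _ _ _))

/-- The plug-in error of one vertex. -/
lemma integral_LL_sub_sq_le {r : ℕ} {s δ : ℝ} (hδ : 0 ≤ δ) (hs : (r : ℝ) ≤ s)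
    (hsδ : s + δ ≤ r + 1) (u : V) :
    ∫ ω, (S.LL (u, r) s δ (S.C (cst s) S.o u) (S.m (cst s) u) ω -
        S.LL (u, r) s δ (cE S.P (S.Gs s) (S.C (cst s) S.o u)) (cE S.P (S.Gs s) (S.m (cst s) u)) ω) ^ 2
        ∂S.P ≤ 8 * δ * min 1 (s + δ) ^ 2 * S.psi s u := by
  have bC := S.bdd_C (cst s) S.o u
  have bm := S.bdd_m (cst s) u
  have b1 := (S.bdd_til s bC).pow 2
  have b2 := (bC.pow 2).mul ((S.bdd_til s bm).pow 2)
  have hm : AEStronglyMeasurable[S.F (cst s)] (fun ω => S.til s (S.C (cst s) S.o u) ω ^ 2 +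
      S.C (cst s) S.o u ω ^ 2 * S.til s (S.m (cst s) u) ω ^ 2) S.P := by
    have m1 := S.measurable_C_F (cst s) S.o u
    have m2 := S.measurable_m_F (cst s) u
    have m3 : Measurable[S.F (cst s)] (S.P[S.C (cst s) S.o u | S.Gs s]) :=
      (stronglyMeasurable_condExp.mono (S.Gs_le_F s)).measurable
    have m4 : Measurable[S.F (cst s)] (S.P[S.m (cst s) u | S.Gs s]) :=
      (stronglyMeasurable_condExp.mono (S.Gs_le_F s)).measurable
    refine Measurable.aestronglyMeasurable ?_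
    unfold til
    let _ : MeasurableSpace S.Om := S.F (cst s)
    exact ((m1.sub m3).pow_const 2).add ((m1.pow_const 2).mul ((m2.sub m4).pow_const 2))
  have h := S.integral_ind_a_sq_le (u, r) hδ hs hsδ (b1.add b2) hm
    (Filter.Eventually.of_forall fun ω => by positivity)
  rw [integral_add b1.integrable b2.integrable] at h
  calc _ ≤ ∫ ω, 8 * (S.ind (u, r) s δ ω * S.a (u, r) ω ^ 2 *
        (S.til s (S.C (cst s) S.o u) ω ^ 2 +
          S.C (cst s) S.o u ω ^ 2 * S.til s (S.m (cst s) u) ω ^ 2)) ∂S.P := by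
        refine integral_mono_ae (((S.bdd_LL₁ _ _ _ _).sub (S.bdd_LL₂ _ _ _ _ _)).pow 2).integrable
          ((((S.bdd_ind _ _ _).mul ((S.bdd_a _).pow 2)).mul (b1.add b2)).const_mul 8).integrable ?_
        filter_upwards [cE_ae_eq (S.Gs s) (S.abs_C_le_one (cst s) S.o u),
          cE_ae_eq (P := S.P) (S.Gs s) (Filter.Eventually.of_forall (S.abs_m_le (cst s) u))]
          with ω h1 h2
        unfold LL til
        rw [← h1, ← h2]
        have j1 := abs_jh_le (S.U_nonneg (u, r) ω) (S.U_le_one (u, r) ω) (S.a_nonneg (u, r) ω)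
          (S.a_le (u, r) ω) (abs_cE_le (P := S.P) (S.Gs s) (S.m (cst s) u) ω)
        have j2 := abs_jh_sub_le (S.U_nonneg (u, r) ω) (S.U_le_one (u, r) ω) (S.a_nonneg (u, r) ω)
          (S.a_le (u, r) ω) (S.abs_m_le (cst s) u ω)
          (abs_cE_le (P := S.P) (S.Gs s) (S.m (cst s) u) ω)
        rcases S.ind_cases (u, r) s δ ω with h0 | h0
        · simp [h0]
        rw [h0]
        set c := S.C (cst s) S.o u ω
        set c' := cE S.P (S.Gs s) (S.C (cst s) S.o u) ω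
        set x := jh (S.U (u, r) ω) (S.a (u, r) ω) (S.m (cst s) u ω)
        set x' := jh (S.U (u, r) ω) (S.a (u, r) ω) (cE S.P (S.Gs s) (S.m (cst s) u) ω)
        set d := S.m (cst s) u ω - cE S.P (S.Gs s) (S.m (cst s) u) ω
        set a := S.a (u, r) ω
        have k1 : x' ^ 2 ≤ (2 * a) ^ 2 := by
          rw [← sq_abs x']; exact pow_le_pow_left₀ (abs_nonneg _) j1 2
        have k2 : (x - x') ^ 2 ≤ (2 * a * |d|) ^ 2 := by
          rw [← sq_abs (x - x')]; exact pow_le_pow_left₀ (abs_nonneg _) j2 2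
        rw [mul_pow, sq_abs] at k2
        have k3 := mul_le_mul_of_nonneg_left k1 (sq_nonneg (c - c'))
        have k4 := mul_le_mul_of_nonneg_left k2 (sq_nonneg c)
        nlinarith [sq_nonneg ((c - c') * x' - c * (x - x'))]
    _ ≤ _ := by
        rw [integral_const_mul]
        unfold psi
        linarith

/-- The one-step inequality. -/
lemma phi_step {r : ℕ} {s δ : ℝ} (hδ : 0 ≤ δ) (hs : (r : ℝ) ≤ s) (hsδ : s + δ ≤ r + 1)
    (B : Finset V) {τ : ℝ}
    (hτ : ∀ B' : Finset V, Disjoint B B' → ∑ u ∈ B', (S.θ ^ 2 * S.vt s) ^ S.G.dist S.o u ≤ τ)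
    {η : ℝ} (hη : 0 < η) :
    S.phi (s + δ) ≤ S.phi s + 16 * δ * min 1 (s + δ) ^ 2 * ∑ u ∈ B, S.psi s u +
      18 * δ * ∑ u ∈ B, (η + (S.ee (u, r) (s + δ) - S.ee (u, r) s) / η) + δ / 2 * τ := by
  set L : V → S.Om → ℝ := fun u => S.LL (u, r) s δ (S.C (cst s) S.o u) (S.m (cst s) u) with hL
  set Z : V → S.Om → ℝ := fun u => S.LL (u, r) s δ (cE S.P (S.Gs s) (S.C (cst s) S.o u))
    (cE S.P (S.Gs s) (S.m (cst s) u)) with hZ
  have bL : ∀ u, Bdd S.P (L u) := fun u => S.bdd_LL₁ _ _ _ _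
  have bZ : ∀ u, Bdd S.P (Z u) := fun u => S.bdd_LL₂ _ _ _ _ _
  have bm1 := S.bdd_m (cst (s + δ)) S.o
  have bm0 := S.bdd_m (cst s) S.o
  have bG := bm0.condExp _ (S.Gs_le s)
  have bt := S.bdd_til s bm0
  have bLZ := Bdd.sum B (F := fun u ω => L u ω - Z u ω) fun u _ => (bL u).sub (bZ u)
  have bErr := (bm1.sub bm0).sub (Bdd.sum B fun u _ => bL u)
  have hGm : AEStronglyMeasurable[S.Gs (s + δ)]
      (fun ω => S.P[S.m (cst s) S.o | S.Gs s] ω + ∑ u ∈ B, Z u ω) S.P := by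
    have m1 : Measurable[S.Gs (s + δ)] (S.P[S.m (cst s) S.o | S.Gs s]) :=
      (stronglyMeasurable_condExp.mono (S.Gs_mono (le_add_of_nonneg_right hδ))).measurable
    have m2 : ∀ u, Measurable[S.Gs (s + δ)] (Z u) := fun u =>
      S.measurable_LL_Gs (u, r) hδ (measurable_cE _ _) (measurable_cE _ _)
    refine Measurable.aestronglyMeasurable ?_
    let _ : MeasurableSpace S.Om := S.Gs (s + δ)
    exact m1.add (Finset.measurable_sum _ fun u _ => m2 u)
  have h1 := integral_sq_sub_condExp_le (S.Gs_le (s + δ)) bm1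
    (bG.add (Bdd.sum B fun u _ => bZ u)) hGm
  have e1 : ∀ ω, S.m (cst (s + δ)) S.o ω - (S.P[S.m (cst s) S.o | S.Gs s] ω + ∑ u ∈ B, Z u ω) =
      S.til s (S.m (cst s) S.o) ω + (∑ u ∈ B, (L u ω - Z u ω) +
        (S.m (cst (s + δ)) S.o ω - S.m (cst s) S.o ω - ∑ u ∈ B, L u ω)) := fun ω => by
    simp only [til, Finset.sum_sub_distrib]; ring
  have htm : AEStronglyMeasurable[S.F (cst s)] (S.til s (S.m (cst s) S.o)) S.P :=
    ((S.measurable_m_F (cst s) S.o).stronglyMeasurable.sub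
      (stronglyMeasurable_condExp.mono (S.Gs_le_F s))).aestronglyMeasurable
  have o1 : ∫ ω, S.til s (S.m (cst s) S.o) ω * (∑ u ∈ B, (L u ω - Z u ω) +
        (S.m (cst (s + δ)) S.o ω - S.m (cst s) S.o ω - ∑ u ∈ B, L u ω)) ∂S.P = 0 := by
    have e2 : ∀ ω, S.til s (S.m (cst s) S.o) ω * (∑ u ∈ B, (L u ω - Z u ω) +
        (S.m (cst (s + δ)) S.o ω - S.m (cst s) S.o ω - ∑ u ∈ B, L u ω)) =
        S.til s (S.m (cst s) S.o) ω * S.m (cst (s + δ)) S.o ω -
          S.til s (S.m (cst s) S.o) ω * S.m (cst s) S.o ω -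
          ∑ u ∈ B, S.til s (S.m (cst s) S.o) ω * Z u ω := fun ω => by
      rw [← Finset.mul_sum, Finset.sum_sub_distrib]; ring
    simp only [e2]
    rw [integral_sub ((bt.mul bm1).sub (bt.mul bm0)).integrable
      (Bdd.sum B (F := fun u ω => S.til s (S.m (cst s) S.o) ω * Z u ω)
        fun u _ => bt.mul (bZ u)).integrable,
      integral_sub (bt.mul bm1).integrable (bt.mul bm0).integrable,
      integral_finsetSum _ fun u _ => (bt.mul (bZ u)).integrable,
      Finset.sum_eq_zero fun u _ => S.integral_mul_LL (u, r) (S.measurable_cE_Gs_F _ _)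
        (S.abs_cE_le_two _ _) (S.measurable_cE_Gs_F _ _) (abs_cE_le _ _) bt htm]
    have a : ∀ t, s ≤ t → ∫ ω, S.til s (S.m (cst s) S.o) ω * S.m (cst t) S.o ω ∂S.P =
        ∫ ω, S.til s (S.m (cst s) S.o) ω * S.σ S.o ω ∂S.P := fun t ht => by
      rw [← integral_mul_condExp (S.F_le (cst t)) (S.bdd_σ S.o) bt
        (htm.mono (S.F_mono fun _ => ht))]
      refine integral_congr_ae ?_
      filter_upwards [S.m_ae_eq (cst t) S.o] with ω h using by rw [h]
    rw [a _ (le_add_of_nonneg_right hδ), a _ le_rfl]; simp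
  simp only [e1] at h1
  rw [integral_add_sq bt (bLZ.add bErr), o1] at h1
  have h2 := integral_add_sq_le bLZ bErr
  have h3 := S.integral_err_sq_le hδ hs hsδ B hτ hη
  have h4 : ∫ ω, (∑ u ∈ B, (L u ω - Z u ω)) ^ 2 ∂S.P ≤
      8 * δ * min 1 (s + δ) ^ 2 * ∑ u ∈ B, S.psi s u := by
    rw [integral_sum_sq_of_orth B (L := fun u ω => L u ω - Z u ω) (fun u => (bL u).sub (bZ u)),
      Finset.mul_sum]
    · exact Finset.sum_le_sum fun u _ => S.integral_LL_sub_sq_le hδ hs hsδ u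
    · intro u v huv
      have hne : (u, r) ≠ (v, r) := fun h => huv (congrArg Prod.fst h)
      have e3 : ∀ ω, (L u ω - Z u ω) * (L v ω - Z v ω) =
          L u ω * L v ω - L u ω * Z v ω - (Z u ω * L v ω - Z u ω * Z v ω) := fun ω => by ring
      simp only [e3]
      rw [integral_sub (((bL u).mul (bL v)).sub ((bL u).mul (bZ v))).integrable
        (((bZ u).mul (bL v)).sub ((bZ u).mul (bZ v))).integrable,
        integral_sub ((bL u).mul (bL v)).integrable ((bL u).mul (bZ v)).integrable,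
        integral_sub ((bZ u).mul (bL v)).integrable ((bZ u).mul (bZ v)).integrable,
        S.integral_LL_mul_LL hne (S.measurable_C_F _ _ _) (S.abs_C_le _ _ _)
          (S.measurable_m_F _ _) (S.abs_m_le _ _) (S.measurable_C_F _ _ _) (S.abs_C_le _ _ _)
          (S.measurable_m_F _ _) (S.abs_m_le _ _),
        S.integral_LL_mul_LL hne (S.measurable_C_F _ _ _) (S.abs_C_le _ _ _)
          (S.measurable_m_F _ _) (S.abs_m_le _ _) (S.measurable_cE_Gs_F _ _)
          (S.abs_cE_le_two _ _) (S.measurable_cE_Gs_F _ _) (abs_cE_le _ _),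
        S.integral_LL_mul_LL hne (S.measurable_cE_Gs_F _ _)
          (S.abs_cE_le_two _ _) (S.measurable_cE_Gs_F _ _) (abs_cE_le _ _)
          (S.measurable_C_F _ _ _) (S.abs_C_le _ _ _) (S.measurable_m_F _ _) (S.abs_m_le _ _),
        S.integral_LL_mul_LL hne (S.measurable_cE_Gs_F _ _)
          (S.abs_cE_le_two _ _) (S.measurable_cE_Gs_F _ _) (abs_cE_le _ _)
          (S.measurable_cE_Gs_F _ _)
          (S.abs_cE_le_two _ _) (S.measurable_cE_Gs_F _ _) (abs_cE_le _ _)]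
      simp
  have h5 : S.phi (s + δ) =
      ∫ ω, (S.m (cst (s + δ)) S.o ω - S.P[S.m (cst (s + δ)) S.o | S.Gs (s + δ)] ω) ^ 2 ∂S.P := rfl
  have h6 : S.phi s = ∫ ω, S.til s (S.m (cst s) S.o) ω ^ 2 ∂S.P := rfl
  linarith

/-- Gronwall with a fixed number of steps. -/
lemma phi_interval_aux {r : ℕ} {s₀ s₁ : ℝ} (h0 : 0 < s₀) (hr : (r : ℝ) ≤ s₀) (h01 : s₀ ≤ s₁)
    (h1 : s₁ ≤ r + 1) {K K' : ℝ} (hK : 0 ≤ K) (hK' : 0 ≤ K')
    (hψ : ∀ s, s₀ ≤ s → s ≤ s₁ → ∀ B : Finset V, ∑ u ∈ B, S.psi s u ≤ K * S.phi s + K')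
    (B : Finset V) {τ : ℝ} (hτ0 : 0 ≤ τ)
    (hτ : ∀ B' : Finset V, Disjoint B B' → ∑ u ∈ B', (S.θ ^ 2 * S.vt s₀) ^ S.G.dist S.o u ≤ τ)
    {η : ℝ} (hη : 0 < η) {N : ℕ} (hN : 0 < N) :
    S.phi s₁ ≤ Real.exp (16 * min 1 s₁ ^ 2 * (s₁ - s₀) * K) *
      (S.phi s₀ + 16 * min 1 s₁ ^ 2 * (s₁ - s₀) * K' +
        (18 * B.card * ((s₁ - s₀) * η + 3 * ((s₁ - s₀) / N) / η) + (s₁ - s₀) / 2 * τ)) := by
  set δ := (s₁ - s₀) / N with hδ
  have hNp : (0 : ℝ) < N := by exact_mod_cast hN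
  have hδ0 : 0 ≤ δ := div_nonneg (by linarith) hNp.le
  have hNδ : δ * N = s₁ - s₀ := by rw [hδ]; field_simp
  set A := min 1 s₁ ^ 2 with hA
  have hA0 : 0 ≤ A := sq_nonneg _
  set t : ℕ → ℝ := fun i => s₀ + i * δ with ht
  have ht1 : ∀ i, t (i + 1) = t i + δ := fun i => by simp only [ht]; push_cast; ring
  have ht0 : ∀ i, s₀ ≤ t i := fun i => le_add_of_nonneg_right (by positivity)
  have htN : t N = s₁ := by simp only [ht]; linarith
  have htle : ∀ i, i ≤ N → t i ≤ s₁ := fun i hi => by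
    have : (i : ℝ) ≤ N := by exact_mod_cast hi
    simp only [ht]; nlinarith
  have g := discrete_gronwall (x := fun i => S.phi (t i))
    (e := fun i => 16 * δ * A * K' +
      18 * δ * ∑ u ∈ B, (η + (S.ee (u, r) (t (i + 1)) - S.ee (u, r) (t i)) / η) + δ / 2 * τ)
    (c := 16 * δ * A * K) (by positivity) (fun i => by
      have : 0 ≤ ∑ u ∈ B, (η + (S.ee (u, r) (t (i + 1)) - S.ee (u, r) (t i)) / η) :=
        Finset.sum_nonneg fun u _ => add_nonneg hη.le (div_nonneg (sub_nonneg.2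
          (S.ee_mono _ (by rw [ht1]; linarith))) hη.le)
      positivity) (S.phi_nonneg _) (N := N) (fun i hi => by
      have a1 : t i + δ ≤ s₁ := ht1 i ▸ htle (i + 1) hi
      have a2 := S.phi_step hδ0 (hr.trans (ht0 i)) (a1.trans h1) B (τ := τ) (fun B' hB' =>
        le_trans (Finset.sum_le_sum fun u _ => pow_le_pow_left₀
          (mul_nonneg (sq_nonneg _) (S.vt_nonneg _))
          (mul_le_mul_of_nonneg_left (S.vt_anti (ht0 i)) (sq_nonneg _)) _) (hτ B' hB')) hη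
      have a3 := hψ (t i) (ht0 i) (htle i hi.le) B
      have a4 : min 1 (t i + δ) ^ 2 ≤ A :=
        pow_le_pow_left₀ (le_min zero_le_one (by linarith [ht0 i])) (min_le_min_left _ a1) 2
      have a5 : 0 ≤ ∑ u ∈ B, S.psi (t i) u := Finset.sum_nonneg fun u _ => S.psi_nonneg _ _
      have a6 : 16 * δ * min 1 (t i + δ) ^ 2 * ∑ u ∈ B, S.psi (t i) u ≤
          16 * δ * A * (K * S.phi (t i) + K') :=
        mul_le_mul (mul_le_mul_of_nonneg_left a4 (by positivity)) a3 a5 (by positivity)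
      rw [ht1]
      linarith)
  have e0 : t 0 = s₀ := by simp [ht]
  have e1 : 16 * δ * A * K * N = 16 * A * (s₁ - s₀) * K := by rw [← hNδ]; ring
  simp only [htN, e0, e1] at g
  refine g.trans (mul_le_mul_of_nonneg_left ?_ (Real.exp_pos _).le)
  rw [Finset.sum_add_distrib, Finset.sum_add_distrib, ← Finset.mul_sum _ _ (18 * δ),
    Finset.sum_comm]
  simp only [Finset.sum_const, Finset.card_range, nsmul_eq_mul]
  have b1 : ∑ u ∈ B, ∑ i ∈ Finset.range N,
      (η + (S.ee (u, r) (t (i + 1)) - S.ee (u, r) (t i)) / η) ≤ B.card * (N * η + 3 / η) := by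
    rw [← nsmul_eq_mul, ← Finset.sum_const]
    refine Finset.sum_le_sum fun u _ => ?_
    rw [Finset.sum_add_distrib, ← Finset.sum_div,
      Finset.sum_range_sub (fun i => S.ee (u, r) (t i))]
    simp only [Finset.sum_const, Finset.card_range, nsmul_eq_mul]
    have := S.ee_le (u, r) (t N)
    have := S.ee_nonneg (u, r) (t 0)
    gcongr
    linarith
  have b2 := mul_le_mul_of_nonneg_left b1 (by positivity : 0 ≤ 18 * δ)
  have b3 : 18 * δ * (B.card * (N * η + 3 / η)) = 18 * B.card * ((s₁ - s₀) * η + 3 * δ / η) := by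
    rw [← hNδ]; ring
  have b4 : N * (16 * δ * A * K') = 16 * A * (s₁ - s₀) * K' := by rw [← hNδ]; ring
  have b5 : N * (δ / 2 * τ) = (s₁ - s₀) / 2 * τ := by rw [← hNδ]; ring
  linarith

/-- Gronwall on an interval inside one round. -/
theorem phi_interval {r : ℕ} {s₀ s₁ : ℝ} (h0 : 0 < s₀) (hr : (r : ℝ) ≤ s₀) (h01 : s₀ ≤ s₁)
    (h1 : s₁ ≤ r + 1) {K K' : ℝ} (hK : 0 ≤ K) (hK' : 0 ≤ K')
    (hψ : ∀ s, s₀ ≤ s → s ≤ s₁ → ∀ B : Finset V, ∑ u ∈ B, S.psi s u ≤ K * S.phi s + K') :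
    S.phi s₁ ≤ Real.exp (16 * min 1 s₁ ^ 2 * (s₁ - s₀) * K) *
      (S.phi s₀ + 16 * min 1 s₁ ^ 2 * (s₁ - s₀) * K') := by
  set E := Real.exp (16 * min 1 s₁ ^ 2 * (s₁ - s₀) * K) with hE
  set X := S.phi s₀ + 16 * min 1 s₁ ^ 2 * (s₁ - s₀) * K' with hX
  have key : ∀ ε : ℝ, 0 < ε → S.phi s₁ ≤ E * (X + ε) := by
    intro ε hε
    have hl : s₁ - s₀ ≤ 1 := by linarith
    have hl0 : 0 ≤ s₁ - s₀ := by linarith
    obtain ⟨B, hB⟩ := S.exists_tail_small h0 (τ := ε / 2) (by positivity)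
    set η := ε / (4 * (18 * B.card + 1)) with hη
    have hη0 : 0 < η := by positivity
    obtain ⟨N, hN⟩ := exists_nat_gt (3 / η ^ 2)
    have hN0 : (0 : ℝ) < N := lt_trans (by positivity) hN
    refine (S.phi_interval_aux h0 hr h01 h1 hK hK' hψ B (by positivity) hB hη0
      (N := N) (by exact_mod_cast hN0)).trans
      (mul_le_mul_of_nonneg_left (add_le_add_right ?_ _) (Real.exp_pos _).le)
    have a1 : 3 * ((s₁ - s₀) / N) / η ≤ η := by
      rw [div_lt_iff₀ (by positivity)] at hN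
      rw [div_le_iff₀ hη0, ← mul_div_assoc, div_le_iff₀ hN0]
      nlinarith
    have a2 : (s₁ - s₀) * η ≤ η := mul_le_of_le_one_left hη0.le hl
    have a3 : 18 * (B.card : ℝ) * ((s₁ - s₀) * η + 3 * ((s₁ - s₀) / N) / η) ≤
        (18 * B.card + 1) * (2 * η) :=
      mul_le_mul (by linarith) (by linarith) (by positivity) (by positivity)
    have a4 : (18 * (B.card : ℝ) + 1) * (2 * η) = ε / 2 := by rw [hη]; field_simp; ring
    have a5 : (s₁ - s₀) / 2 * (ε / 2) ≤ ε / 2 := mul_le_of_le_one_left (by positivity) (by linarith)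
    linarith
  refine le_of_forall_pos_le_add fun ε hε => ?_
  have hE0 : 0 < E := Real.exp_pos _
  have := key (ε / E) (by positivity)
  rw [mul_add, mul_div_cancel₀ _ hE0.ne'] at this
  exact this

end Setup

end Crest.Agent.R160

end
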