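import Crest.Agent.R160.Sym
import Crest.Agent.R160.Bayes

/-! Row 160: structure of the posterior (Bayes formulas on the tree). -/

noncomputable section

namespace Crest.Agent.R160

open Classical MeasureTheory ProbabilityTheory Filter

universe u

namespace Setup

variable {V : Type u} (S : Setup V)

lemma post_abs_θ_mul {x : ℝ} (hx : |x| ≤ 1) : |S.θ * x| ≤ 3 / 4 := by
  rw [abs_mul, abs_of_nonneg S.θ0]
  exact (mul_le_of_le_one_right S.θ0 hx).trans S.theta_le

lemma post_condExp_σσ (th : V × ℕ → ℝ) (y : V) :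
    S.P[fun ω => S.σ y ω * S.σ y ω | S.F th] = fun _ => 1 := by
  simp only [S.σ_mul_self]
  exact condExp_const (S.F_le th) 1

lemma post_σσσ (v y : V) : (fun ω => S.σ v ω * S.σ y ω * S.σ y ω) = S.σ v := by
  funext ω
  rw [mul_assoc, S.σ_mul_self, mul_one]

lemma post_σ_Sp (v : V) : Measurable[S.Sp] (S.σ v) :=
  (S.measurable_σ_Sg v).mono (le_iSup S.Sg v) le_rfl

/-- The record of a single index as a function of its time and value. -/
def postPhi (_S : Setup V) (th : V × ℕ → ℝ) (w : V × ℕ) (p : ℝ × ℝ) : Data V :=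
  fun w' => if w' = w ∧ (w.2 : ℝ) + p.1 < th w then ((w.2 : ℝ) + p.1, p.2) else (-1, 0)

lemma measurable_postPhi (th : V × ℕ → ℝ) (w : V × ℕ) : Measurable (S.postPhi th w) := by
  refine measurable_pi_lambda _ fun w' => ?_
  by_cases hw : w' = w
  · simp only [postPhi, hw, true_and]
    exact Measurable.ite (measurableSet_lt (by fun_prop) measurable_const) (by fun_prop)
      measurable_const
  · simp only [postPhi, hw, false_and, if_false]
    exact measurable_const

lemma post_integral_σ_mul (v : V) (w : V × ℕ) (G : ℝ → ℝ) :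
    ∫ ω, S.σ v ω * G (S.T w ω) ∂S.P = 0 := by
  have hinv : Function.Involutive S.flip := fun ω => by simp [flip]
  have h := MeasurePreserving.integral_comp'
    (f := MeasurableEquiv.ofInvolutive S.flip hinv S.measurable_flip) S.mp_flip
    (fun ω => S.σ v ω * G (S.T w ω))
  have e : ∀ ω, S.σ v (S.flip ω) * G (S.T w (S.flip ω)) = -(S.σ v ω * G (S.T w ω)) := by
    intro ω
    rw [S.σ_flip, neg_mul]; rfl
  simp only [MeasurableEquiv.ofInvolutive_apply, e, integral_neg] at h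
  linarith

lemma post_key (w : V × ℕ) {z : ℝ × ℝ → ℝ} (hz : Measurable z) (hzb : ∀ p, |z p| ≤ 1) :
    ∫ ω, z (S.T w ω, S.Y w ω) * (S.σ w.1 ω - S.a w ω * S.Y w ω) ∂S.P = 0 := by
  have hX : Measurable[S.Kx (S.iN w)] (fun ω => (S.σ w.1 ω, S.T w ω)) := by
    refine Measurable.prodMk ((S.post_σ_Sp w.1).mono (S.Sp_le_Kx_iN w) le_rfl)
      ((S.measurable_T_I1 w).mono (S.I1_le_Kx ?_) le_rfl)
    simp [iT, iN]
  let ζ : (ℝ × ℝ) × unitInterval → ℝ := fun q =>
    z (q.1.2, q.1.1 * Qi q.2 (aa q.1.2)) * (q.1.1 - aa q.1.2 * (q.1.1 * Qi q.2 (aa q.1.2)))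
  have hQ : Measurable fun q : (ℝ × ℝ) × unitInterval => Qi q.2 (aa q.1.2) :=
    Measurable.Qi' (by fun_prop) (Measurable.aa' (by fun_prop))
  have ha : Measurable fun q : (ℝ × ℝ) × unitInterval => aa q.1.2 := Measurable.aa' (by fun_prop)
  have h11 : Measurable fun q : (ℝ × ℝ) × unitInterval => q.1.1 := by fun_prop
  have h12 : Measurable fun q : (ℝ × ℝ) × unitInterval => q.1.2 := by fun_prop
  have hζ : Measurable ζ :=
    (hz.comp (h12.prodMk (h11.mul hQ))).mul (h11.sub (ha.mul (h11.mul hQ)))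
  have hab : ∀ ω, |aa (S.T w ω)| ≤ 1 / 4 := fun ω => by
    rw [abs_of_nonneg (aa_nonneg (S.T_nonneg w ω) (S.T_le_one w ω))]; exact aa_le _
  have key := S.integral_label_of_Kx (S.iN w) hX hζ (K := 2) (by
    intro ω t
    have h1 := abs_Qi_le t.2.1 t.2.2 (hab ω)
    have h2 := S.abs_σ w.1 ω
    have h3 := hab ω
    simp only [ζ]
    rw [abs_mul]
    have h4 : |S.σ w.1 ω - aa (S.T w ω) * (S.σ w.1 ω * Qi t (aa (S.T w ω)))| ≤ 2 := by
      refine (abs_sub _ _).trans ?_
      rw [abs_mul, abs_mul, h2, one_mul]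
      have := mul_le_mul h3 h1 (abs_nonneg _) (by norm_num)
      linarith
    have := mul_le_mul (hzb (S.T w ω, S.σ w.1 ω * Qi t (aa (S.T w ω)))) h4 (abs_nonneg _)
      zero_le_one
    linarith)
  let G : ℝ → ℝ := fun t => ∫ y in Set.Icc (-1 : ℝ) 1, z (t, y) * ((1 - aa t ^ 2 * y ^ 2) / 2)
  have e : ∀ ω, ∫ t : unitInterval, ζ ((S.σ w.1 ω, S.T w ω), t) = S.σ w.1 ω * G (S.T w ω) := by
    intro ω
    simp only [ζ, G]
    rw [integral_Qi' (hab ω) (fun y => z (S.T w ω, S.σ w.1 ω * y) *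
      (S.σ w.1 ω - aa (S.T w ω) * (S.σ w.1 ω * y)))]
    rcases S.σ_cases w.1 ω with h | h
    · rw [h, one_mul]
      congr 1; funext y
      rw [one_mul]; ring
    · rw [h, ← integral_const_mul, ← integral_Icc_comp_neg]
      congr 1; funext y
      rw [neg_one_mul, neg_neg]; ring
  simp only [e] at key
  rw [S.post_integral_σ_mul] at key
  exact key

/-- `bayes_block` in the model: the record `th₂` is, relative to `σ y`, a function of the labels in
`A`, and the record `th₁` and `f` are functions of `σ y` and the other labels.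
(Take `N = clip ν₂ ∘ mfun th₂ y`, `O = D th₂`, `Oh = Dh th₂ y`.) -/
lemma bayes_model {th th₁ th₂ : V × ℕ → ℝ}
    (hth : ∀ w ω, S.tm w ω < th w ↔ S.tm w ω < th₁ w ∨ S.tm w ω < th₂ w) {y : V} {A : Set S.Idx}
    (h₁ : S.F th₁ ≤ S.Sg y ⊔ S.I Aᶜ) (h₂ : Measurable[S.I A] (S.Dh th₂ y)) {ν₁ ν₂ : ℝ}
    (hν₁ : 0 ≤ ν₁) (hν₂ : 0 ≤ ν₂) (hν : ν₁ * ν₂ < 1) (hm₁ : ∀ᵐ ω ∂S.P, |S.m th₁ y ω| ≤ ν₁)
    (hm₂ : ∀ᵐ ω ∂S.P, |S.m th₂ y ω| ≤ ν₂) {f : S.Om → ℝ} (hf : Bdd S.P f)
    (hfm : Measurable[S.Sg y ⊔ S.I Aᶜ] f) :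
    S.P[f | S.F th] =ᵐ[S.P] fun ω =>
      (S.P[f | S.F th₁] ω + S.m th₂ y ω * S.P[fun ω => f ω * S.σ y ω | S.F th₁] ω) /
        (1 + S.m th₂ y ω * S.m th₁ y ω) := by
  have hN : ∀ᵐ ω ∂S.P, clip ν₂ (S.mfun th₂ y (S.D th₂ ω)) = S.m th₂ y ω := by
    filter_upwards [hm₂] with ω h
    rw [← S.m_eq_mfun]; exact clip_of_abs_le h
  have key := bayes_block (P := S.P) (K := S.Sg y ⊔ S.I Aᶜ) (A := S.I A) (m := S.F th₁)
    (sup_le (S.Sg_le y) (S.I_le _)) (S.I_le _) (S.indep_Sg_I y disjoint_compl_left) h₁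
    (s := S.σ y) ((S.measurable_σ_Sg y).mono le_sup_left le_rfl) (S.σ_cases y) (S.integral_σ y)
    (Oh := S.Dh th₂ y) h₂ (act := act) measurable_act (O := S.D th₂) (S.D_eq_act th₂ y)
    (N := fun d => clip ν₂ (S.mfun th₂ y d)) (Measurable.clip' ν₂ (S.measurable_mfun th₂ y))
    (ν₁ := ν₂) (ν₂ := ν₁) (by rw [mul_comm]; exact hν) hν₁ (fun d => abs_clip_le hν₂ _)
    (EventuallyEq.trans hN (S.m_ae_eq th₂ y))
    (by filter_upwards [hm₁, S.m_ae_eq th₁ y] with ω h h' using h' ▸ h)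
    hf hfm.stronglyMeasurable.aestronglyMeasurable
  rw [S.F_sup' hth]
  refine EventuallyEq.trans key ?_
  filter_upwards [hN, S.m_ae_eq th₁ y] with ω h h'
  rw [h, h']

/-- Crossing an edge multiplies by `θ` (`condExp_mul_indep` with `σ x = σ y * tau x y`). -/
lemma condExp_edge {th : V × ℕ → ℝ} {x y : V} (h : S.G.Adj x y) (hth : Supp th (S.sub x y))
    {f : S.Om → ℝ} (hf : Bdd S.P f) (hfm : Measurable[S.Sg y ⊔ S.I (S.reg (S.sub x y))] f) :
    S.P[fun ω => f ω * S.σ x ω | S.F th] =ᵐ[S.P]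
      fun ω => S.θ * S.P[fun ω => f ω * S.σ y ω | S.F th] ω := by
  have e : (fun ω => f ω * S.σ x ω) = fun ω => (f ω * S.σ y ω) * S.tau x y ω := by
    funext ω
    rw [← S.σ_mul_adj h ω]
    have := S.σ_mul_self y ω
    linear_combination (-(f ω * S.σ x ω)) * this
  have hd : Disjoint (S.reg (S.sub x y)) {S.iE ⟨s(x, y), h⟩} := by
    rw [Set.disjoint_singleton_right, S.iE_mem_reg h]
    exact fun h' => S.not_mem_sub x y h'.1
  have key := condExp_mul_indep (P := S.P) (m := S.F th)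
    (K := S.Sg y ⊔ S.I (S.reg (S.sub x y))) (m₂ := S.I {S.iE ⟨s(x, y), h⟩})
    (sup_le (S.Sg_le y) (S.I_le _)) (S.I_le _)
    (S.F_le_of_Dh (S.measurable_Dh_reg h hth (S.self_mem_sub h))) (S.indep_Sg_I y hd)
    (hf.mul (S.bdd_σ y)) (S.bdd_tau x y)
    (hfm.mul ((S.measurable_σ_Sg y).mono le_sup_left
      le_rfl)).stronglyMeasurable.aestronglyMeasurable
    (S.measurable_tau_I h (Set.mem_singleton _)).stronglyMeasurable.aestronglyMeasurable
  rw [e, ← S.integral_tau h]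
  exact key

lemma m_edge {th : V × ℕ → ℝ} {x y : V} (h : S.G.Adj x y) (hth : Supp th (S.sub x y)) :
    S.m th x =ᵐ[S.P] fun ω => S.θ * S.m th y ω := by
  have key := S.condExp_edge h hth (f := fun _ => (1 : ℝ)) (Bdd.const 1) measurable_const
  simp only [one_mul] at key
  filter_upwards [key, S.m_ae_eq th x, S.m_ae_eq th y] with ω h1 h2 h3
  rw [h2, h3]; exact h1

lemma abs_m_edge_le {th : V × ℕ → ℝ} {x y : V} (h : S.G.Adj x y) (hth : Supp th (S.sub x y)) :
    ∀ᵐ ω ∂S.P, |S.m th x ω| ≤ 3 / 4 := by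
  filter_upwards [S.m_edge h hth] with ω h1
  rw [h1]; exact S.post_abs_θ_mul (S.abs_m_le th y ω)

/-- Merging the branch behind `z` with a record on the side of `y`. -/
lemma m_merge {th th₁ th₂ : V × ℕ → ℝ}
    (hth : ∀ w ω, S.tm w ω < th w ↔ S.tm w ω < th₁ w ∨ S.tm w ω < th₂ w) {y z : V}
    (h : S.G.Adj y z) (h₁ : Supp th₁ (S.sub z y)) (h₂ : Supp th₂ (S.sub y z)) :
    S.m th y =ᵐ[S.P] fun ω => op (S.m th₁ y ω) (S.m th₂ y ω) := by
  have key := S.bayes_model hth (y := y) (A := (S.reg (S.sub z y))ᶜ)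
    (by rw [compl_compl]
        exact S.F_le_of_Dh (S.measurable_Dh_reg h.symm h₁ (S.self_mem_sub h.symm)))
    (S.measurable_Dh_creg h h₂) (ν₁ := 1) (ν₂ := 3 / 4) zero_le_one (by norm_num) (by norm_num)
    (Eventually.of_forall (S.abs_m_le th₁ y)) (S.abs_m_edge_le h h₂) (S.bdd_σ y)
    ((S.measurable_σ_Sg y).mono le_sup_left le_rfl)
  rw [S.post_condExp_σσ] at key
  filter_upwards [key, S.m_ae_eq th y, S.m_ae_eq th₁ y] with ω h1 h2 h3
  rw [h2, h1, ← h3, op, mul_one, mul_comm]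

lemma split_sub (th : V × ℕ → ℝ) {x y : V} (h : S.G.Adj x y) (w : V × ℕ) (ω : S.Om) :
    S.tm w ω < th w ↔ S.tm w ω < res th (S.sub y x) w ∨ S.tm w ω < res th (S.sub x y) w := by
  have h0 := S.tm_nonneg w ω
  by_cases hw : w.1 ∈ S.sub x y
  · have hw' : w.1 ∉ S.sub y x := fun h' => (S.not_mem_sub_iff h _).2 h' hw
    simp [res, hw, hw', not_lt.2 h0]
  · have hw' : w.1 ∈ S.sub y x := (S.not_mem_sub_iff h _).1 hw
    simp [res, hw, hw', not_lt.2 h0]

/-- The magnetisation at an endpoint of an edge from the two cavity magnetisations. -/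
lemma m_eq_op (th : V × ℕ → ℝ) {x y : V} (h : S.G.Adj x y) :
    S.m th x =ᵐ[S.P] fun ω => op (S.n th y x ω) (S.θ * S.n th x y ω) := by
  filter_upwards [S.m_merge (S.split_sub th h) h (supp_res _ _) (supp_res _ _),
    S.m_edge h (supp_res th (S.sub x y))] with ω h1 h2
  rw [h1, h2]; rfl

lemma split_resZ (th : V × ℕ → ℝ) (y : V) (Z : Finset V) (z : V) (w : V × ℕ) (ω : S.Om) :
    S.tm w ω < S.resZ th y (insert z Z) w ↔
      S.tm w ω < S.resZ th y Z w ∨ S.tm w ω < res th (S.sub y z) w := by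
  have h0 := not_lt.2 (S.tm_nonneg w ω)
  simp only [resZ, res, Set.mem_ofPred_eq, Finset.mem_insert, exists_eq_or_imp]
  by_cases h1 : w.1 = y ∨ ∃ a ∈ Z, w.1 ∈ S.sub y a <;> by_cases h2 : w.1 ∈ S.sub y z
  · rw [if_pos (by tauto), if_pos h1, if_pos h2, or_self]
  · rw [if_pos (by tauto), if_pos h1, if_neg h2]; tauto
  · rw [if_pos (by tauto), if_neg h1, if_pos h2]; tauto
  · rw [if_neg (fun h => h.elim (fun h => h1 (Or.inl h)) fun h => h.elim h2 fun h => h1 (Or.inr h)),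
      if_neg h1, if_neg h2, or_self]

lemma supp_resZ (th : V × ℕ → ℝ) {y z : V} {Z : Finset V} (hZ : Z ⊆ S.nb y) (hz : S.G.Adj y z)
    (hzZ : z ∉ Z) : Supp (S.resZ th y Z) (S.sub z y) := by
  refine (supp_res th _).mono ?_
  rintro v (rfl | ⟨a, ha, hv⟩)
  · exact S.self_mem_sub hz.symm
  · refine S.sub_ch_subset hz.symm (S.mem_ch.2 ⟨?_, (S.mem_nb _ _).1 (hZ ha)⟩) hv
    rintro rfl; exact hzZ ha

lemma resZ_empty (th : V × ℕ → ℝ) (y : V) : S.resZ th y ∅ = res th {y} := by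
  unfold resZ; congr 1; ext v; simp

lemma resZ_ch (th : V × ℕ → ℝ) {x y : V} (h : S.G.Adj x y) :
    S.resZ th y (S.ch x y) = res th (S.sub x y) := by
  unfold resZ; congr 1; ext v
  constructor
  · rintro (rfl | ⟨a, ha, hv⟩)
    · exact S.self_mem_sub h
    · exact S.sub_ch_subset h ha hv
  · exact S.mem_sub_cases h

lemma resZ_nb (th : V × ℕ → ℝ) (y : V) : S.resZ th y (S.nb y) = th := by
  funext w
  simp only [resZ, res, Set.mem_ofPred_eq]
  rw [if_pos]
  by_cases hw : w.1 = y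
  · exact Or.inl hw
  · obtain ⟨z, hz, hv⟩ := S.exists_sub_of_ne hw
    exact Or.inr ⟨z, (S.mem_nb _ _).2 hz, hv⟩

lemma m_resZ_insert (th : V × ℕ → ℝ) {y z : V} {Z : Finset V} (hZ : Z ⊆ S.nb y)
    (hz : S.G.Adj y z) (hzZ : z ∉ Z) :
    S.m (S.resZ th y (insert z Z)) y =ᵐ[S.P]
      fun ω => op (S.m (S.resZ th y Z) y ω) (S.θ * S.n th y z ω) := by
  filter_upwards [S.m_merge (S.split_resZ th y Z z) hz (S.supp_resZ th hZ hz hzZ) (supp_res _ _),
    S.m_edge hz (supp_res th (S.sub y z))] with ω h1 h2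
  rw [h1, h2]; rfl

/-- One step of the covariance recursion. With `th₁ = res th (sub y x)`, `n = n th x y`,
`A = m th₁ v`, `B = m th₁ x`, `p = pp th₁ v x`, `d = 1 + θ n B`: `bayes_model` at `x` gives
`m th v = (A + θ n p)/d`, `m th x = (B + θ n)/d`, `pp th v x = (p + θ n A)/d`; at `y` (with
`condExp_edge`) `m th y = (θ B + n)/d`, `pp th v y = (θ p + n A)/d`. -/
lemma C_step (th : V × ℕ → ℝ) {x y v : V} (h : S.G.Adj x y) (hv : v ∈ S.sub y x) :
    S.C th v y =ᵐ[S.P] fun ω => S.θ * rho S.θ (S.n th x y ω) * S.C th v x ω := by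
  have hs₁ : Supp (res th (S.sub y x)) (S.sub y x) := supp_res _ _
  have hs₂ : Supp (res th (S.sub x y)) (S.sub x y) := supp_res _ _
  have hvx : Measurable[S.Sg x ⊔ S.I (S.reg (S.sub y x))] (S.σ v) :=
    S.measurable_σ_reg h.symm hv (S.self_mem_sub h.symm)
  have hxx : Measurable[S.Sg x ⊔ S.I (S.reg (S.sub y x))] (S.σ x) :=
    (S.measurable_σ_Sg x).mono le_sup_left le_rfl
  have hvy : Measurable[S.Sg y ⊔ S.I (S.reg (S.sub x y))ᶜ] (S.σ v) :=
    S.measurable_σ_creg h.symm hv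
  have hyy : Measurable[S.Sg y ⊔ S.I (S.reg (S.sub x y))ᶜ] (S.σ y) :=
    (S.measurable_σ_Sg y).mono le_sup_left le_rfl
  have atx : ∀ {f : S.Om → ℝ}, Bdd S.P f → Measurable[S.Sg x ⊔ S.I (S.reg (S.sub y x))] f → _ :=
    fun {f} hf hfm => S.bayes_model (S.split_sub th h) (y := x) (A := (S.reg (S.sub y x))ᶜ)
      (by rw [compl_compl]
          exact S.F_le_of_Dh (S.measurable_Dh_reg h.symm hs₁ (S.self_mem_sub h.symm)))
      (S.measurable_Dh_creg h hs₂) (ν₁ := 1) (ν₂ := 3 / 4) zero_le_one (by norm_num) (by norm_num)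
      (Eventually.of_forall (S.abs_m_le _ x)) (S.abs_m_edge_le h hs₂) (f := f) hf
      (by rw [compl_compl]; exact hfm)
  have aty : ∀ {f : S.Om → ℝ}, Bdd S.P f → Measurable[S.Sg y ⊔ S.I (S.reg (S.sub x y))ᶜ] f → _ :=
    fun {f} hf hfm => S.bayes_model (S.split_sub th h) (y := y) (A := S.reg (S.sub x y))
      (S.F_le_of_Dh (S.measurable_Dh_creg h.symm hs₁))
      (S.measurable_Dh_reg h hs₂ (S.self_mem_sub h)) (ν₁ := 3 / 4) (ν₂ := 1) (by norm_num)
      zero_le_one (by norm_num) (S.abs_m_edge_le h.symm hs₁)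
      (Eventually.of_forall (S.abs_m_le _ y)) (f := f) hf hfm
  have e1 := atx (S.bdd_σ v) hvx
  have e2 := atx (S.bdd_σ x) hxx
  have e3 := atx (S.bdd_σσ v x) (hvx.mul hxx)
  have e4 := aty (S.bdd_σ y) hyy
  have e5 := aty (S.bdd_σσ v y) (hvy.mul hyy)
  have e6 := S.condExp_edge h.symm hs₁ (S.bdd_σ v) hvx
  rw [S.post_condExp_σσ] at e2 e4
  rw [S.post_σσσ] at e3 e5
  filter_upwards [e1, e2, e3, e4, e5, e6, S.m_ae_eq th v, S.m_ae_eq th x, S.m_ae_eq th y,
    S.pp_ae_eq th v x, S.pp_ae_eq th v y, S.m_ae_eq (res th (S.sub y x)) x,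
    S.m_edge h hs₂, S.m_edge h.symm hs₁, S.m_ae_eq (res th (S.sub y x)) y]
    with ω e1 e2 e3 e4 e5 e6 a1 a2 a3 a4 a5 a6 a7 a8 a10
  have a9 : S.P[S.σ y | S.F (res th (S.sub y x))] ω = S.θ * S.m (res th (S.sub y x)) x ω →
      S.C th v y ω = S.θ * rho S.θ (S.n th x y ω) * S.C th v x ω := by
    intro a9
    simp only [C, n]
    rw [a1, a2, a3, a4, a5, e1, e2, e3, e4, e5, e6, a7, a8, a9, ← a6]
    have hn := S.abs_m_le (res th (S.sub x y)) y ω
    have hB := S.abs_m_le (res th (S.sub y x)) x ω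
    generalize S.m (res th (S.sub x y)) y ω = n at *
    generalize S.m (res th (S.sub y x)) x ω = B at *
    generalize S.P[S.σ v | S.F (res th (S.sub y x))] ω = A
    generalize S.P[fun ω => S.σ v ω * S.σ x ω | S.F (res th (S.sub y x))] ω = p
    have d1 : 1 / 4 ≤ 1 + B * (S.θ * n) := one_add_mul_pos hB (S.post_abs_θ_mul hn)
    have d2 : 7 / 16 ≤ 1 - S.θ ^ 2 * n ^ 2 :=
      one_sub_sq_mul_pos (S.theta_sq_le.trans (by norm_num)) hn
    have d3 : 1 + S.θ * n * B ≠ 0 := by intro h0; linarith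
    have d4 : 1 + n * (S.θ * B) ≠ 0 := by intro h0; linarith
    have d5 : 1 - S.θ ^ 2 * n ^ 2 ≠ 0 := by intro h0; linarith
    have d6 : 1 + n * (S.θ * B) = 1 + S.θ * n * B := by ring
    rw [rho, d6]
    field_simp
    ring
  exact a9 (a10.symm.trans a8)

lemma C_self (th : V × ℕ → ℝ) (x : V) : S.C th x x =ᵐ[S.P] fun ω => 1 - S.m th x ω ^ 2 := by
  have e := S.pp_ae_eq th x x
  rw [S.post_condExp_σσ] at e
  filter_upwards [e] with ω h
  rw [C, h, sq]

lemma C_symm (th : V × ℕ → ℝ) (x y : V) : S.C th x y = S.C th y x := by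
  funext ω
  simp only [C, pp, mul_comm]

/-- Product formula for the posterior covariance. -/
lemma C_eq (th : V × ℕ → ℝ) (x y : V) :
    S.C th x y =ᵐ[S.P] fun ω => (1 - S.m th x ω ^ 2) * S.θ ^ S.G.dist x y * S.Pr th x y ω := by
  refine S.induction_from x (p := fun y => S.C th x y =ᵐ[S.P]
    fun ω => (1 - S.m th x ω ^ 2) * S.θ ^ S.G.dist x y * S.Pr th x y ω) ?_ ?_ y
  · filter_upwards [S.C_self th x] with ω h
    rw [h, S.ds, Pr, S.Pi_self]; ring
  · intro y z hyz hx ih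
    filter_upwards [ih, S.C_step th hyz hx, S.rh_ae_eq th y z] with ω h1 h2 h3
    rw [h2, h1, (S.mem_sub_iff hyz.symm x).1 hx, ← h3]
    simp only [Pr]
    rw [S.Pi_snoc _ hyz hx]
    ring

lemma C_nonneg (th : V × ℕ → ℝ) (x y : V) : ∀ᵐ ω ∂S.P, 0 ≤ S.C th x y ω := by
  filter_upwards [S.C_eq th x y] with ω h
  rw [h]
  have h1 : S.m th x ω ^ 2 ≤ 1 := (sq_le_one_iff_abs_le_one _).2 (S.abs_m_le th x ω)
  exact mul_nonneg (mul_nonneg (by linarith) (pow_nonneg S.θ0 _)) (S.Pr_nonneg th x y ω)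

lemma C_le (th : V × ℕ → ℝ) (x y : V) :
    ∀ᵐ ω ∂S.P, S.C th x y ω ≤ S.θ ^ S.G.dist x y * S.Pr th x y ω := by
  filter_upwards [S.C_eq th x y] with ω h
  rw [h, mul_assoc]
  exact mul_le_of_le_one_left (mul_nonneg (pow_nonneg S.θ0 _) (S.Pr_nonneg th x y ω))
    (by linarith [sq_nonneg (S.m th x ω)])

lemma C_sq_le (th : V × ℕ → ℝ) (x y : V) :
    ∀ᵐ ω ∂S.P, S.C th x y ω ^ 2 ≤ S.θ ^ (2 * S.G.dist x y) * S.Pr th x y ω := by
  filter_upwards [S.C_nonneg th x y, S.C_le th x y] with ω h0 h1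
  have h2 := S.Pr_nonneg th x y ω
  have h3 := S.Pr_le_one th x y ω
  calc S.C th x y ω ^ 2 ≤ (S.θ ^ S.G.dist x y * S.Pr th x y ω) ^ 2 := pow_le_pow_left₀ h0 h1 2
    _ = S.θ ^ (2 * S.G.dist x y) * (S.Pr th x y ω * S.Pr th x y ω) := by ring
    _ ≤ _ := mul_le_mul_of_nonneg_left (mul_le_of_le_one_left h2 h3) (pow_nonneg S.θ0 _)

/-- The posterior given one observation. Test against `z(T, Y)` and integrate out the noise label
(`integral_label_of_Kx`, `integral_spin_Qi` with `m = 0`, `integral_Qi`), then the coin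
(`σ w.1` is independent of `T w`). -/
lemma m_single (th : V × ℕ → ℝ) (w : V × ℕ) : S.m (single th w) w.1 =ᵐ[S.P] S.Nw th w := by
  refine EventuallyEq.trans (S.m_ae_eq _ _) (EventuallyEq.symm ?_)
  have hDw : ∀ ω, S.D (single th w) ω = S.postPhi th w (S.T w ω, S.Y w ω) := by
    intro ω
    funext w'
    by_cases hw : w' = w
    · subst hw
      simp [D, single, postPhi, tm]
    · simp [D, single, postPhi, hw, not_lt.2 (S.tm_nonneg w' ω)]
  refine ae_eq_condExp_of_forall_setIntegral_eq (S.F_le _) (S.bdd_σ _).integrable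
    (fun s _ _ => (S.bdd_Nw th w).integrable.integrableOn) ?_ ?_
  · rintro _ ⟨B, hB, rfl⟩ -
    have hBm : MeasurableSet (S.D (single th w) ⁻¹' B) := S.measurable_D _ hB
    rw [← sub_eq_zero, ← integral_sub (S.bdd_Nw th w).integrable.integrableOn
      (S.bdd_σ _).integrable.integrableOn, ← integral_indicator hBm]
    let z : ℝ × ℝ → ℝ := fun p =>
      if (w.2 : ℝ) + p.1 < th w then B.indicator (fun _ => (1 : ℝ)) (S.postPhi th w p) else 0
    have hz : Measurable z := by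
      refine Measurable.ite (measurableSet_lt (by fun_prop) measurable_const) ?_ measurable_const
      exact (measurable_const.indicator hB).comp (S.measurable_postPhi th w)
    have hzb : ∀ p, |z p| ≤ 1 := by
      intro p
      simp only [z]
      split_ifs
      · by_cases hp : S.postPhi th w p ∈ B <;> simp [hp]
      · simp
    let G : ℝ → ℝ := fun t =>
      if (w.2 : ℝ) + t < th w then 0 else B.indicator (fun _ => (1 : ℝ)) (fun _ => (-1, 0))
    have hG : Measurable G :=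
      Measurable.ite (measurableSet_lt (by fun_prop) measurable_const) measurable_const
        measurable_const
    have hGb : ∀ t, |G t| ≤ 1 := by
      intro t
      simp only [G]
      split_ifs
      · simp
      · by_cases hp : (fun _ => ((-1 : ℝ), (0 : ℝ)) : Data V) ∈ B <;> simp [hp]
    have e : (S.D (single th w) ⁻¹' B).indicator (fun ω => S.Nw th w ω - S.σ w.1 ω) =
        fun ω => -(z (S.T w ω, S.Y w ω) * (S.σ w.1 ω - S.a w ω * S.Y w ω)) -
          S.σ w.1 ω * G (S.T w ω) := by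
      funext ω
      simp only [z, G, Nw, Set.indicator, Set.mem_preimage, hDw, tm]
      by_cases h1 : (w.2 : ℝ) + S.T w ω < th w
      · simp only [h1, if_true]
        split_ifs <;> ring
      · have : S.postPhi th w (S.T w ω, S.Y w ω) = fun _ => (-1, 0) := by
          funext w'; simp [postPhi, h1]
        simp only [h1, if_false, this]
        split_ifs <;> ring
    have b1 : Bdd S.P fun ω => z (S.T w ω, S.Y w ω) :=
      Bdd.of_meas (hz.comp ((S.measurable_T w).prodMk (S.measurable_Y w))) fun ω => hzb _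
    have b2 : Bdd S.P fun ω => G (S.T w ω) :=
      Bdd.of_meas (hG.comp (S.measurable_T w)) fun ω => hGb _
    rw [e, integral_sub (b1.mul ((S.bdd_σ _).sub ((S.bdd_a w).mul (S.bdd_Y w)))).neg.integrable
      ((S.bdd_σ _).mul b2).integrable, integral_neg, S.post_key w hz hzb, S.post_integral_σ_mul]
    simp
  · have e : S.Nw th w = (fun d : Data V => aa ((d w).1 - w.2) * (d w).2) ∘ S.D (single th w) := by
      funext ω
      simp only [Nw, D, single, Function.comp, if_true]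
      split_ifs
      · simp [a, tm]
      · simp
    rw [e]
    refine Measurable.aestronglyMeasurable (Measurable.comp ?_ (comap_measurable _))
    exact (Measurable.aa' (by fun_prop)).mul (by fun_prop)

/-- Bayes' formula for one index. -/
lemma bayes_single (th : V × ℕ → ℝ) (w : V × ℕ) {f : S.Om → ℝ} (hf : Bdd S.P f)
    (hfm : Measurable[S.Sp] f) :
    S.P[f | S.F th] =ᵐ[S.P] fun ω =>
      (S.P[f | S.F (off th w)] ω +
          S.Nw th w ω * S.P[fun ω => f ω * S.σ w.1 ω | S.F (off th w)] ω) /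
        (1 + S.Nw th w ω * S.m (off th w) w.1 ω) := by
  have hth : ∀ w' ω, S.tm w' ω < th w' ↔ S.tm w' ω < off th w w' ∨ S.tm w' ω < single th w w' := by
    intro w' ω
    have h0 := not_lt.2 (S.tm_nonneg w' ω)
    by_cases hw : w' = w
    · subst hw; simp [off, single, h0]
    · simp [off, single, hw, h0]
  have hSp : S.Sp ≤ S.Sg w.1 ⊔ S.I {S.iT w, S.iN w}ᶜ := by
    refine iSup_le fun v => Measurable.comap_le (S.measurable_σ_of_edges v w.1 fun e => ?_)
    simp [iE, iT, iN]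
  have key := S.bayes_model hth (y := w.1) (A := {S.iT w, S.iN w}) (S.F_off_le_Sg th w w.1)
    (S.measurable_Dh_single th w) (ν₁ := 1) (ν₂ := 1 / 4) zero_le_one (by norm_num) (by norm_num)
    (Eventually.of_forall (S.abs_m_le _ _))
    (by filter_upwards [S.m_single th w] with ω h using h ▸ S.abs_Nw_le th w ω) hf
    (hfm.mono hSp le_rfl)
  filter_upwards [key, S.m_single th w] with ω h1 h2
  rw [h1, h2]

lemma m_single_op (th : V × ℕ → ℝ) (w : V × ℕ) :
    S.m th w.1 =ᵐ[S.P] fun ω => op (S.m (off th w) w.1 ω) (S.Nw th w ω) := by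
  have key := S.bayes_single th w (S.bdd_σ w.1) (S.post_σ_Sp w.1)
  rw [S.post_condExp_σσ] at key
  filter_upwards [key, S.m_ae_eq th w.1, S.m_ae_eq (off th w) w.1] with ω h1 h2 h3
  rw [h2, h1, ← h3, op, mul_one, mul_comm]

/-- The jump caused by one index. -/
lemma m_sub_off (th : V × ℕ → ℝ) (w : V × ℕ) (x : V) :
    ∀ᵐ ω ∂S.P, S.m th x ω - S.m (off th w) x ω =
      if S.tm w ω < th w then
        S.C (off th w) x w.1 ω * jj (S.Y w ω) (S.a w ω) (S.m (off th w) w.1 ω) else 0 := by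
  filter_upwards [S.bayes_single th w (S.bdd_σ x) (S.post_σ_Sp x), S.m_ae_eq th x,
    S.m_ae_eq (off th w) x, S.pp_ae_eq (off th w) x w.1] with ω h1 h2 h3 h4
  rw [h2, h1, ← h3, ← h4, Nw]
  split_ifs with h
  · have d := one_add_ge (S.abs_Y_le w ω) (S.a_nonneg w ω) (S.a_le w ω)
      (S.abs_m_le (off th w) w.1 ω)
    have d1 : 1 + S.a w ω * S.m (off th w) w.1 ω * S.Y w ω ≠ 0 := by intro h0; linarith
    have d2 : 1 + S.a w ω * S.Y w ω * S.m (off th w) w.1 ω =
      1 + S.a w ω * S.m (off th w) w.1 ω * S.Y w ω := by ring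
    rw [C, jj, ← d2]
    rw [← d2] at d1
    field_simp
    ring
  · simp

lemma m_eq_off (th : V × ℕ → ℝ) (w : V × ℕ) (x : V) :
    ∀ᵐ ω ∂S.P, th w ≤ S.tm w ω → S.m th x ω = S.m (off th w) x ω := by
  filter_upwards [S.m_sub_off th w x] with ω h h'
  rw [if_neg (not_lt.2 h')] at h
  exact sub_eq_zero.1 h

lemma pp_eq_off (th : V × ℕ → ℝ) (w : V × ℕ) (x y : V) :
    ∀ᵐ ω ∂S.P, th w ≤ S.tm w ω → S.pp th x y ω = S.pp (off th w) x y ω := by
  filter_upwards [S.bayes_single th w (S.bdd_σσ x y) ((S.post_σ_Sp x).mul (S.post_σ_Sp y)),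
    S.pp_ae_eq th x y, S.pp_ae_eq (off th w) x y] with ω h1 h2 h3 h
  rw [h2, h1, ← h3, Nw, if_neg (not_lt.2 h)]
  simp

/-- Up to a bounded time the magnetisations stay away from `±1`
(`m_single_op` for the finitely many rounds at `v`, then `m_resZ_insert`, `one_sub_abs_op`). -/
lemma exists_m_bound (R : ℝ) : ∃ ν : ℝ, 0 ≤ ν ∧ ν < 1 ∧
    ∀ th : V × ℕ → ℝ, (∀ w, th w ≤ R) → ∀ v, ∀ᵐ ω ∂S.P, |S.m th v ω| ≤ ν := by
  have hA : ∀ (v : V) (k : ℕ) (th : V × ℕ → ℝ), (∀ w, 0 < th w → w.1 = v ∧ w.2 < k) →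
      ∀ᵐ ω ∂S.P, (1 / 8 : ℝ) ^ k ≤ 1 - |S.m th v ω| := by
    intro v k
    induction k with
    | zero =>
      intro th hth
      have hD : S.D th = fun _ _ => (-1, 0) := by
        funext ω w
        have : ¬ S.tm w ω < th w := fun h =>
          absurd (hth w ((S.tm_nonneg w ω).trans_lt h)).2 (Nat.not_lt_zero _)
        simp [D, this]
      have hF : S.F th = ⊥ := by
        unfold F; rw [hD]; exact MeasurableSpace.comap_const _
      have e := S.m_ae_eq th v
      rw [hF, condExp_bot, S.integral_σ] at e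
      filter_upwards [e] with ω h
      rw [h]; simp
    | succ k ih =>
      intro th hth
      have h1 := ih (off th (v, k)) (by
        intro w hw
        by_cases hwk : w = (v, k)
        · subst hwk; simp [off] at hw
        · have hw' : 0 < th w := by simpa [off, hwk] using hw
          obtain ⟨h1, h2⟩ := hth w hw'
          refine ⟨h1, lt_of_le_of_ne (Nat.lt_succ_iff.1 h2) fun h3 => hwk ?_⟩
          exact Prod.ext h1 h3)
      filter_upwards [h1, S.m_single_op th (v, k)] with ω h1 h2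
      have h3 := one_sub_abs_op (S.abs_m_le (off th (v, k)) v ω)
        ((S.abs_Nw_le th (v, k) ω).trans (by norm_num : (1 / 4 : ℝ) ≤ 3 / 4))
      rw [h2, pow_succ]
      linarith
  refine ⟨1 - (1 / 8 : ℝ) ^ (⌈R⌉₊ + (S.b + 1)), ?_, ?_, ?_⟩
  · exact sub_nonneg.2 (pow_le_one₀ (by norm_num) (by norm_num))
  · have : (0 : ℝ) < (1 / 8 : ℝ) ^ (⌈R⌉₊ + (S.b + 1)) := by positivity
    linarith
  intro th hth v
  have hB : ∀ Z : Finset V, Z ⊆ S.nb v →
      ∀ᵐ ω ∂S.P, (1 / 8 : ℝ) ^ (⌈R⌉₊ + Z.card) ≤ 1 - |S.m (S.resZ th v Z) v ω| := by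
    intro Z
    induction Z using Finset.induction_on with
    | empty =>
      intro _
      rw [Finset.card_empty, add_zero, S.resZ_empty, S.m_congr (th' := fun w => if w.1 = v ∧ w.2 < ⌈R⌉₊ then th w else 0)]
      · refine hA v _ _ fun w hw => ?_
        by_contra h
        exact absurd hw (by rw [if_neg h]; exact lt_irrefl _)
      · intro w ω
        have h0 := not_lt.2 (S.tm_nonneg w ω)
        by_cases h1 : w.1 = v
        · by_cases h2 : w.2 < ⌈R⌉₊
          · simp [res, h1, h2]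
          · have h3 : ¬ S.tm w ω < th w := by
              have h4 : ((⌈R⌉₊ : ℕ) : ℝ) ≤ w.2 := by exact_mod_cast not_lt.1 h2
              have := Nat.le_ceil R
              have := S.le_tm w ω
              have := hth w
              exact not_lt.2 (by linarith)
            simp [res, h1, h2, h0, h3]
        · simp [res, h1, h0]
    | insert z Z hz ih =>
      intro hZ
      have hZ' : Z ⊆ S.nb v := (Finset.subset_insert _ _).trans hZ
      have hvz : S.G.Adj v z := (S.mem_nb _ _).1 (hZ (Finset.mem_insert_self _ _))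
      filter_upwards [ih hZ', S.m_resZ_insert th hZ' hvz hz] with ω h1 h2
      have h3 := one_sub_abs_op (S.abs_m_le (S.resZ th v Z) v ω)
        (S.post_abs_θ_mul (S.abs_n_le th v z ω))
      rw [h2, Finset.card_insert_of_notMem hz, ← add_assoc, pow_succ]
      linarith
  have := hB (S.nb v) subset_rfl
  rw [S.resZ_nb, S.card_nb] at this
  filter_upwards [this] with ω h
  linarith

lemma m_res_singleton {s : ℝ} (hs : s ≤ 1) (y : V) :
    S.m (res (cst s) {y}) y =ᵐ[S.P] S.Nw (cst s) (y, 0) := by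
  rw [S.m_congr (th' := single (cst s) (y, 0))]
  · exact S.m_single (cst s) (y, 0)
  · rintro ⟨v, k⟩ ω
    have h0 := not_lt.2 (S.tm_nonneg (v, k) ω)
    by_cases h1 : v = y
    · subst h1
      rcases Nat.eq_zero_or_pos k with rfl | hk
      · simp [res, single, cst]
      · have h2 : ¬ S.tm (v, k) ω < s := by
          have h3 := S.le_tm (v, k) ω
          have h4 : (1 : ℝ) ≤ k := by exact_mod_cast hk
          exact not_lt.2 (by simp only at h3; linarith)
        simp [res, single, cst, hk.ne', h0, h2]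
    · simp [res, single, h1, h0]

end Setup

end Crest.Agent.R160

end
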