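import Mathlib

/-! Row 160: numerical sums. -/

noncomputable section

namespace Crest.Agent.R160

open Finset

private lemma near_card_le {L : ℝ} (hL : 1 ≤ L) (K : ℕ) :
    (((range K).filter (fun k : ℕ => (k : ℝ) ≤ L)).card : ℝ) ≤ 2 * L := by
  have h1 : (range K).filter (fun k : ℕ => (k : ℝ) ≤ L) ⊆ range (⌊L⌋₊ + 1) := by
    intro k hk
    rw [mem_range, Nat.lt_succ_iff]
    exact Nat.le_floor (mem_filter.1 hk).2
  have h2 := card_le_card h1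
  rw [card_range] at h2
  have h3 : (⌊L⌋₊ : ℝ) ≤ L := Nat.floor_le (by linarith)
  have h4 : (((range K).filter (fun k : ℕ => (k : ℝ) ≤ L)).card : ℝ) ≤ ⌊L⌋₊ + 1 := by
    exact_mod_cast h2
  linarith

lemma sum_near_le {z : ℝ} (hz : 1 ≤ z) (K : ℕ) :
    ∑ k ∈ (range K).filter (fun k : ℕ => (k : ℝ) ≤ z ^ 19), ((k : ℝ) + 1) ≤ 4 * z ^ 38 := by
  have hL : 1 ≤ z ^ 19 := one_le_pow₀ hz
  have h1 := sum_le_card_nsmul ((range K).filter (fun k : ℕ => (k : ℝ) ≤ z ^ 19))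
    (fun k : ℕ => (k : ℝ) + 1) (2 * z ^ 19) (fun k hk => by
      have := (mem_filter.1 hk).2
      linarith)
  rw [nsmul_eq_mul] at h1
  refine h1.trans ((mul_le_mul_of_nonneg_right (near_card_le hL K) (by positivity)).trans
    (le_of_eq (by ring)))

lemma sum_near_one_le {z : ℝ} (hz : 1 ≤ z) (K : ℕ) :
    ∑ _k ∈ (range K).filter (fun k : ℕ => (k : ℝ) ≤ z ^ 19), (1 : ℝ) ≤ 2 * z ^ 19 := by
  rw [sum_const, nsmul_eq_mul, mul_one]
  exact near_card_le (one_le_pow₀ hz) K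

private lemma summable_succ_pow (n : ℕ) {r : ℝ} (h0 : 0 < r) (h1 : r < 1) :
    Summable fun k : ℕ => ((k : ℝ) + 1) ^ n * r ^ k := by
  have h := (summable_nat_add_iff 1).2
    (summable_pow_mul_geometric_of_norm_lt_one n (r := r) (by rwa [Real.norm_of_nonneg h0.le]))
  refine (h.mul_right r⁻¹).congr fun k => ?_
  push_cast
  field_simp
  ring

lemma exists_sum_exp_le : ∃ C : ℝ, 0 ≤ C ∧ ∀ K : ℕ,
    ∑ k ∈ range K, ((k : ℝ) + 1) ^ 2 * Real.exp (-(k : ℝ)) ≤ C := by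
  have h := summable_succ_pow 2 (Real.exp_pos (-1)) (Real.exp_lt_one_iff.2 (by norm_num))
  have h2 : Summable fun k : ℕ => ((k : ℝ) + 1) ^ 2 * Real.exp (-(k : ℝ)) := by
    refine h.congr fun k => ?_
    rw [← Real.exp_nat_mul]; simp
  exact ⟨_, tsum_nonneg fun k => by positivity,
    fun K => h2.sum_le_tsum _ fun k _ => by positivity⟩

/-- `min 1 ξ ≤ √ξ ≤ (P + k) 2^{-j/2}`. -/
lemma exists_sum_xi_le : ∃ C : ℝ, 0 ≤ C ∧ ∀ (P : ℝ), 1 ≤ P → ∀ K : ℕ,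
    ∑ k ∈ range K, ((k : ℝ) + 1) ^ 2 * min 1 ((P ^ 2 + k) / 2 ^ ((k - 1) / 4)) ≤ C * P := by
  have h := (summable_succ_pow 3 (r := 19 / 20) (by norm_num) (by norm_num)).mul_left 2
  refine ⟨∑' k : ℕ, 2 * (((k : ℝ) + 1) ^ 3 * (19 / 20) ^ k),
    tsum_nonneg fun k => by positivity, fun P hP K => ?_⟩
  refine le_trans ?_ (mul_le_mul_of_nonneg_right (h.sum_le_tsum (range K) fun k _ => by positivity)
    (by linarith))
  rw [sum_mul]
  refine sum_le_sum fun k _ => ?_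
  have hk : (0 : ℝ) ≤ k := Nat.cast_nonneg k
  set j := (k - 1) / 4 with hj
  set y : ℝ := 2 * P * (k + 1) * (19 / 20) ^ k with hy
  have hy0 : 0 ≤ y := by positivity
  have h1 : (1 : ℝ) / 2 ^ j ≤ (2 * (19 / 20) ^ k) ^ 2 := by
    have h2 : ((19 / 20 : ℝ) ^ 8) ^ (j + 1) ≤ ((19 / 20 : ℝ) ^ k) ^ 2 := by
      rw [← pow_mul, ← pow_mul]
      exact pow_le_pow_of_le_one (by norm_num) (by norm_num) (by omega)
    have h3 : (1 / 2 : ℝ) ^ (j + 1) ≤ ((19 / 20 : ℝ) ^ 8) ^ (j + 1) :=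
      pow_le_pow_left₀ (by norm_num) (by norm_num) _
    have h4 : (1 : ℝ) / 2 ^ j = 2 * (1 / 2 : ℝ) ^ (j + 1) := by
      rw [pow_succ, one_div_pow]; ring
    have h5 : (0 : ℝ) ≤ ((19 / 20 : ℝ) ^ k) ^ 2 := by positivity
    rw [h4, mul_pow]
    linarith
  have h2 : P ^ 2 + k ≤ (P * (k + 1)) ^ 2 := by
    have : 1 ≤ P ^ 2 := one_le_pow₀ hP
    nlinarith [mul_nonneg hk hk]
  have h3 : (P ^ 2 + k) / 2 ^ j ≤ y ^ 2 := by
    rw [div_eq_mul_one_div]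
    refine (mul_le_mul h2 h1 (by positivity) (by positivity)).trans (le_of_eq ?_)
    rw [hy]; ring
  have h4 : min 1 ((P ^ 2 + k) / 2 ^ j) ≤ y := by
    rcases le_total 1 y with h | h
    · exact (min_le_left _ _).trans h
    · exact (min_le_right _ _).trans (h3.trans (by nlinarith))
  refine (mul_le_mul_of_nonneg_left h4 (by positivity)).trans (le_of_eq ?_)
  rw [hy]; ring

/-- `κ^k v^j ≤ (κ v)^j ≤ exp (-c j/(2z)^18)` with `j = (k-1)/4`; use `e^{-x} ≤ C/x^41` for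
`j ≥ 1` (where `j ≥ k/8`) and `∑_{k > L} k^{-39} ≤ C L^{-38}`; the terms `k ≤ 4` are bounded. -/
lemma exists_sum_far_le {c : ℝ} (hc : 0 < c) : ∃ C : ℝ, 0 ≤ C ∧ ∀ z κ v : ℝ, 1 ≤ z → 0 ≤ κ →
    κ ≤ 1 → 0 ≤ v → κ * v ≤ 1 - c / (2 * z) ^ 18 → ∀ K : ℕ,
    ∑ k ∈ (range K).filter (fun k : ℕ => z ^ 19 < (k : ℝ)),
      ((k : ℝ) + 1) ^ 2 * (κ ^ k * v ^ ((k - 1) / 4)) ≤ C * z ^ 35 := by
  obtain ⟨Fa, hFa⟩ : ∃ Fa : ℝ, Fa = ((41 : ℕ).factorial : ℝ) := ⟨_, rfl⟩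
  have hFa0 : 0 < Fa := by rw [hFa]; exact_mod_cast Nat.factorial_pos 41
  obtain ⟨B, hB⟩ : ∃ B : ℝ, B = 8 * 2 ^ 18 / c := ⟨_, rfl⟩
  have hB0 : 0 < B := by rw [hB]; positivity
  have hs : Summable fun k : ℕ => 1 / (k : ℝ) ^ 2 := Real.summable_one_div_nat_pow.2 (by norm_num)
  refine ⟨(4 * Fa * B ^ 41 + 400) * ∑' k : ℕ, 1 / (k : ℝ) ^ 2,
    mul_nonneg (by positivity) (tsum_nonneg fun k => by positivity),
    fun z κ v hz hκ0 hκ1 hv hκv K => ?_⟩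
  have hL : 1 ≤ z ^ 19 := one_le_pow₀ hz
  have hz35 : 1 ≤ z ^ 35 := one_le_pow₀ hz
  have hz0 : 0 < z := by linarith
  have hterm : ∀ k : ℕ, z ^ 19 < (k : ℝ) → ((k : ℝ) + 1) ^ 2 * (κ ^ k * v ^ ((k - 1) / 4))
      ≤ (4 * Fa * B ^ 41 + 400) * z ^ 35 * (1 / (k : ℝ) ^ 2) := by
    intro k hk
    have hk1 : (1 : ℝ) ≤ k := by linarith
    have hk0 : (0 : ℝ) < k := by linarith
    have hA : 0 ≤ 4 * Fa * B ^ 41 := by positivity
    rcases le_or_gt k 4 with h4 | h4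
    · have hj : (k - 1) / 4 = 0 := by omega
      have h4' : (k : ℝ) ≤ 4 := by exact_mod_cast h4
      rw [hj, pow_zero, mul_one, mul_one_div, le_div_iff₀ (by positivity)]
      have h1 : κ ^ k ≤ 1 := pow_le_one₀ hκ0 hκ1
      calc ((k : ℝ) + 1) ^ 2 * κ ^ k * (k : ℝ) ^ 2 ≤ (4 + 1) ^ 2 * 1 * 4 ^ 2 := by gcongr
        _ = (0 + 400) * 1 := by norm_num
        _ ≤ _ := by gcongr
    · set j := (k - 1) / 4 with hj
      have hjk : (k : ℝ) ≤ 8 * j := by exact_mod_cast (by omega : k ≤ 8 * j)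
      set δ : ℝ := c / (2 * z) ^ 18 with hδ
      have hδ0 : 0 < δ := by positivity
      have h1 : κ ^ k * v ^ j ≤ Real.exp (-(δ * j)) := by
        calc κ ^ k * v ^ j ≤ κ ^ j * v ^ j :=
              mul_le_mul_of_nonneg_right (pow_le_pow_of_le_one hκ0 hκ1 (by omega)) (by positivity)
          _ = (κ * v) ^ j := (mul_pow _ _ _).symm
          _ ≤ Real.exp (-δ) ^ j := by
              refine pow_le_pow_left₀ (by positivity) (hκv.trans ?_) j
              linarith [Real.add_one_le_exp (-δ)]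
          _ = _ := by rw [← Real.exp_nat_mul]; congr 1; ring
      have h2 : (k : ℝ) / (B * z ^ 18) ≤ δ * j := by
        have : (k : ℝ) / (B * z ^ 18) = δ * (k / 8) := by
          rw [hB, hδ, mul_pow]; field_simp
        rw [this]
        exact mul_le_mul_of_nonneg_left (by linarith) hδ0.le
      have h3 : Real.exp (-(δ * j)) ≤ Fa * (B * z ^ 18) ^ 41 / (k : ℝ) ^ 41 := by
        have h5 := Real.pow_div_factorial_le_exp ((k : ℝ) / (B * z ^ 18)) (by positivity) 41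
        rw [← hFa] at h5
        have h6 := h5.trans (Real.exp_le_exp.2 h2)
        rw [Real.exp_neg]
        refine (inv_anti₀ (by positivity) h6).trans (le_of_eq ?_)
        rw [div_pow]
        field_simp
      have h5 : (z ^ 19) ^ 37 ≤ (k : ℝ) ^ 37 := pow_le_pow_left₀ (by positivity) hk.le 37
      have h6 : ((k : ℝ) + 1) ^ 2 ≤ (2 * k) ^ 2 := pow_le_pow_left₀ (by positivity) (by linarith) 2
      calc ((k : ℝ) + 1) ^ 2 * (κ ^ k * v ^ j)
          ≤ (2 * k) ^ 2 * (Fa * (B * z ^ 18) ^ 41 / (k : ℝ) ^ 41) :=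
            mul_le_mul h6 (h1.trans h3) (by positivity) (by positivity)
        _ = 4 * Fa * B ^ 41 * z ^ 35 * (1 / (k : ℝ) ^ 2) * ((z ^ 19) ^ 37 / (k : ℝ) ^ 37) := by
            rw [mul_pow B]
            generalize B ^ 41 = B'
            have e1 : (z ^ 18) ^ 41 = z ^ 35 * (z ^ 19) ^ 37 := by
              rw [← pow_mul, ← pow_mul, ← pow_add]
            rw [e1]
            generalize (z ^ 19) ^ 37 = W
            field_simp
            ring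
        _ ≤ 4 * Fa * B ^ 41 * z ^ 35 * (1 / (k : ℝ) ^ 2) :=
            mul_le_of_le_one_right (by positivity) ((div_le_one (by positivity)).2 h5)
        _ ≤ _ := by gcongr; linarith
  calc _ ≤ ∑ k ∈ (range K).filter (fun k : ℕ => z ^ 19 < (k : ℝ)),
        (4 * Fa * B ^ 41 + 400) * z ^ 35 * (1 / (k : ℝ) ^ 2) :=
        sum_le_sum fun k hk => hterm k (mem_filter.1 hk).2
    _ = (4 * Fa * B ^ 41 + 400) * z ^ 35 *
        ∑ k ∈ (range K).filter (fun k : ℕ => z ^ 19 < (k : ℝ)), 1 / (k : ℝ) ^ 2 := by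
        rw [mul_sum]
    _ ≤ (4 * Fa * B ^ 41 + 400) * z ^ 35 * ∑' k : ℕ, 1 / (k : ℝ) ^ 2 :=
        mul_le_mul_of_nonneg_left (hs.sum_le_tsum _ fun k _ => by positivity) (by positivity)
    _ = _ := by ring

lemma min_one_pow_four_le {y : ℝ} (hy : 0 ≤ y) : min 1 (y ^ 4) ≤ y := by
  rcases le_total 1 y with h | h
  · exact (min_le_left _ _).trans h
  · exact (min_le_right _ _).trans (pow_le_of_le_one hy h (by norm_num))

lemma pow_mul_exp_le {P z : ℝ} (hP : 1 ≤ P) (hz : 1 ≤ z) :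
    z ^ 3 * Real.exp (-(P ^ 2 * z)) ≤ 20 * Real.exp (-P ^ 2) := by
  have hP2 : 1 ≤ P ^ 2 := one_le_pow₀ hP
  obtain ⟨t, rfl⟩ : ∃ t, z = 1 + t := ⟨z - 1, by ring⟩
  have ht : 0 ≤ t := by linarith
  have h1 := Real.sum_le_exp_of_nonneg ht 4
  simp only [sum_range_succ, range_zero, sum_empty, Nat.factorial] at h1
  norm_num at h1
  have h2 : (1 + t) ^ 3 ≤ 20 * Real.exp t := by nlinarith [pow_nonneg ht 2, pow_nonneg ht 3]
  have h3 : Real.exp t * Real.exp (-(P ^ 2 * (1 + t))) ≤ Real.exp (-P ^ 2) := by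
    rw [← Real.exp_add, Real.exp_le_exp]
    nlinarith
  calc _ ≤ 20 * Real.exp t * Real.exp (-(P ^ 2 * (1 + t))) :=
        mul_le_mul_of_nonneg_right h2 (Real.exp_pos _).le
    _ ≤ _ := by rw [mul_assoc]; linarith

end Crest.Agent.R160

end
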