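import Crest.Agent.R160.PsiB
import Crest.Agent.R160.PsiSum
import Crest.Agent.R160.MGF
import Crest.Agent.R160.OneStep

/-! Row 160: the Gronwall coefficient. -/

noncomputable section

namespace Crest.Agent.R160

open Classical MeasureTheory ProbabilityTheory

universe u

namespace Setup

variable {V : Type u} (S : Setup V)

lemma psi_near {s c α₀ α : ℝ} (h : S.AvOK s c α₀ α) (hα : 0 ≤ α) (u : V) :
    S.psi s u ≤ S.θ ^ (2 * S.G.dist S.o u) *
      ((2 * α₀ + S.phi s) + 96 * ((S.G.dist S.o u : ℝ) + 1) * α) := by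
  have h1 := h.near S.o u
  have h2 := second_near (S := S) s S.o u
  have h3 : 0 ≤ S.θ ^ (2 * S.G.dist S.o u) := pow_nonneg S.θ0 _
  unfold psi
  nlinarith [mul_nonneg h3 hα]

lemma psi_far {s c P : ℝ} (h : S.AvOK s c (c * S.phi s) (c * S.phi s)) (u : V)
    (hu : 1 ≤ S.G.dist S.o u) :
    S.psi s u ≤ S.θ ^ (2 * S.G.dist S.o u) * (((S.G.dist S.o u : ℝ) + 1) ^ 2 *
      ((2 * c + 1) * S.phi s * (2 * S.vt s ^ ((S.G.dist S.o u - 1) / 4) +
        min 1 ((P ^ 2 + S.G.dist S.o u) / 2 ^ ((S.G.dist S.o u - 1) / 4))) +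
      (8 * c ^ 2 + 4) * Real.exp (-P ^ 2) * Real.exp (-(S.G.dist S.o u : ℝ)))) := by
  set k := S.G.dist S.o u with hk
  set j := (k - 1) / 4 with hj
  have hjk : 4 * j + 1 ≤ k := by omega
  set ξ : ℝ := (P ^ 2 + k) / 2 ^ j with hξ
  have hξ0 : 0 ≤ ξ := by positivity
  have h1 := h.far S.o u hjk hξ0
  have h2 := second_far (S := S) s S.o u hjk hξ0
  rw [← hk] at h1 h2
  have e1 : Real.exp (-(2 ^ j * ξ)) = Real.exp (-P ^ 2) * Real.exp (-(k : ℝ)) := by
    rw [← Real.exp_add]; congr 1; rw [hξ]; field_simp; ring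
  rw [e1] at h1 h2
  have hv : 0 ≤ S.vt s ^ j := pow_nonneg (S.vt_nonneg s) _
  have hω : min 1 (2 * S.vt s ^ j + ξ) ≤ 2 * S.vt s ^ j + min 1 ξ := by
    rcases le_total 1 ξ with a | a
    · rw [min_eq_left a]; linarith [min_le_left 1 (2 * S.vt s ^ j + ξ)]
    · rw [min_eq_right a]; exact min_le_right _ _
  have hω0 : 0 ≤ min 1 (2 * S.vt s ^ j + ξ) := le_min zero_le_one (by positivity)
  set ω := min 1 (2 * S.vt s ^ j + ξ)
  set ω' := 2 * S.vt s ^ j + min 1 ξ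
  set E := Real.exp (-P ^ 2) * Real.exp (-(k : ℝ)) with hE
  have hE0 : 0 ≤ E := by positivity
  have hφ := S.phi_nonneg s
  have hc := h.c0
  have hK : (1 : ℝ) ≤ ((k : ℝ) + 1) ^ 2 := one_le_pow₀ (by linarith [Nat.cast_nonneg (α := ℝ) k])
  have h3 : 0 ≤ S.θ ^ (2 * k) := pow_nonneg S.θ0 _
  have a1 : ω * S.phi s + 4 * E ≤ ((k : ℝ) + 1) ^ 2 * (ω' * S.phi s + 4 * E) :=
    (add_le_add_left (mul_le_mul_of_nonneg_right hω hφ) _).trans
      (le_mul_of_one_le_left (add_nonneg (mul_nonneg (hω0.trans hω) hφ) (by positivity)) hK)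
  have a2 : 2 * ((k : ℝ) + 1) ^ 2 * (ω * (c * S.phi s) + 4 * c ^ 2 * E) ≤
      2 * ((k : ℝ) + 1) ^ 2 * (ω' * (c * S.phi s) + 4 * c ^ 2 * E) :=
    mul_le_mul_of_nonneg_left
      (add_le_add_left (mul_le_mul_of_nonneg_right hω (mul_nonneg hc hφ)) _) (by positivity)
  unfold psi
  refine (add_le_add h1 h2).trans ?_
  rw [← mul_add]
  refine mul_le_mul_of_nonneg_left ((add_le_add a2 a1).trans (le_of_eq ?_)) h3
  rw [mul_assoc (8 * c ^ 2 + 4), ← hE]; ring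

lemma pow_b_mul (k : ℕ) : (S.b : ℝ) ^ k * S.θ ^ (2 * k) = S.kappa ^ k := by
  rw [pow_mul, ← mul_pow]; rfl

/-- The Gronwall coefficient. -/
theorem exists_psi_bound (R : ℝ) : ∃ C : ℝ, 0 ≤ C ∧ ∀ P z s : ℝ, 1 ≤ P → 1 ≤ z →
    1 / (2 * z) ^ 12 ≤ s → s ≤ R → (s ≤ 1 / z ^ 12 ∨ z = 1) → ∀ B : Finset V,
      ∑ u ∈ B, S.psi s u ≤ C * P * z ^ 35 * S.phi s + C * z ^ 35 * Real.exp (-P ^ 2) := by
  obtain ⟨c, hc, hav⟩ := S.exists_av_bound R
  obtain ⟨c₀, hc₀, htail⟩ := S.exists_tail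
  obtain ⟨c₁, hc₁, hvt⟩ := S.exists_vt_upper
  obtain ⟨C₁, hC₁, hs₁⟩ := exists_sum_exp_le
  obtain ⟨C₂, hC₂, hs₂⟩ := exists_sum_xi_le
  obtain ⟨C₃, hC₃, hs₃⟩ := exists_sum_far_le hc₁
  have hsq : 0 < √c₀ := Real.sqrt_pos.2 hc₀
  refine ⟨(4 * (2 * c + 1) + 768 * c / √c₀ + 2 * (2 * c + 1) * (2 * C₃ + C₂)) +
    (30720 * c + 2 * (8 * c ^ 2 + 4) * C₁), by positivity, ?_⟩
  intro P z s hP hz hs0 hsR hs1 B
  obtain ⟨ha0, hav⟩ := hav s hsR
  have hz0 : 0 < z := by linarith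
  have hφ := S.phi_nonneg s
  set α : ℝ := c * (P / (√c₀ * z ^ 4)) * S.phi s + c * (2 * Real.exp (-(P ^ 2 * z))) with hα
  have hα0 : 0 ≤ α := by positivity
  have ok1 : S.AvOK s c (c * S.phi s) α :=
    ⟨hc, fun x => (ha0 x).1, fun x => (ha0 x).2.1, fun x => (ha0 x).2.2,
      fun x y h => (hav x y h).1, fun x y h => (hav x y h).2.1, fun x y h => by
        refine ((hav x y h).2.2 (P ^ 2 / (c₀ * z ^ 8)) (by positivity)).trans (add_le_add ?_ ?_)
        · refine mul_le_mul_of_nonneg_right (mul_le_mul_of_nonneg_left ?_ hc) hφ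
          have e : (P ^ 2 / (c₀ * z ^ 8)) ^ 2 = (P / (√c₀ * z ^ 4)) ^ 4 := by
            have : √c₀ ^ 4 = c₀ ^ 2 := by
              rw [show (4 : ℕ) = 2 * 2 from rfl, pow_mul, Real.sq_sqrt hc₀.le]
            rw [div_pow, div_pow, mul_pow, mul_pow, this]; ring
          rw [e]
          exact min_one_pow_four_le (by positivity)
        · refine mul_le_mul_of_nonneg_left ?_ hc
          refine (htail s (1 / z ^ 3) (by positivity)
            (by rw [div_le_one (by positivity)]; exact one_le_pow₀ hz) ?_ x y h _).trans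
            (le_of_eq ?_)
          · rcases hs1 with h1 | h1
            · left; rw [div_pow, one_pow, ← pow_mul]; exact h1
            · right; simp [h1]
          · congr 3; field_simp⟩
  have ok2 : S.AvOK s c (c * S.phi s) (c * S.phi s) :=
    ⟨hc, fun x => (ha0 x).1, fun x => (ha0 x).2.1, fun x => (ha0 x).2.2,
      fun x y h => (hav x y h).1, fun x y h => (hav x y h).2.1, fun x y h => by
        have h1 := (hav x y h).2.2 1 zero_le_one
        have e : {ω | 1 < |S.n (cst s) x y ω|} = ∅ :=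
          Set.eq_empty_of_forall_notMem fun ω hω => absurd (S.abs_n_le (cst s) x y ω) (not_le.2 hω)
        simpa [e] using h1⟩
  have hκv : S.kappa * S.vt s ≤ 1 - c₁ / (2 * z) ^ 18 := by
    have h1 := hvt s (1 / (2 * z) ^ 6) (by positivity) (by
      have : (2 : ℝ) ≤ (2 * z) ^ 6 := le_trans (by linarith) (le_self_pow₀ (by linarith) (by norm_num))
      exact one_div_le_one_div_of_le (by norm_num) this)
      (by rw [div_pow, one_pow, ← pow_mul]; exact hs0)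
    rw [div_pow, one_pow, ← pow_mul, mul_one_div] at h1
    exact h1
  set gn : ℕ → ℝ := fun k => (2 * (c * S.phi s) + S.phi s) + 96 * ((k : ℝ) + 1) * α with hgn
  set gf : ℕ → ℝ := fun k => ((k : ℝ) + 1) ^ 2 *
      ((2 * c + 1) * S.phi s * (2 * S.vt s ^ ((k - 1) / 4) +
        min 1 ((P ^ 2 + k) / 2 ^ ((k - 1) / 4))) +
      (8 * c ^ 2 + 4) * Real.exp (-P ^ 2) * Real.exp (-(k : ℝ))) with hgf
  have hv0 := S.vt_nonneg s
  have hmin0 : ∀ k : ℕ, (0 : ℝ) ≤ min 1 ((P ^ 2 + k) / 2 ^ ((k - 1) / 4)) := fun k =>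
    le_min zero_le_one (by positivity)
  have hgn0 : ∀ k, 0 ≤ gn k := fun k => by positivity
  have hgf0 : ∀ k, 0 ≤ gf k := fun k => by have := hmin0 k; positivity
  obtain ⟨K, hK⟩ := S.sum_dist_le B
    (g := fun k => S.θ ^ (2 * k) * if (k : ℝ) ≤ z ^ 19 then gn k else gf k)
    (fun k => mul_nonneg (pow_nonneg S.θ0 _) (by split_ifs; exacts [hgn0 k, hgf0 k]))
  have step1 : ∑ u ∈ B, S.psi s u ≤ ∑ u ∈ B, S.θ ^ (2 * S.G.dist S.o u) *
      if (S.G.dist S.o u : ℝ) ≤ z ^ 19 then gn (S.G.dist S.o u) else gf (S.G.dist S.o u) := by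
    refine Finset.sum_le_sum fun u _ => ?_
    split_ifs with h
    · exact S.psi_near ok1 hα0 u
    · refine S.psi_far ok2 u ?_
      have : (1 : ℝ) < S.G.dist S.o u := (one_le_pow₀ hz).trans_lt (not_le.1 h)
      exact_mod_cast this.le
  have hκ0 := S.kappa_nonneg
  have hκk : ∀ k, S.kappa ^ k ≤ 1 := fun k => pow_le_one₀ hκ0 S.kappa_le_one
  have step2 : ∑ k ∈ (Finset.range K).filter (fun k : ℕ => (k : ℝ) ≤ z ^ 19),
      2 * (S.b : ℝ) ^ k * (S.θ ^ (2 * k) * if (k : ℝ) ≤ z ^ 19 then gn k else gf k) ≤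
      2 * (2 * c + 1) * S.phi s * (2 * z ^ 19) + 192 * α * (4 * z ^ 38) := by
    refine le_trans (Finset.sum_le_sum (g := fun k : ℕ =>
      2 * (2 * c + 1) * S.phi s * 1 + 192 * α * ((k : ℝ) + 1)) fun k hk => ?_) ?_
    · rw [if_pos (Finset.mem_filter.1 hk).2, mul_assoc 2, ← mul_assoc ((S.b : ℝ) ^ k), pow_b_mul]
      have := mul_le_of_le_one_left (hgn0 k) (hκk k)
      simp only [hgn] at this ⊢
      linarith
    · rw [Finset.sum_add_distrib, ← Finset.mul_sum, ← Finset.mul_sum]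
      exact add_le_add (mul_le_mul_of_nonneg_left (sum_near_one_le hz K) (by positivity))
        (mul_le_mul_of_nonneg_left (sum_near_le hz K) (by positivity))
  have step3 : ∑ k ∈ (Finset.range K).filter (fun k : ℕ => ¬ (k : ℝ) ≤ z ^ 19),
      2 * (S.b : ℝ) ^ k * (S.θ ^ (2 * k) * if (k : ℝ) ≤ z ^ 19 then gn k else gf k) ≤
      2 * (2 * c + 1) * S.phi s * (2 * (C₃ * z ^ 35) + C₂ * P) +
        2 * (8 * c ^ 2 + 4) * Real.exp (-P ^ 2) * C₁ := by
    refine le_trans (Finset.sum_le_sum (g := fun k : ℕ =>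
      2 * (2 * c + 1) * S.phi s *
        (2 * (((k : ℝ) + 1) ^ 2 * (S.kappa ^ k * S.vt s ^ ((k - 1) / 4))) +
          ((k : ℝ) + 1) ^ 2 * min 1 ((P ^ 2 + k) / 2 ^ ((k - 1) / 4))) +
        2 * (8 * c ^ 2 + 4) * Real.exp (-P ^ 2) * (((k : ℝ) + 1) ^ 2 * Real.exp (-(k : ℝ))))
      fun k hk => ?_) ?_
    · rw [if_neg (Finset.mem_filter.1 hk).2, mul_assoc 2, ← mul_assoc ((S.b : ℝ) ^ k), pow_b_mul]
      have hm := hmin0 k
      have b1 := mul_le_of_le_one_left (by positivity : 0 ≤ ((k : ℝ) + 1) ^ 2 *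
        ((2 * c + 1) * S.phi s * min 1 ((P ^ 2 + k) / 2 ^ ((k - 1) / 4)) +
          (8 * c ^ 2 + 4) * Real.exp (-P ^ 2) * Real.exp (-(k : ℝ)))) (hκk k)
      simp only [hgf]
      linarith
    · rw [Finset.sum_add_distrib, ← Finset.mul_sum, ← Finset.mul_sum, Finset.sum_add_distrib,
        ← Finset.mul_sum]
      refine add_le_add (mul_le_mul_of_nonneg_left (add_le_add
        (mul_le_mul_of_nonneg_left ?_ zero_le_two) ?_) (by positivity))
        (mul_le_mul_of_nonneg_left ?_ (by positivity))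
      · simp only [not_le]
        exact hs₃ z S.kappa (S.vt s) hz hκ0 S.kappa_le_one hv0 hκv K
      · exact (Finset.sum_le_sum_of_subset_of_nonneg (Finset.filter_subset _ _)
          fun k _ _ => mul_nonneg (sq_nonneg _) (hmin0 k)).trans (hs₂ P hP K)
      · exact (Finset.sum_le_sum_of_subset_of_nonneg (Finset.filter_subset _ _)
          fun k _ _ => by positivity).trans (hs₁ K)
  rw [← Finset.sum_filter_add_sum_filter_not _ (fun k : ℕ => (k : ℝ) ≤ z ^ 19)] at hK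
  refine step1.trans (hK.trans ((add_le_add step2 step3).trans ?_))
  have hz35 : 1 ≤ z ^ 35 := one_le_pow₀ hz
  have hE : 0 ≤ Real.exp (-P ^ 2) := (Real.exp_pos _).le
  have f1 : z ^ 19 ≤ P * z ^ 35 :=
    (pow_le_pow_right₀ hz (by norm_num)).trans (le_mul_of_one_le_left (by positivity) hP)
  have f2 : P / (√c₀ * z ^ 4) * z ^ 38 ≤ 1 / √c₀ * (P * z ^ 35) := by
    have : P / (√c₀ * z ^ 4) * z ^ 38 = 1 / √c₀ * (P * z ^ 34) := by field_simp
    rw [this]
    gcongr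
    norm_num
  have f3 : Real.exp (-(P ^ 2 * z)) * z ^ 38 ≤ 20 * (z ^ 35 * Real.exp (-P ^ 2)) := by
    have := mul_le_mul_of_nonneg_left (pow_mul_exp_le hP hz) (by positivity : 0 ≤ z ^ 35)
    linarith [this, (by ring : Real.exp (-(P ^ 2 * z)) * z ^ 38 =
      z ^ 35 * (z ^ 3 * Real.exp (-(P ^ 2 * z))))]
  have f4 : z ^ 35 ≤ P * z ^ 35 := le_mul_of_one_le_left (by positivity) hP
  have f5 : P ≤ P * z ^ 35 := le_mul_of_one_le_right (by linarith) hz35
  have f6 : Real.exp (-P ^ 2) ≤ z ^ 35 * Real.exp (-P ^ 2) := le_mul_of_one_le_left hE hz35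
  have g1 := mul_le_mul_of_nonneg_left f1 (by positivity : 0 ≤ 4 * (2 * c + 1) * S.phi s)
  have g2 := mul_le_mul_of_nonneg_left f2 (by positivity : 0 ≤ 768 * c * S.phi s)
  have g3 := mul_le_mul_of_nonneg_left f3 (by positivity : 0 ≤ 1536 * c)
  have g4 := mul_le_mul_of_nonneg_left f4 (by positivity : 0 ≤ 4 * (2 * c + 1) * S.phi s * C₃)
  have g5 := mul_le_mul_of_nonneg_left f5 (by positivity : 0 ≤ 2 * (2 * c + 1) * S.phi s * C₂)
  have g6 := mul_le_mul_of_nonneg_left f6 (by positivity : 0 ≤ 2 * (8 * c ^ 2 + 4) * C₁)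
  have p1 : 0 ≤ (30720 * c + 2 * (8 * c ^ 2 + 4) * C₁) * P * z ^ 35 * S.phi s := by positivity
  have p2 : 0 ≤ (4 * (2 * c + 1) + 768 * c / √c₀ + 2 * (2 * c + 1) * (2 * C₃ + C₂)) * z ^ 35 *
      Real.exp (-P ^ 2) := by positivity
  rw [hα]
  have q1 : 768 * c / √c₀ = 768 * c * (1 / √c₀) := by ring
  rw [q1] at p2 ⊢
  linarith

end Setup

end Crest.Agent.R160

end
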