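import Crest.Agent.R160.Decay
import Crest.Agent.R160.ES

/-! Row 160: the logarithmic coefficients and their decorrelation. -/

noncomputable section

namespace Crest.Agent.R160

open Classical MeasureTheory ProbabilityTheory

universe u

namespace Setup

variable {V : Type u} (S : Setup V)

/-- Bounds on the logarithmic coefficients. With `ν` from `exists_m_bound`, `n = n (cst s) x y`
is `Λ (m x, m y)` (`m_eq_op`, `exists_cavity_inverse`); compare `av` with the `Gs s`-measurable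
`log (rho θ (clip (min M ν) (Λ (P[m x | Gs s], P[m y | Gs s]))))` using `exists_log_rho_bound`,
`integral_sq_sub_condExp_le`, `integral_til_m_sq`; for `M ≥ 1` use the bound at `M = 1`.
For `a0` note `1 - m² = rho 0 m`. -/
lemma exists_av_bound (R : ℝ) : ∃ c : ℝ, 0 ≤ c ∧ ∀ s, s ≤ R →
    (∀ x, (∀ᵐ ω ∂S.P, |S.a0 s x ω| ≤ c) ∧
      (∀ᵐ ω ∂S.P, Real.exp (S.a0 s x ω) = 1 - S.m (cst s) x ω ^ 2) ∧
      ∫ ω, S.til s (S.a0 s x) ω ^ 2 ∂S.P ≤ c * S.phi s) ∧
    ∀ x y, S.G.Adj x y → (∀ᵐ ω ∂S.P, |S.av s x y ω| ≤ c) ∧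
      (∀ᵐ ω ∂S.P, Real.exp (S.av s x y ω) = S.rh (cst s) x y ω) ∧
      ∀ M : ℝ, 0 ≤ M → ∫ ω, S.til s (S.av s x y) ω ^ 2 ∂S.P ≤
        c * min 1 (M ^ 2) * S.phi s + c * S.P.real {ω | M < |S.n (cst s) x y ω|} := by
  obtain ⟨ν, hν0, hν1, hν⟩ := S.exists_m_bound (max R 0)
  obtain ⟨Λ, L, hL0, hL, hΛ⟩ := exists_cavity_inverse S.θ0 S.theta_le hν1
  obtain ⟨c₀, hc₀, hb₀, hl₀⟩ := exists_log_rho_bound S.theta_sq_le hν1
  obtain ⟨c₁, hc₁, hb₁, hl₁⟩ := exists_log_rho_bound (θ := 0) (by norm_num) hν1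
  have hΛc : Continuous Λ := by
    refine (LipschitzWith.of_dist_le_mul (K := (2 * L).toNNReal) fun p q => ?_).continuous
    rw [Real.dist_eq, Real.coe_toNNReal _ (by positivity), Prod.dist_eq, Real.dist_eq,
      Real.dist_eq]
    refine (hL p q).trans ?_
    have h1 := le_max_left |p.1 - q.1| |p.2 - q.2|
    have h2 := le_max_right |p.1 - q.1| |p.2 - q.2|
    nlinarith
  have hrm : ∀ θ : ℝ, Measurable fun n => Real.log (rho θ n) := fun θ => by
    unfold rho; fun_prop
  refine ⟨c₀ + c₁ + c₁ ^ 2 + 4 * c₀ ^ 2 * L ^ 2 + 4 * c₀ ^ 2, by positivity, fun s hs => ?_⟩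
  have hcst : ∀ w : V × ℕ, cst s w ≤ max R 0 := fun _ => hs.trans (le_max_left _ _)
  have hres : ∀ (B : Set V) (w : V × ℕ), res (cst s) B w ≤ max R 0 := fun B w => by
    unfold res; split_ifs
    · exact hcst w
    · exact le_max_right _ _
  have hphi := S.phi_nonneg s
  have hE : ∀ x, Measurable[S.Gs s] (S.P[S.m (cst s) x | S.Gs s]) := fun x =>
    stronglyMeasurable_condExp.measurable
  refine ⟨fun x => ?_, fun x y hxy => ?_⟩
  · have hm := hν _ hcst x
    have ha0 : ∀ ω, S.a0 s x ω = Real.log (rho 0 (S.m (cst s) x ω)) := fun ω => by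
      simp [a0, rho]
    have hbd : ∀ᵐ ω ∂S.P, |S.a0 s x ω| ≤ c₁ := by
      filter_upwards [hm] with ω h
      rw [ha0]; exact hb₁ _ h
    refine ⟨?_, ?_, ?_⟩
    · filter_upwards [hbd] with ω h
      refine h.trans ?_
      nlinarith [sq_nonneg c₁, sq_nonneg (c₀ * L), sq_nonneg c₀]
    · filter_upwards [hm] with ω h
      have : S.m (cst s) x ω ^ 2 < 1 := sq_lt_one_of_le h hν1
      exact Real.exp_log (by linarith)
    · let Z : S.Om → ℝ := fun ω => Real.log (rho 0 (clip ν (S.P[S.m (cst s) x | S.Gs s] ω)))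
      have hZm : Measurable[S.Gs s] Z := (hrm 0).comp (Measurable.clip' ν (hE x))
      have hZ : Bdd S.P Z :=
        Bdd.of_meas (hZm.mono (S.Gs_le s) le_rfl) (fun ω => hb₁ _ (abs_clip_le hν0 _))
      have hA : Bdd S.P (S.a0 s x) := Bdd.of_ae (S.measurable_a0 s x) hbd
      refine (integral_sq_sub_condExp_le (S.Gs_le s) hA hZ hZm.aestronglyMeasurable).trans ?_
      have h1 : ∫ ω, (S.a0 s x ω - Z ω) ^ 2 ∂S.P
          ≤ ∫ ω, c₁ ^ 2 * S.til s (S.m (cst s) x) ω ^ 2 ∂S.P := by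
        refine integral_mono_ae ((hA.sub hZ).pow 2).integrable
          (((S.bdd_til s (S.bdd_m _ x)).pow 2).const_mul _).integrable ?_
        filter_upwards [hm] with ω h
        have h2 := hl₁ _ (clip ν (S.P[S.m (cst s) x | S.Gs s] ω)) 1 h (abs_clip_le hν0 _)
          (h.trans hν1.le) ((abs_clip_le hν0 _).trans hν1.le)
        have h3 := abs_clip_sub_le ν (S.m (cst s) x ω) (S.P[S.m (cst s) x | S.Gs s] ω)
        rw [clip_of_abs_le h] at h3
        rw [ha0, ← mul_pow, ← sq_abs, ← sq_abs (c₁ * _)]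
        refine pow_le_pow_left₀ (abs_nonneg _) (h2.trans ?_) 2
        rw [mul_one, abs_mul, abs_of_nonneg hc₁]
        exact mul_le_mul_of_nonneg_left h3 hc₁
      rw [integral_const_mul, S.integral_til_m_sq] at h1
      refine h1.trans (mul_le_mul_of_nonneg_right ?_ hphi)
      nlinarith [sq_nonneg (c₀ * L), sq_nonneg c₀]
  · have hn : ∀ᵐ ω ∂S.P, |S.n (cst s) x y ω| ≤ ν := hν _ (hres _) y
    have hn' : ∀ᵐ ω ∂S.P, |S.n (cst s) y x ω| ≤ ν := hν _ (hres _) x
    have hav : ∀ᵐ ω ∂S.P, S.av s x y ω = Real.log (rho S.θ (S.n (cst s) x y ω)) := by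
      filter_upwards [S.rh_ae_eq (cst s) x y] with ω h
      rw [av, h]
    have hbd : ∀ᵐ ω ∂S.P, |S.av s x y ω| ≤ c₀ := by
      filter_upwards [hn, hav] with ω h h'
      rw [h']; exact hb₀ _ h
    refine ⟨?_, ?_, fun M hM => ?_⟩
    · filter_upwards [hbd] with ω h
      refine h.trans ?_
      nlinarith [sq_nonneg c₁, sq_nonneg (c₀ * L), sq_nonneg c₀]
    · filter_upwards [hn, S.rh_ae_eq (cst s) x y] with ω h h'
      refine Real.exp_log ?_
      rw [h']; exact rho_pos S.theta_sq_le (h.trans_lt hν1)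
    · set M' := min 1 M with hM'
      have hM'0 : 0 ≤ M' := le_min zero_le_one hM
      have hK0 : 0 ≤ min M' ν := le_min hM'0 hν0
      have hM'sq : M' ^ 2 = min 1 (M ^ 2) := by
        rcases le_total 1 M with h | h
        · rw [hM', min_eq_left h, min_eq_left (one_le_pow₀ h), one_pow]
        · rw [hM', min_eq_right h, min_eq_right (pow_le_one₀ hM h)]
      let Z : S.Om → ℝ := fun ω => Real.log (rho S.θ (clip (min M' ν)
        (Λ (S.P[S.m (cst s) x | S.Gs s] ω, S.P[S.m (cst s) y | S.Gs s] ω))))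
      have hZm : Measurable[S.Gs s] Z :=
        (hrm S.θ).comp (Measurable.clip' _ (hΛc.measurable.comp ((hE x).prodMk (hE y))))
      have hZb : ∀ ω, |Z ω| ≤ c₀ := fun ω =>
        hb₀ _ ((abs_clip_le hK0 _).trans (min_le_right _ _))
      have hZ : Bdd S.P Z := Bdd.of_meas (hZm.mono (S.Gs_le s) le_rfl) hZb
      have hA : Bdd S.P (S.av s x y) := Bdd.of_ae (S.measurable_av s x y) hbd
      refine (integral_sq_sub_condExp_le (S.Gs_le s) hA hZ hZm.aestronglyMeasurable).trans ?_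
      have hms : MeasurableSet {ω | M < |S.n (cst s) x y ω|} :=
        measurableSet_lt measurable_const (by fun_prop)
      have hI : Integrable ({ω | M < |S.n (cst s) x y ω|}.indicator fun _ => 4 * c₀ ^ 2) S.P :=
        (integrable_const _).indicator hms
      have hx2 := ((S.bdd_til s (S.bdd_m (cst s) x)).pow 2).integrable
      have hy2 := ((S.bdd_til s (S.bdd_m (cst s) y)).pow 2).integrable
      have h1 : ∫ ω, (S.av s x y ω - Z ω) ^ 2 ∂S.P
          ≤ ∫ ω, (2 * c₀ ^ 2 * L ^ 2 * M' ^ 2 * (S.til s (S.m (cst s) x) ω ^ 2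
            + S.til s (S.m (cst s) y) ω ^ 2)
            + {ω | M < |S.n (cst s) x y ω|}.indicator (fun _ => 4 * c₀ ^ 2) ω) ∂S.P := by
        refine integral_mono_ae ((hA.sub hZ).pow 2).integrable
          (((hx2.add hy2).const_mul _).add hI) ?_
        filter_upwards [hn, hn', hav, hbd, S.m_eq_op (cst s) hxy, S.m_eq_op (cst s) hxy.symm]
          with ω h h' ha hb hmx hmy
        by_cases hω : M < |S.n (cst s) x y ω|
        · rw [Set.indicator_of_mem (show ω ∈ {ω | M < |S.n (cst s) x y ω|} from hω)]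
          have h2 : |S.av s x y ω - Z ω| ≤ 2 * c₀ := (abs_sub _ _).trans (by linarith [hZb ω])
          have h3 : (S.av s x y ω - Z ω) ^ 2 ≤ (2 * c₀) ^ 2 := by
            rw [← sq_abs]; exact pow_le_pow_left₀ (abs_nonneg _) h2 2
          have h4 : 0 ≤ 2 * c₀ ^ 2 * L ^ 2 * M' ^ 2 * (S.til s (S.m (cst s) x) ω ^ 2
            + S.til s (S.m (cst s) y) ω ^ 2) := by positivity
          nlinarith
        · rw [Set.indicator_of_notMem (show ω ∉ {ω | M < |S.n (cst s) x y ω|} from hω), add_zero]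
          have hnM : |S.n (cst s) x y ω| ≤ M' := le_min (h.trans hν1.le) (not_lt.1 hω)
          have hnK : |S.n (cst s) x y ω| ≤ min M' ν := le_min hnM h
          set p := Λ (S.P[S.m (cst s) x | S.Gs s] ω, S.P[S.m (cst s) y | S.Gs s] ω) with hp
          have h2 := hl₀ _ (clip (min M' ν) p) M' h
            ((abs_clip_le hK0 _).trans (min_le_right _ _)) hnM
            ((abs_clip_le hK0 _).trans (min_le_left _ _))
          have h3 := abs_clip_sub_le (min M' ν) (S.n (cst s) x y ω) p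
          rw [clip_of_abs_le hnK] at h3
          have h4 : S.n (cst s) x y ω = Λ (S.m (cst s) x ω, S.m (cst s) y ω) := by
            rw [hmx, hmy]; exact (hΛ _ _ h h').symm
          have h5 := hL (S.m (cst s) x ω, S.m (cst s) y ω)
            (S.P[S.m (cst s) x | S.Gs s] ω, S.P[S.m (cst s) y | S.Gs s] ω)
          rw [← h4, ← hp] at h5
          have h6 : |S.av s x y ω - Z ω| ≤ c₀ * M' * (L * (|S.til s (S.m (cst s) x) ω|
              + |S.til s (S.m (cst s) y) ω|)) := by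
            rw [ha]
            exact h2.trans (mul_le_mul_of_nonneg_left (h3.trans h5) (by positivity))
          have h7 := pow_le_pow_left₀ (abs_nonneg _) h6 2
          rw [sq_abs] at h7
          refine h7.trans ?_
          rw [← sq_abs (S.til s (S.m (cst s) x) ω), ← sq_abs (S.til s (S.m (cst s) y) ω)]
          set a := |S.til s (S.m (cst s) x) ω|
          set b := |S.til s (S.m (cst s) y) ω|
          have h8 : (a + b) ^ 2 ≤ 2 * (a ^ 2 + b ^ 2) := by nlinarith [sq_nonneg (a - b)]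
          calc _ = c₀ ^ 2 * L ^ 2 * M' ^ 2 * (a + b) ^ 2 := by ring
            _ ≤ c₀ ^ 2 * L ^ 2 * M' ^ 2 * (2 * (a ^ 2 + b ^ 2)) := by gcongr
            _ = _ := by ring
      have hxy2 : Integrable (fun ω => 2 * c₀ ^ 2 * L ^ 2 * M' ^ 2 *
          (S.til s (S.m (cst s) x) ω ^ 2 + S.til s (S.m (cst s) y) ω ^ 2)) S.P :=
        (hx2.add hy2).const_mul _
      rw [integral_add hxy2 hI, integral_const_mul, integral_add hx2 hy2,
        S.integral_til_m_sq, S.integral_til_m_sq, integral_indicator hms, setIntegral_const,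
        smul_eq_mul] at h1
      refine h1.trans ?_
      rw [← hM'sq]
      have hp0 : 0 ≤ S.P.real {ω | M < |S.n (cst s) x y ω|} := measureReal_nonneg
      have e1 : 0 ≤ (c₀ + c₁ + c₁ ^ 2 + 4 * c₀ ^ 2) * (M' ^ 2 * S.phi s) := by positivity
      have e2 : 0 ≤ (c₀ + c₁ + c₁ ^ 2 + 4 * c₀ ^ 2 * L ^ 2)
        * S.P.real {ω | M < |S.n (cst s) x y ω|} := by positivity
      nlinarith

/-- Copies of the region behind an edge of `desc l x y`. -/
lemma hasCopies_reg {x y : V} (h : S.G.Adj x y) {l : ℕ} {e : V × V} (he : e ∈ S.desc l x y)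
    {f : S.Om → ℝ}
    (hinv : ∀ g : S.G ≃g S.G, g x = x → g y = y → (fun ω => f (S.Θ g ω)) =ᵐ[S.P] f) :
    HasCopies S.P S.I1 f (S.reg (S.sub e.1 e.2)) (S.b ^ l) := by
  let en := (Finset.equivFinOfCardEq (S.card_desc h l)).symm
  choose g hg using fun k => S.exists_iso_desc h he (en k).2
  refine ⟨fun k => S.Θ (g k), fun k => S.idxMap (g k), fun k => S.mp_Θ _,
    fun k i => S.I1_comap_Θ _ i, fun k => hinv _ (hg k).1 (hg k).2.1, fun k k' hk => ?_⟩
  beta_reduce
  rw [S.idxMap_image_reg, S.idxMap_image_reg, (hg k).2.2.1, (hg k).2.2.2, (hg k').2.2.1,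
    (hg k').2.2.2]
  exact S.reg_disjoint (S.desc_disjoint h (en k).2 (en k').2
    fun hc => hk (en.injective (Subtype.ext hc)))

lemma hasCopies_creg {x y : V} (h : S.G.Adj x y) {l : ℕ} {e : V × V} (he : e ∈ S.desc l x y)
    {f : S.Om → ℝ}
    (hinv : ∀ g : S.G ≃g S.G, g x = x → g y = y → (fun ω => f (S.Θ g ω)) =ᵐ[S.P] f) :
    HasCopies S.P S.I1 f (S.reg (S.sub e.2 e.1))ᶜ (S.b ^ l) := by
  let en := (Finset.equivFinOfCardEq (S.card_desc h l)).symm
  choose g hg using fun k => S.exists_iso_desc h he (en k).2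
  refine ⟨fun k => S.Θ (g k), fun k => S.idxMap (g k), fun k => S.mp_Θ _,
    fun k i => S.I1_comap_Θ _ i, fun k => hinv _ (hg k).1 (hg k).2.1, fun k k' hk => ?_⟩
  beta_reduce
  rw [Equiv.image_compl, Equiv.image_compl, S.idxMap_image_reg, S.idxMap_image_reg,
    (hg k).2.2.1, (hg k).2.2.2, (hg k').2.2.1, (hg k').2.2.2]
  exact S.creg_disjoint h (en k).2 (en k').2 fun hc => hk (en.injective (Subtype.ext hc))

/-- Decorrelation along a geodesic: `f` is invariant under the stabiliser of the `i`-th edge, `f'`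
under that of the `j`-th edge. Apply `abs_integral_mul_le_of_copies` with the region behind the
`t`-th edge, `t = (i+j)/2`: it lies in `desc (t-i)` of the `i`-th edge, and reversed it lies in
`desc (j-t)` of the reversed `j`-th edge. -/
lemma abs_integral_mul_le_geo (x y : V) {i j : ℕ} (hij : i ≤ j) (hj : j < S.G.dist x y)
    {f f' : S.Om → ℝ} (hf : Bdd S.P f) (hf' : Bdd S.P f') (hf0 : ∫ ω, f ω ∂S.P = 0)
    (hf0' : ∫ ω, f' ω ∂S.P = 0) (hfl : (fun ω => f (S.flip ω)) =ᵐ[S.P] f)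
    (hfl' : (fun ω => f' (S.flip ω)) =ᵐ[S.P] f')
    (hinv : ∀ g : S.G ≃g S.G, g (S.geo x y i) = S.geo x y i →
      g (S.geo x y (i + 1)) = S.geo x y (i + 1) → (fun ω => f (S.Θ g ω)) =ᵐ[S.P] f)
    (hinv' : ∀ g : S.G ≃g S.G, g (S.geo x y j) = S.geo x y j →
      g (S.geo x y (j + 1)) = S.geo x y (j + 1) → (fun ω => f' (S.Θ g ω)) =ᵐ[S.P] f') :
    |∫ ω, f ω * f' ω ∂S.P| ≤
      3 * (7 / 8) ^ (j - i) * (√(∫ ω, f ω ^ 2 ∂S.P) * √(∫ ω, f' ω ^ 2 ∂S.P)) := by
  set t := (i + j) / 2 with ht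
  have hit : i ≤ t := by omega
  have htj : t ≤ j := by omega
  have hadj : ∀ k, k ≤ j → S.G.Adj (S.geo x y k) (S.geo x y (k + 1)) := fun k hk =>
    S.geo_adj (by omega)
  have he1 : (S.geo x y t, S.geo x y (t + 1)) ∈
      S.desc (t - i) (S.geo x y i) (S.geo x y (i + 1)) := by
    rw [S.mem_desc (hadj i hij)]
    refine ⟨hadj t htj, S.mem_sub_geo (by omega) (by omega), ?_, ?_⟩
    · rw [S.dist_geo_geo (by omega) (by omega)]; omega
    · rw [S.dist_geo_geo (by omega) (by omega)]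
  have he2 : (S.geo x y (t + 1), S.geo x y t) ∈
      S.desc (j - t) (S.geo x y (j + 1)) (S.geo x y j) := by
    rw [S.mem_desc (hadj j le_rfl).symm]
    refine ⟨(hadj t htj).symm, S.mem_sub_geo_rev htj hj, ?_, ?_⟩
    · rw [S.dc, S.dist_geo_geo (by omega) (by omega)]
    · rw [S.dc, S.dist_geo_geo (by omega) (by omega)]; omega
  have h1 := S.hasCopies_reg (hadj i hij) he1 hinv
  have h2 := S.hasCopies_creg (hadj j le_rfl).symm he2 (fun g h h' => hinv' g h' h)
  have hb := S.hb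
  have h3 := abs_integral_mul_le_of_copies S.I1_le S.iIndep_I1 hf hf' (S.aesm_of_flip hf.1 hfl)
    (S.aesm_of_flip hf'.1 hfl') hf0 hf0' (by positivity) (by positivity) h1 h2
  refine h3.trans (mul_le_mul_of_nonneg_right ?_ (by positivity))
  have key : ∀ l, t - i ≤ l → (√((S.b ^ l : ℕ) : ℝ))⁻¹ ≤ (49 / 64) ^ (t - i) := by
    intro l hl
    have h4 : (64 / 49 : ℝ) ^ (t - i) ≤ √((S.b ^ l : ℕ) : ℝ) := by
      refine Real.le_sqrt_of_sq_le ?_
      have h5 : ((2 ^ (t - i) : ℕ) : ℝ) ≤ ((S.b ^ l : ℕ) : ℝ) := by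
        exact_mod_cast (Nat.pow_le_pow_right (by norm_num) hl).trans (Nat.pow_le_pow_left hb l)
      refine le_trans ?_ h5
      rw [← pow_mul, mul_comm, pow_mul]
      push_cast
      gcongr
      norm_num
    calc _ ≤ ((64 / 49 : ℝ) ^ (t - i))⁻¹ := inv_anti₀ (by positivity) h4
      _ = _ := by rw [← inv_pow]; norm_num
  have h6 := key (t - i) le_rfl
  have h7 := key (j - t) (by omega)
  have h8 : (7 / 8 : ℝ) ^ (2 * (t - i) + 1) ≤ (7 / 8) ^ (j - i) :=
    pow_le_pow_of_le_one (by norm_num) (by norm_num) (by omega)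
  rw [pow_succ, pow_mul] at h8
  have h9 : (0 : ℝ) ≤ (49 / 64) ^ (t - i) := by positivity
  norm_num at h8 h6 h7 ⊢
  linarith

lemma integral_sum_til_av_sq_le (s : ℝ) (x y : V)
    (hb : ∀ p q, S.G.Adj p q → Bdd S.P (S.av s p q)) {α : ℝ}
    (hα : ∀ p q, S.G.Adj p q → ∫ ω, S.til s (S.av s p q) ω ^ 2 ∂S.P ≤ α) :
    ∫ ω, (∑ i ∈ Finset.range (S.G.dist x y),
        S.til s (S.av s (S.geo x y i) (S.geo x y (i + 1))) ω) ^ 2 ∂S.P ≤
      48 * S.G.dist x y * α := by
  set n := S.G.dist x y with hn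
  rcases Nat.eq_zero_or_pos n with h0 | h0
  · simp [h0]
  have hadj : ∀ k, k < n → S.G.Adj (S.geo x y k) (S.geo x y (k + 1)) := fun k hk =>
    S.geo_adj hk
  have hα0 : 0 ≤ α := (integral_nonneg fun _ => sq_nonneg _).trans (hα _ _ (hadj 0 h0))
  set f : ℕ → S.Om → ℝ := fun i => S.til s (S.av s (S.geo x y i) (S.geo x y (i + 1))) with hf
  have hfb : ∀ i, i < n → Bdd S.P (f i) := fun i hi => S.bdd_til s (hb _ _ (hadj i hi))
  have hf0 : ∀ i, i < n → ∫ ω, f i ω ∂S.P = 0 := fun i hi => by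
    simp only [hf, til]
    rw [integral_sub (hb _ _ (hadj i hi)).integrable integrable_condExp,
      integral_condExp (S.Gs_le s), sub_self]
  have hfl : ∀ i, i < n → (fun ω => f i (S.flip ω)) =ᵐ[S.P] f i := fun i hi =>
    S.til_flip s (hb _ _ (hadj i hi)) (S.av_flip s _ _)
  have hinv : ∀ i, i < n → ∀ g : S.G ≃g S.G, g (S.geo x y i) = S.geo x y i →
      g (S.geo x y (i + 1)) = S.geo x y (i + 1) → (fun ω => f i (S.Θ g ω)) =ᵐ[S.P] f i :=
    fun i hi g h1 h2 => S.til_Θ g s (hb _ _ (hadj i hi)) (by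
      have := S.av_Θ g s (S.geo x y i) (S.geo x y (i + 1))
      rwa [h1, h2] at this)
  have hsq : ∀ i, i < n → √(∫ ω, f i ω ^ 2 ∂S.P) ≤ √α := fun i hi =>
    Real.sqrt_le_sqrt (hα _ _ (hadj i hi))
  let u : ℕ → ℕ → ℝ := fun i j => if i ≤ j then (7 / 8) ^ (j - i) else 0
  have hu0 : ∀ i j, 0 ≤ u i j := fun i j => by simp only [u]; split_ifs <;> positivity
  have hpair : ∀ i j, i ≤ j → j < n → ∫ ω, f i ω * f j ω ∂S.P ≤ 3 * α * u i j := by
    intro i j hij hj
    have hi : i < n := by omega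
    have h1 := S.abs_integral_mul_le_geo x y hij hj (hfb i hi) (hfb j hj) (hf0 i hi) (hf0 j hj)
      (hfl i hi) (hfl j hj) (hinv i hi) (hinv j hj)
    refine (le_abs_self _).trans (h1.trans ?_)
    have h2 : √(∫ ω, f i ω ^ 2 ∂S.P) * √(∫ ω, f j ω ^ 2 ∂S.P) ≤ α := by
      calc _ ≤ √α * √α :=
          mul_le_mul (hsq i hi) (hsq j hj) (Real.sqrt_nonneg _) (Real.sqrt_nonneg _)
        _ = α := Real.mul_self_sqrt hα0
    simp only [u, if_pos hij]
    calc _ ≤ 3 * (7 / 8) ^ (j - i) * α := by gcongr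
      _ = _ := by ring
  have hsum : ∀ i k, ∑ j ∈ Finset.range k, u i j ≤ 8 - 8 * (7 / 8) ^ (k - i) := by
    intro i k
    induction k with
    | zero => simp
    | succ k ih =>
      rw [Finset.sum_range_succ]
      by_cases hik : i ≤ k
      · rw [show k + 1 - i = k - i + 1 by omega, pow_succ]
        simp only [u, if_pos hik] at ih ⊢
        linarith
      · rw [show k + 1 - i = k - i by omega]
        simp only [u, if_neg hik] at ih ⊢
        linarith
  have hsum' : ∑ i ∈ Finset.range n, ∑ j ∈ Finset.range n, u i j ≤ 8 * n := by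
    calc _ ≤ ∑ _i ∈ Finset.range n, (8 : ℝ) := Finset.sum_le_sum fun i _ => by
          have h1 := hsum i n
          have h2 : (0 : ℝ) ≤ (7 / 8) ^ (n - i) := by positivity
          linarith
      _ = _ := by simp [mul_comm]
  have h1 : ∀ ω, (∑ i ∈ Finset.range n, f i ω) ^ 2
      = ∑ i ∈ Finset.range n, ∑ j ∈ Finset.range n, f i ω * f j ω := fun ω => by
    rw [sq, Finset.sum_mul_sum]
  show ∫ ω, (∑ i ∈ Finset.range n, f i ω) ^ 2 ∂S.P ≤ _
  simp_rw [h1]
  have hint : ∀ i ∈ Finset.range n, ∀ j ∈ Finset.range n,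
      Integrable (fun ω => f i ω * f j ω) S.P := fun i hi j hj =>
    ((hfb i (Finset.mem_range.1 hi)).mul (hfb j (Finset.mem_range.1 hj))).integrable
  rw [integral_finsetSum _ fun i hi => integrable_finsetSum _ (hint i hi)]
  calc _ ≤ ∑ i ∈ Finset.range n, ∑ j ∈ Finset.range n, 3 * α * (u i j + u j i) := by
        refine Finset.sum_le_sum fun i hi => ?_
        rw [integral_finsetSum _ (hint i hi)]
        refine Finset.sum_le_sum fun j hj => ?_
        rcases le_total i j with h | h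
        · refine (hpair i j h (Finset.mem_range.1 hj)).trans ?_
          gcongr
          linarith [hu0 j i]
        · simp_rw [mul_comm (f i _)]
          refine (hpair j i h (Finset.mem_range.1 hi)).trans ?_
          gcongr
          linarith [hu0 i j]
    _ = 3 * α * (∑ i ∈ Finset.range n, ∑ j ∈ Finset.range n, u i j
          + ∑ i ∈ Finset.range n, ∑ j ∈ Finset.range n, u j i) := by
        simp only [← Finset.mul_sum, Finset.sum_add_distrib]
    _ ≤ 3 * α * (8 * n + 8 * n) := by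
        gcongr
        rw [Finset.sum_comm]; exact hsum'
    _ = _ := by ring

end Setup

end Crest.Agent.R160

end
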