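import Crest.Agent.R160.PsiA

/-! Row 160: bounds on `psi` for one vertex. -/

noncomputable section

namespace Crest.Agent.R160

open Classical MeasureTheory ProbabilityTheory

universe u

lemma psiB_exp_abs (a b : ℝ) : Real.exp b - Real.exp a ≤ (b - a) * Real.exp b := by
  have h1 := Real.add_one_le_exp (a - b)
  have h2 : Real.exp a = Real.exp (a - b) * Real.exp b := by rw [← Real.exp_add]; ring_nf
  have h3 := mul_le_mul_of_nonneg_right h1 (Real.exp_pos b).le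
  rw [h2]
  linarith

lemma psiB_exp_sq'' {a b : ℝ} (hb : b ≤ 0) (hab : a ≤ b) :
    (Real.exp a - Real.exp b) ^ 2 ≤ (a - b) ^ 2 * Real.exp b := by
  have h1 := psiB_exp_abs a b
  have h2 : 0 ≤ Real.exp b - Real.exp a := sub_nonneg.2 (Real.exp_le_exp.2 hab)
  have h3 : Real.exp b ≤ 1 := Real.exp_le_one_iff.2 hb
  have h4 := pow_le_pow_left₀ h2 h1 2
  have h5 := mul_le_mul_of_nonneg_left h3 (mul_nonneg (sq_nonneg (a - b)) (Real.exp_pos b).le)
  nlinarith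

lemma psiB_exp_sq {a b : ℝ} (ha : a ≤ 0) (hb : b ≤ 0) :
    (Real.exp a - Real.exp b) ^ 2 ≤ (a - b) ^ 2 := by
  rcases le_total a b with h | h
  · exact (psiB_exp_sq'' hb h).trans
      (mul_le_of_le_one_right (sq_nonneg _) (Real.exp_le_one_iff.2 hb))
  · have := (psiB_exp_sq'' ha h).trans
      (mul_le_of_le_one_right (sq_nonneg _) (Real.exp_le_one_iff.2 ha))
    nlinarith

lemma psiB_exp_sq' {a b : ℝ} (ha : a ≤ 0) (hb : b ≤ 0) :
    (Real.exp a - Real.exp b) ^ 2 ≤ (a - b) ^ 2 * (Real.exp a + Real.exp b) := by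
  have p1 := mul_nonneg (sq_nonneg (a - b)) (Real.exp_pos a).le
  have p2 := mul_nonneg (sq_nonneg (a - b)) (Real.exp_pos b).le
  rcases le_total a b with h | h
  · have := psiB_exp_sq'' hb h
    nlinarith
  · have := psiB_exp_sq'' ha h
    nlinarith

lemma psiB_sq_add_sum (k : ℕ) (a : ℝ) (f : ℕ → ℝ) :
    (a + ∑ i ∈ Finset.range k, f i) ^ 2 ≤ ((k : ℝ) + 1) * (a ^ 2 + ∑ i ∈ Finset.range k, f i ^ 2) := by
  have h := sq_sum_le_card_mul_sum_sq (s := Finset.range (k + 1))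
    (f := fun i => Nat.casesOn (motive := fun _ => ℝ) i a f)
  simp only [Finset.sum_range_succ', Finset.card_range] at h
  push_cast at h
  rw [add_comm a, add_comm (a ^ 2)]
  exact h

namespace Setup

variable {V : Type u} (S : Setup V)

/-- The hypotheses provided by `exists_av_bound` at a fixed time. -/
structure AvOK (s c α₀ α : ℝ) : Prop where
  c0 : 0 ≤ c
  a0_bd : ∀ x, ∀ᵐ ω ∂S.P, |S.a0 s x ω| ≤ c
  a0_exp : ∀ x, ∀ᵐ ω ∂S.P, Real.exp (S.a0 s x ω) = 1 - S.m (cst s) x ω ^ 2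
  a0_sq : ∀ x, ∫ ω, S.til s (S.a0 s x) ω ^ 2 ∂S.P ≤ α₀
  av_bd : ∀ x y, S.G.Adj x y → ∀ᵐ ω ∂S.P, |S.av s x y ω| ≤ c
  av_exp : ∀ x y, S.G.Adj x y → ∀ᵐ ω ∂S.P, Real.exp (S.av s x y ω) = S.rh (cst s) x y ω
  av_sq : ∀ x y, S.G.Adj x y → ∫ ω, S.til s (S.av s x y) ω ^ 2 ∂S.P ≤ α

/-- The logarithm of the normalised covariance. -/
def lA (s : ℝ) (x y : V) (ω : S.Om) : ℝ :=
  S.a0 s x ω + ∑ i ∈ Finset.range (S.G.dist x y), S.av s (S.geo x y i) (S.geo x y (i + 1)) ω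

variable {S}

lemma AvOK.bdd_a0 {s c α₀ α : ℝ} (h : S.AvOK s c α₀ α) (x : V) : Bdd S.P (S.a0 s x) :=
  Bdd.of_ae (S.measurable_a0 s x) (h.a0_bd x)

lemma AvOK.bdd_av {s c α₀ α : ℝ} (h : S.AvOK s c α₀ α) {x y : V} (hxy : S.G.Adj x y) :
    Bdd S.P (S.av s x y) := Bdd.of_ae (S.measurable_av s x y) (h.av_bd x y hxy)

lemma AvOK.C_eq_exp {s c α₀ α : ℝ} (h : S.AvOK s c α₀ α) (x y : V) :
    S.C (cst s) x y =ᵐ[S.P] fun ω => S.θ ^ S.G.dist x y * Real.exp (S.lA s x y ω) := by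
  have h1 : ∀ᵐ ω ∂S.P, ∀ i ∈ Finset.range (S.G.dist x y),
      Real.exp (S.av s (S.geo x y i) (S.geo x y (i + 1)) ω) =
        S.rh (cst s) (S.geo x y i) (S.geo x y (i + 1)) ω :=
    (Filter.eventually_all_finset _).2 fun i hi => h.av_exp _ _ (S.geo_adj (Finset.mem_range.1 hi))
  filter_upwards [S.C_eq (cst s) x y, h.a0_exp x, h1] with ω e1 e2 e3
  rw [e1, lA, Real.exp_add, Real.exp_sum, e2, Finset.prod_congr rfl e3]
  unfold Pr Pi
  ring

lemma AvOK.lA_nonpos {s c α₀ α : ℝ} (_h : S.AvOK s c α₀ α) (x y : V) :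
    ∀ᵐ ω ∂S.P, S.lA s x y ω ≤ 0 := by
  refine Filter.Eventually.of_forall fun ω => add_nonpos ?_ (Finset.sum_nonpos fun i _ => ?_)
  · have h1 := S.abs_m_le (cst s) x ω
    have h2 : S.m (cst s) x ω ^ 2 ≤ 1 := (sq_le_one_iff_abs_le_one _).2 h1
    exact Real.log_nonpos (by linarith) (by linarith [sq_nonneg (S.m (cst s) x ω)])
  · exact Real.log_nonpos (S.rh_nonneg _ _ _ _) (S.rh_le_one _ _ _ _)

lemma AvOK.bdd_lA {s c α₀ α : ℝ} (h : S.AvOK s c α₀ α) (x y : V) : Bdd S.P (S.lA s x y) := by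
  exact (h.bdd_a0 x).add (Bdd.sum _ fun i hi => h.bdd_av (S.geo_adj (Finset.mem_range.1 hi)))

lemma AvOK.til_lA {s c α₀ α : ℝ} (h : S.AvOK s c α₀ α) (x y : V) :
    S.til s (S.lA s x y) =ᵐ[S.P] fun ω => S.til s (S.a0 s x) ω +
      ∑ i ∈ Finset.range (S.G.dist x y), S.til s (S.av s (S.geo x y i) (S.geo x y (i + 1))) ω := by
  have hb : ∀ i ∈ Finset.range (S.G.dist x y),
      Bdd S.P (S.av s (S.geo x y i) (S.geo x y (i + 1))) :=
    fun i hi => h.bdd_av (S.geo_adj (Finset.mem_range.1 hi))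
  have e : S.lA s x y = S.a0 s x +
      ∑ i ∈ Finset.range (S.G.dist x y), S.av s (S.geo x y i) (S.geo x y (i + 1)) := by
    funext ω; simp [lA]
  have h1 := condExp_add (h.bdd_a0 x).integrable
    (integrable_finsetSum' _ fun i hi => (hb i hi).integrable) (S.Gs s)
  have h2 := condExp_finsetSum (fun i hi => (hb i hi).integrable) (S.Gs s)
  filter_upwards [h1, h2] with ω e1 e2
  unfold til
  rw [e, e1, Pi.add_apply, Pi.add_apply, e2, Finset.sum_sub_distrib]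
  simp only [Finset.sum_apply]
  ring

lemma AvOK.til_C_le {s c α₀ α : ℝ} (h : S.AvOK s c α₀ α) (x y : V) :
    ∫ ω, S.til s (S.C (cst s) x y) ω ^ 2 ∂S.P ≤ ∫ ω, (S.C (cst s) x y ω -
      S.θ ^ S.G.dist x y * Real.exp (S.P[S.lA s x y | S.Gs s] ω)) ^ 2 ∂S.P := by
  refine integral_sq_sub_condExp_le (S.Gs_le s) (S.bdd_C _ _ _)
    (((h.bdd_lA x y).condExp _ (S.Gs_le s)).exp.const_mul _) ?_
  exact ((Real.continuous_exp.comp_stronglyMeasurable stronglyMeasurable_condExp).const_mul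
    _).aestronglyMeasurable

/-- Near bound: plug in `θ^k exp (P[lA | Gs s])`, `|e^a - e^b| ≤ |a - b|` for `a, b ≤ 0`. -/
lemma AvOK.near {s c α₀ α : ℝ} (h : S.AvOK s c α₀ α) (x y : V) :
    ∫ ω, S.til s (S.C (cst s) x y) ω ^ 2 ∂S.P ≤
      S.θ ^ (2 * S.G.dist x y) * (2 * α₀ + 96 * S.G.dist x y * α) := by
  have hA := h.bdd_lA x y
  have hAh := hA.condExp _ (S.Gs_le s)
  have hb : ∀ p q, S.G.Adj p q → Bdd S.P (S.av s p q) := fun p q hpq => h.bdd_av hpq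
  have hsum : Bdd S.P fun ω => ∑ i ∈ Finset.range (S.G.dist x y),
      S.til s (S.av s (S.geo x y i) (S.geo x y (i + 1))) ω :=
    Bdd.sum _ fun i hi => S.bdd_til s (hb _ _ (S.geo_adj (Finset.mem_range.1 hi)))
  have h0 := S.bdd_til s (h.bdd_a0 x)
  refine (h.til_C_le x y).trans ?_
  have h1 : ∫ ω, (S.C (cst s) x y ω -
      S.θ ^ S.G.dist x y * Real.exp (S.P[S.lA s x y | S.Gs s] ω)) ^ 2 ∂S.P ≤
      ∫ ω, S.θ ^ (2 * S.G.dist x y) * (2 * S.til s (S.a0 s x) ω ^ 2 +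
        2 * (∑ i ∈ Finset.range (S.G.dist x y),
          S.til s (S.av s (S.geo x y i) (S.geo x y (i + 1))) ω) ^ 2) ∂S.P := by
    refine integral_mono_ae (((S.bdd_C _ _ _).sub (hAh.exp.const_mul _)).pow 2).integrable
      ((((h0.pow 2).const_mul 2).add ((hsum.pow 2).const_mul 2)).const_mul _).integrable ?_
    filter_upwards [h.C_eq_exp x y, h.lA_nonpos x y, condExp_nonpos (m := S.Gs s) (h.lA_nonpos x y),
      h.til_lA x y] with ω e1 e2 e3 e4
    rw [e1, ← mul_sub, mul_pow, ← pow_mul, mul_comm (S.G.dist x y) 2]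
    refine mul_le_mul_of_nonneg_left ?_ (pow_nonneg S.θ0 _)
    refine (psiB_exp_sq e2 e3).trans ?_
    change S.til s (S.lA s x y) ω ^ 2 ≤ _
    rw [e4]
    nlinarith [sq_nonneg (S.til s (S.a0 s x) ω - ∑ i ∈ Finset.range (S.G.dist x y),
      S.til s (S.av s (S.geo x y i) (S.geo x y (i + 1))) ω)]
  refine h1.trans ?_
  rw [integral_const_mul, integral_add ((h0.pow 2).const_mul 2).integrable
    ((hsum.pow 2).const_mul 2).integrable, integral_const_mul, integral_const_mul]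
  refine mul_le_mul_of_nonneg_left ?_ (pow_nonneg S.θ0 _)
  have a1 := h.a0_sq x
  have a2 := S.integral_sum_til_av_sq_le s x y hb h.av_sq
  linarith

/-- Weighted bound for a weight attached to the `i`-th edge of the geodesic: `C x y` is at most
`θ^k Pr (geo (i+1)) y` (`C_le`, `Pr_le_Pr_geo`) and, by `C_symm`, at most `θ^k Pr (geo i) x`; one
of the two sides has length at least `2 j`; apply `integral_mul_Pr_le`. -/
lemma integral_mul_C_le (s : ℝ) (x y : V) {i j : ℕ} (hi : i < S.G.dist x y)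
    (hj : 4 * j + 1 ≤ S.G.dist x y) {γ : S.Om → ℝ} (hγ : Bdd S.P γ) {Γ : ℝ}
    (hγ0 : ∀ᵐ ω ∂S.P, 0 ≤ γ ω) (hγΓ : ∀ᵐ ω ∂S.P, γ ω ≤ Γ)
    (hinv : ∀ g : S.G ≃g S.G, g (S.geo x y i) = S.geo x y i →
      g (S.geo x y (i + 1)) = S.geo x y (i + 1) → (fun ω => γ (S.Θ g ω)) =ᵐ[S.P] γ)
    {ξ : ℝ} (hξ : 0 ≤ ξ) :
    ∫ ω, γ ω * S.C (cst s) x y ω ∂S.P ≤ S.θ ^ S.G.dist x y *
      (min 1 (2 * S.vt s ^ j + ξ) * ∫ ω, γ ω ∂S.P + Γ * Real.exp (-(2 ^ j * ξ))) := by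
  have hadj := S.geo_adj hi
  have key : ∀ p q : V, (∀ᵐ ω ∂S.P, S.C (cst s) x y ω ≤ S.θ ^ S.G.dist x y * S.Pr (cst s) p q ω) →
      ∫ ω, γ ω * S.C (cst s) x y ω ∂S.P ≤
        S.θ ^ S.G.dist x y * ∫ ω, γ ω * S.Pr (cst s) p q ω ∂S.P := by
    intro p q hpq
    rw [← integral_const_mul]
    refine integral_mono_ae (hγ.mul (S.bdd_C _ _ _)).integrable
      ((hγ.mul (S.bdd_Pr _ _ _)).const_mul _).integrable ?_
    filter_upwards [hpq, hγ0] with ω e1 e2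
    rw [mul_left_comm]
    exact mul_le_mul_of_nonneg_left e1 e2
  have hθ := pow_nonneg S.θ0 (S.G.dist x y)
  by_cases hc : 2 * j ≤ i
  · refine (key (S.geo x y i) x ?_).trans (mul_le_mul_of_nonneg_left ?_ hθ)
    · filter_upwards [S.C_le (cst s) y x] with ω e1
      rw [S.C_symm, S.dc x y]
      refine e1.trans (mul_le_mul_of_nonneg_left ?_ (pow_nonneg S.θ0 _))
      have := S.Pr_le_Pr_geo (cst s) y x (i := S.G.dist x y - i) (by rw [S.dc y x]; omega) ω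
      rwa [S.geo_rev (by omega), show S.G.dist x y - (S.G.dist x y - i) = i by omega] at this
    · refine S.integral_mul_Pr_le s hadj.symm ?_ ?_ hγ hγ0 hγΓ (fun g a b => hinv g b a) hξ
      · simpa using S.mem_sub_geo_rev (Nat.zero_le i) hi
      · rw [S.dc, S.dist_geo_l hi.le]; exact hc
  · refine (key (S.geo x y (i + 1)) y ?_).trans (mul_le_mul_of_nonneg_left ?_ hθ)
    · filter_upwards [S.C_le (cst s) x y] with ω e1
      exact e1.trans (mul_le_mul_of_nonneg_left (S.Pr_le_Pr_geo (cst s) x y hi ω) hθ)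
    · refine S.integral_mul_Pr_le s hadj ?_ ?_ hγ hγ0 hγΓ hinv hξ
      · have := S.mem_sub_geo hi (le_refl (S.G.dist x y))
        rwa [S.geo_of_le le_rfl] at this
      · rw [S.dist_geo_r hi]; omega

lemma psiB_til_sq_le (s : ℝ) {f : S.Om → ℝ} {c : ℝ} (hf : ∀ᵐ ω ∂S.P, |f ω| ≤ c) :
    ∀ᵐ ω ∂S.P, S.til s f ω ^ 2 ≤ 4 * c ^ 2 := by
  filter_upwards [hf, ae_bdd_abs_condExp_of_ae_bdd_abs (m := S.Gs s) hf] with ω e1 e2
  have h1 : |S.til s f ω| ≤ 2 * c := (abs_sub _ _).trans (by linarith)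
  have h2 := pow_le_pow_left₀ (abs_nonneg _) h1 2
  rw [sq_abs] at h2
  linarith

lemma psiB_pair (s : ℝ) (x y : V) {i j : ℕ} (hi : i < S.G.dist x y)
    (hj : 4 * j + 1 ≤ S.G.dist x y) {f : S.Om → ℝ} (hf : Bdd S.P f) {c α : ℝ}
    (hc : ∀ᵐ ω ∂S.P, |f ω| ≤ c) (hα : ∫ ω, S.til s f ω ^ 2 ∂S.P ≤ α)
    (hinv : ∀ g : S.G ≃g S.G, g (S.geo x y i) = S.geo x y i →
      g (S.geo x y (i + 1)) = S.geo x y (i + 1) → (fun ω => f (S.Θ g ω)) =ᵐ[S.P] f)
    {ξ : ℝ} (hξ : 0 ≤ ξ) :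
    ∫ ω, S.til s f ω ^ 2 * (S.C (cst s) x y ω + S.P[S.C (cst s) x y | S.Gs s] ω) ∂S.P ≤
      2 * (S.θ ^ S.G.dist x y *
        (min 1 (2 * S.vt s ^ j + ξ) * α + 4 * c ^ 2 * Real.exp (-(2 ^ j * ξ)))) := by
  have hγ : Bdd S.P fun ω => S.til s f ω ^ 2 := (S.bdd_til s hf).pow 2
  have hC := S.bdd_C (cst s) x y
  have hγ0 : ∀ᵐ ω ∂S.P, 0 ≤ S.til s f ω ^ 2 := Filter.Eventually.of_forall fun ω => sq_nonneg _
  have hγΓ := psiB_til_sq_le s hc
  have hinv' : ∀ g : S.G ≃g S.G, g (S.geo x y i) = S.geo x y i →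
      g (S.geo x y (i + 1)) = S.geo x y (i + 1) →
      (fun ω => S.til s f (S.Θ g ω) ^ 2) =ᵐ[S.P] fun ω => S.til s f ω ^ 2 := by
    intro g a b
    filter_upwards [S.til_Θ g s hf (hinv g a b)] with ω e
    rw [e]
  have h1 := integral_mul_C_le s x y hi hj hγ hγ0 hγΓ hinv' hξ
  have h2 := integral_mul_C_le s x y hi hj (hγ.condExp _ (S.Gs_le s)) (Γ := 4 * c ^ 2)
    (condExp_nonneg hγ0)
    (by
      have : ∀ᵐ ω ∂S.P, |S.til s f ω ^ 2| ≤ 4 * c ^ 2 := by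
        filter_upwards [hγΓ] with ω e
        rwa [abs_of_nonneg (sq_nonneg _)]
      filter_upwards [ae_bdd_abs_condExp_of_ae_bdd_abs (m := S.Gs s) this] with ω e
      exact (le_abs_self _).trans e)
    (fun g a b => S.condExp_Gs_Θ_of g s hγ (hinv' g a b)) hξ
  rw [integral_condExp (S.Gs_le s)] at h2
  have h3 : ∫ ω, S.til s f ω ^ 2 * S.P[S.C (cst s) x y | S.Gs s] ω ∂S.P =
      ∫ ω, S.P[fun ω => S.til s f ω ^ 2 | S.Gs s] ω * S.C (cst s) x y ω ∂S.P := by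
    rw [← integral_mul_condExp (S.Gs_le s) hC (hγ.condExp _ (S.Gs_le s))
      stronglyMeasurable_condExp.aestronglyMeasurable]
    have := integral_mul_condExp (S.Gs_le s) hγ (hC.condExp _ (S.Gs_le s))
      stronglyMeasurable_condExp.aestronglyMeasurable
    simp only [mul_comm (S.P[S.C (cst s) x y | S.Gs s] _)] at this
    exact this.symm
  have hμ : 0 ≤ min 1 (2 * S.vt s ^ j + ξ) :=
    le_min zero_le_one (add_nonneg (mul_nonneg zero_le_two (pow_nonneg (S.vt_nonneg s) _)) hξ)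
  have h4 := mul_le_mul_of_nonneg_left
    (add_le_add_left (mul_le_mul_of_nonneg_left hα hμ) (4 * c ^ 2 * Real.exp (-(2 ^ j * ξ))))
    (pow_nonneg S.θ0 (S.G.dist x y))
  simp only [mul_add (S.til s f _ ^ 2)]
  rw [integral_add (hγ.mul hC).integrable (hγ.mul (hC.condExp _ (S.Gs_le s))).integrable, h3]
  linarith

/-- Far bound. `(e^A - e^Â)² ≤ (A - Â)² (e^A + e^Â)`, `e^Â ≤ P[e^A | Gs s]` (conditional Jensen),
`(A - Â)² ≤ (k+1) ∑ (til a_i)²`, and `∫ γ P[C | Gs s] = ∫ P[γ | Gs s] C`; then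
`integral_mul_C_le` for `γ = (til a_i)²` and `P[(til a_i)² | Gs s]`, both in `[0, 4c²]`. -/
lemma AvOK.far {s c α : ℝ} (h : S.AvOK s c α α) (x y : V) {j : ℕ}
    (hj : 4 * j + 1 ≤ S.G.dist x y) {ξ : ℝ} (hξ : 0 ≤ ξ) :
    ∫ ω, S.til s (S.C (cst s) x y) ω ^ 2 ∂S.P ≤
      S.θ ^ (2 * S.G.dist x y) * (2 * ((S.G.dist x y : ℝ) + 1) ^ 2 *
        (min 1 (2 * S.vt s ^ j + ξ) * α + 4 * c ^ 2 * Real.exp (-(2 ^ j * ξ)))) := by
  have hA := h.bdd_lA x y
  have hAh := hA.condExp _ (S.Gs_le s)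
  have hC := S.bdd_C (cst s) x y
  have hCC := hC.add (hC.condExp _ (S.Gs_le s))
  have hb : ∀ i ∈ Finset.range (S.G.dist x y),
      Bdd S.P (S.av s (S.geo x y i) (S.geo x y (i + 1))) :=
    fun i hi => h.bdd_av (S.geo_adj (Finset.mem_range.1 hi))
  have h0 := ((S.bdd_til s (h.bdd_a0 x)).pow 2).mul hCC
  have hi := fun i hi => ((S.bdd_til s (hb i hi)).pow 2).mul hCC
  have hθ := pow_nonneg S.θ0 (S.G.dist x y)
  have hjen : ∀ᵐ ω ∂S.P, S.θ ^ S.G.dist x y * Real.exp (S.P[S.lA s x y | S.Gs s] ω) ≤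
      S.P[S.C (cst s) x y | S.Gs s] ω := by
    have j1 := convexOn_exp.map_condExp_le_of_finiteDimensional (S.Gs_le s) hA.integrable
      hA.exp.integrable
    have j2 := condExp_smul (μ := S.P) (S.θ ^ S.G.dist x y) (Real.exp ∘ S.lA s x y) (S.Gs s)
    have j3 : S.P[S.C (cst s) x y | S.Gs s] =ᵐ[S.P]
        S.P[S.θ ^ S.G.dist x y • (Real.exp ∘ S.lA s x y) | S.Gs s] :=
      condExp_congr_ae (h.C_eq_exp x y)
    filter_upwards [j1, j2, j3] with ω e1 e2 e3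
    rw [e3, e2]
    exact mul_le_mul_of_nonneg_left e1 hθ
  refine (h.til_C_le x y).trans ?_
  have h1 : ∫ ω, (S.C (cst s) x y ω -
      S.θ ^ S.G.dist x y * Real.exp (S.P[S.lA s x y | S.Gs s] ω)) ^ 2 ∂S.P ≤
      ∫ ω, S.θ ^ S.G.dist x y * ((S.G.dist x y : ℝ) + 1) *
        (S.til s (S.a0 s x) ω ^ 2 * (S.C (cst s) x y ω + S.P[S.C (cst s) x y | S.Gs s] ω) +
        ∑ i ∈ Finset.range (S.G.dist x y),
          S.til s (S.av s (S.geo x y i) (S.geo x y (i + 1))) ω ^ 2 *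
            (S.C (cst s) x y ω + S.P[S.C (cst s) x y | S.Gs s] ω)) ∂S.P := by
    refine integral_mono_ae ((hC.sub (hAh.exp.const_mul _)).pow 2).integrable
      ((h0.add (Bdd.sum _ hi)).const_mul _).integrable ?_
    filter_upwards [h.C_eq_exp x y, h.lA_nonpos x y, condExp_nonpos (m := S.Gs s) (h.lA_nonpos x y),
      h.til_lA x y, hjen] with ω e1 e2 e3 e4 e5
    have b1 := psiB_exp_sq' e2 e3
    have b2 : (S.lA s x y ω - S.P[S.lA s x y | S.Gs s] ω) ^ 2 ≤ ((S.G.dist x y : ℝ) + 1) *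
        (S.til s (S.a0 s x) ω ^ 2 + ∑ i ∈ Finset.range (S.G.dist x y),
          S.til s (S.av s (S.geo x y i) (S.geo x y (i + 1))) ω ^ 2) := by
      change S.til s (S.lA s x y) ω ^ 2 ≤ _
      rw [e4]
      exact psiB_sq_add_sum _ _ _
    have b3 : S.θ ^ S.G.dist x y * (Real.exp (S.lA s x y ω) +
        Real.exp (S.P[S.lA s x y | S.Gs s] ω)) ≤
        S.C (cst s) x y ω + S.P[S.C (cst s) x y | S.Gs s] ω := by
      rw [mul_add, ← e1]; linarith
    have b4 := mul_le_mul b2 b3 (by positivity) ((sq_nonneg _).trans b2)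
    rw [← Finset.sum_mul, ← add_mul]
    calc _ = S.θ ^ S.G.dist x y * (S.θ ^ S.G.dist x y * (Real.exp (S.lA s x y ω) -
          Real.exp (S.P[S.lA s x y | S.Gs s] ω)) ^ 2) := by rw [e1]; ring
      _ ≤ S.θ ^ S.G.dist x y * ((S.lA s x y ω - S.P[S.lA s x y | S.Gs s] ω) ^ 2 *
          (S.θ ^ S.G.dist x y * (Real.exp (S.lA s x y ω) +
            Real.exp (S.P[S.lA s x y | S.Gs s] ω)))) := by
        refine mul_le_mul_of_nonneg_left ?_ hθ
        rw [mul_left_comm]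
        exact mul_le_mul_of_nonneg_left b1 hθ
      _ ≤ _ := (mul_le_mul_of_nonneg_left b4 hθ).trans (le_of_eq (by ring))
  refine h1.trans ?_
  rw [integral_const_mul, integral_add h0.integrable (Bdd.sum _ hi).integrable,
    integral_finsetSum _ fun i hi' => (hi i hi').integrable]
  have a0 := psiB_pair s x y (i := 0) (by omega) hj (h.bdd_a0 x) (h.a0_bd x) (h.a0_sq x)
    (fun g a _ => by
      have := S.a0_Θ g s x
      rw [S.geo_zero] at a
      rwa [a] at this) hξ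
  have ai := Finset.sum_le_sum fun i (hi' : i ∈ Finset.range (S.G.dist x y)) =>
    psiB_pair s x y (Finset.mem_range.1 hi') hj (hb i hi')
      (h.av_bd _ _ (S.geo_adj (Finset.mem_range.1 hi')))
      (h.av_sq _ _ (S.geo_adj (Finset.mem_range.1 hi')))
      (fun g a b => by
        have := S.av_Θ g s (S.geo x y i) (S.geo x y (i + 1))
        rwa [a, b] at this) hξ
  rw [Finset.sum_const, Finset.card_range, nsmul_eq_mul] at ai
  refine (mul_le_mul_of_nonneg_left (add_le_add a0 ai) (by positivity)).trans (le_of_eq ?_)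
  rw [two_mul (S.G.dist x y), pow_add]
  ring

lemma second_near (s : ℝ) (x y : V) :
    ∫ ω, S.C (cst s) x y ω ^ 2 * S.til s (S.m (cst s) y) ω ^ 2 ∂S.P ≤
      S.θ ^ (2 * S.G.dist x y) * S.phi s := by
  have ht := (S.bdd_til s (S.bdd_m (cst s) y)).pow 2
  rw [← S.integral_til_m_sq s y, ← integral_const_mul]
  refine integral_mono_ae (((S.bdd_C _ _ _).pow 2).mul ht).integrable
    (ht.const_mul _).integrable ?_
  filter_upwards [S.C_sq_le (cst s) x y] with ω e1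
  refine mul_le_mul_of_nonneg_right (e1.trans ?_) (sq_nonneg _)
  exact mul_le_of_le_one_right (pow_nonneg S.θ0 _) (S.Pr_le_one _ _ _ _)

lemma second_far (s : ℝ) (x y : V) {j : ℕ} (hj : 4 * j + 1 ≤ S.G.dist x y) {ξ : ℝ}
    (hξ : 0 ≤ ξ) :
    ∫ ω, S.C (cst s) x y ω ^ 2 * S.til s (S.m (cst s) y) ω ^ 2 ∂S.P ≤
      S.θ ^ (2 * S.G.dist x y) *
        (min 1 (2 * S.vt s ^ j + ξ) * S.phi s + 4 * Real.exp (-(2 ^ j * ξ))) := by
  have ht := (S.bdd_til s (S.bdd_m (cst s) y)).pow 2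
  have hθ := pow_nonneg S.θ0 (S.G.dist x y)
  have h1 : ∫ ω, S.C (cst s) x y ω ^ 2 * S.til s (S.m (cst s) y) ω ^ 2 ∂S.P ≤
      S.θ ^ S.G.dist x y * ∫ ω, S.til s (S.m (cst s) y) ω ^ 2 * S.C (cst s) x y ω ∂S.P := by
    rw [← integral_const_mul]
    refine integral_mono_ae (((S.bdd_C _ _ _).pow 2).mul ht).integrable
      ((ht.mul (S.bdd_C _ _ _)).const_mul _).integrable ?_
    filter_upwards [S.C_le (cst s) x y, S.C_nonneg (cst s) x y] with ω e1 e2
    have e3 := e1.trans (mul_le_of_le_one_right hθ (S.Pr_le_one _ _ _ _))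
    have := mul_le_mul_of_nonneg_right e3
      (mul_nonneg (sq_nonneg (S.til s (S.m (cst s) y) ω)) e2)
    nlinarith
  have h2 := integral_mul_C_le s x y (i := S.G.dist x y - 1) (by omega) hj ht (Γ := 4)
    (Filter.Eventually.of_forall fun ω => sq_nonneg _)
    (by
      have := psiB_til_sq_le s (f := S.m (cst s) y) (c := 1)
        (Filter.Eventually.of_forall (S.abs_m_le _ _))
      simpa using this)
    (fun g _ b => by
      rw [show S.G.dist x y - 1 + 1 = S.G.dist x y by omega, S.geo_of_le le_rfl] at b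
      have := S.m_Θ g (cst s) y
      rw [b, push_cst] at this
      filter_upwards [S.til_Θ g s (S.bdd_m _ _) this] with ω e
      rw [e]) hξ
  rw [S.integral_til_m_sq] at h2
  refine h1.trans ((mul_le_mul_of_nonneg_left h2 hθ).trans (le_of_eq ?_))
  rw [two_mul (S.G.dist x y), pow_add]
  ring

end Setup

end Crest.Agent.R160

end
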