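import Crest.Agent.R160.ScalarDefs

/-! Row 160: the observation channel, scalar lemmas. -/

noncomputable section

namespace Crest.Agent.R160

open MeasureTheory

lemma aa_nonneg {t : ℝ} (h0 : 0 ≤ t) (h1 : t ≤ 1) : 0 ≤ aa t := by
  exact mul_nonneg h0 (by linarith)

lemma aa_le (t : ℝ) : aa t ≤ 1 / 4 := by
  unfold aa; nlinarith [sq_nonneg (t - 1 / 2)]

lemma aa_le_self {t : ℝ} (h0 : 0 ≤ t) : aa t ≤ t := by
  unfold aa; nlinarith [sq_nonneg t]

@[fun_prop] lemma Measurable.aa' {α : Type*} {m : MeasurableSpace α} {f : α → ℝ}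
    (hf : Measurable[m] f) : Measurable[m] (fun x => aa (f x)) := by
  unfold aa; fun_prop

@[fun_prop] lemma Measurable.Fc' {α : Type*} {m : MeasurableSpace α} {f g : α → ℝ}
    (hf : Measurable[m] f) (hg : Measurable[m] g) : Measurable[m] (fun x => Fc (f x) (g x)) := by
  unfold Fc; fun_prop

@[fun_prop] lemma Measurable.Qi' {α : Type*} {m : MeasurableSpace α} {f g : α → ℝ}
    (hf : Measurable[m] f) (hg : Measurable[m] g) : Measurable[m] (fun x => Qi (f x) (g x)) := by
  unfold Qi; fun_prop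

@[fun_prop] lemma Measurable.jj' {α : Type*} {m : MeasurableSpace α} {f g h : α → ℝ}
    (hf : Measurable[m] f) (hg : Measurable[m] g) (hh : Measurable[m] h) :
    Measurable[m] (fun x => jj (f x) (g x) (h x)) := by
  unfold jj; fun_prop

@[fun_prop] lemma Measurable.jh' {α : Type*} {m : MeasurableSpace α} {f g h : α → ℝ}
    (hf : Measurable[m] f) (hg : Measurable[m] g) (hh : Measurable[m] h) :
    Measurable[m] (fun x => jh (f x) (g x) (h x)) := by
  unfold jh; exact Measurable.jj' (Measurable.Qi' hf (hg.mul hh)) hg hh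

@[fun_prop] lemma Measurable.kap' {α : Type*} {m : MeasurableSpace α} {f g h : α → ℝ}
    (hf : Measurable[m] f) (hg : Measurable[m] g) (hh : Measurable[m] h) :
    Measurable[m] (fun x => kap (f x) (g x) (h x)) := by
  unfold kap
  have : Measurable (fun p : α × unitInterval =>
      jh p.2 (f p.1) (g p.1) * jh p.2 (f p.1) (h p.1)) := by
    have h2 : Measurable (fun p : α × unitInterval => (p.2 : ℝ)) :=
      measurable_subtype_coe.comp measurable_snd
    exact (Measurable.jh' h2 (hf.comp measurable_fst) (hg.comp measurable_fst)).mul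
      (Measurable.jh' h2 (hf.comp measurable_fst) (hh.comp measurable_fst))
  exact (this.stronglyMeasurable.integral_prod_right' (ν := volume)).measurable

@[fun_prop] lemma Measurable.op' {α : Type*} {m : MeasurableSpace α} {f g : α → ℝ}
    (hf : Measurable[m] f) (hg : Measurable[m] g) : Measurable[m] (fun x => op (f x) (g x)) := by
  unfold op; fun_prop

@[fun_prop] lemma Measurable.rho' {α : Type*} {m : MeasurableSpace α} (θ : ℝ) {f : α → ℝ}
    (hf : Measurable[m] f) : Measurable[m] (fun x => rho θ (f x)) := by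
  unfold rho; fun_prop

@[fun_prop] lemma Measurable.clip' {α : Type*} {m : MeasurableSpace α} (K : ℝ) {f : α → ℝ}
    (hf : Measurable[m] f) : Measurable[m] (fun x => clip K (f x)) := by
  unfold clip; fun_prop

lemma abs_clip_le {K : ℝ} (hK : 0 ≤ K) (x : ℝ) : |clip K x| ≤ K := by
  unfold clip
  rw [abs_le]
  exact ⟨le_max_left _ _, max_le (by linarith) (min_le_left _ _)⟩

lemma clip_of_abs_le {K x : ℝ} (h : |x| ≤ K) : clip K x = x := by
  unfold clip
  rw [abs_le] at h
  rw [min_eq_right h.2, max_eq_right h.1]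

lemma abs_clip_sub_le (K x y : ℝ) : |clip K x - clip K y| ≤ |x - y| := by
  unfold clip
  refine (abs_max_sub_max_le_max _ _ _ _).trans ?_
  simp only [sub_self, abs_zero]
  refine max_le (abs_nonneg _) ((abs_min_sub_min_le_max _ _ _ _).trans ?_)
  simp

lemma clip_neg {K : ℝ} (hK : 0 ≤ K) (x : ℝ) : clip K (-x) = -clip K x := by
  unfold clip
  simp only [max_def, min_def]
  split_ifs <;> linarith

lemma Qi_spec {u c : ℝ} (h0 : 0 ≤ u) (h1 : u ≤ 1) (hc : |c| ≤ 1 / 4) :
    0 < 1 + c * Qi u c ∧ Fc (Qi u c) c = u := by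
  rw [abs_le] at hc
  have hD : 0 < 1 / 4 + c * (u - 1 / 2 + c / 4) := by nlinarith [sq_nonneg c]
  have hs := Real.sqrt_pos.2 hD
  have hs2 := Real.sq_sqrt hD.le
  unfold Qi
  set s := Real.sqrt (1 / 4 + c * (u - 1 / 2 + c / 4))
  set y := 2 * (u - 1 / 2 + c / 4) / (1 / 2 + s) with hy
  have hy2 : y * (1 / 2 + s) = 2 * (u - 1 / 2 + c / 4) := by
    rw [hy]; field_simp
  have hcy : c * y = 2 * s - 1 := by
    have h3 : (c * y - (2 * s - 1)) * (1 / 2 + s) = 0 := by linear_combination c * hy2 - 2 * hs2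
    rcases mul_eq_zero.1 h3 with h | h <;> linarith
  refine ⟨by linarith, ?_⟩
  unfold Fc
  linear_combination y / 4 * hcy + hy2 / 2

lemma abs_Qi_le {u c : ℝ} (h0 : 0 ≤ u) (h1 : u ≤ 1) (hc : |c| ≤ 1 / 4) : |Qi u c| ≤ 1 := by
  obtain ⟨hs, hF⟩ := Qi_spec h0 h1 hc
  rw [abs_le] at hc ⊢
  set y := Qi u c
  unfold Fc at hF
  constructor
  · by_contra hy
    push Not at hy
    have h3 : (y + 1) * (2 + c * y - c) < 0 := mul_neg_of_neg_of_pos (by linarith) (by linarith)
    nlinarith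
  · by_contra hy
    push Not at hy
    have h3 : 0 < (y - 1) * (2 + c * y + c) := mul_pos (by linarith) (by linarith)
    nlinarith

lemma Fc_nonneg {y c : ℝ} (hy : |y| ≤ 1) (hc : |c| ≤ 1 / 4) : 0 ≤ Fc y c := by
  rw [abs_le] at hy hc
  have h3 : 0 ≤ (y + 1) * (2 + c * y - c) := mul_nonneg (by linarith) (by nlinarith)
  unfold Fc; nlinarith

lemma Fc_le_one {y c : ℝ} (hy : |y| ≤ 1) (hc : |c| ≤ 1 / 4) : Fc y c ≤ 1 := by
  rw [abs_le] at hy hc
  have h3 : 0 ≤ (1 - y) * (2 + c * y + c) := mul_nonneg (by linarith) (by nlinarith)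
  unfold Fc; nlinarith

lemma Fc_Qi {u c : ℝ} (h0 : 0 ≤ u) (h1 : u ≤ 1) (hc : |c| ≤ 1 / 4) : Fc (Qi u c) c = u := by
  exact (Qi_spec h0 h1 hc).2

lemma Qi_Fc {y c : ℝ} (hy : |y| ≤ 1) (hc : |c| ≤ 1 / 4) : Qi (Fc y c) c = y := by
  rw [abs_le] at hy hc
  have hp : 0 < 1 + c * y := by nlinarith
  have h1 : 1 / 4 + c * (Fc y c - 1 / 2 + c / 4) = ((1 + c * y) / 2) ^ 2 := by
    unfold Fc; ring
  unfold Qi
  rw [h1, Real.sqrt_sq (by linarith), div_eq_iff (by linarith)]
  unfold Fc; ring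

lemma Fc_neg (y c : ℝ) : Fc (-y) (-c) = 1 - Fc y c := by
  unfold Fc; ring

lemma abs_mul_le_quarter {a m : ℝ} (ha0 : 0 ≤ a) (ha : a ≤ 1 / 4) (hm : |m| ≤ 1) :
    |a * m| ≤ 1 / 4 := by
  rw [abs_mul, abs_of_nonneg ha0]
  nlinarith [abs_nonneg m]

lemma one_add_ge {y a m : ℝ} (hy : |y| ≤ 1) (ha0 : 0 ≤ a) (ha : a ≤ 1 / 4) (hm : |m| ≤ 1) :
    3 / 4 ≤ 1 + a * m * y := by
  have h1 := abs_mul_le_quarter ha0 ha hm
  have h2 : |a * m * y| ≤ 1 / 4 := by
    rw [abs_mul]
    nlinarith [abs_nonneg y, abs_nonneg (a * m)]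
  linarith [(abs_le.1 h2).1]

lemma abs_Qi_sub_le {u c c' : ℝ} (h0 : 0 ≤ u) (h1 : u ≤ 1) (hc : |c| ≤ 1 / 4)
    (hc' : |c'| ≤ 1 / 4) : |Qi u c - Qi u c'| ≤ 2 / 3 * |c - c'| := by
  have hy := abs_Qi_le h0 h1 hc
  have hy' := abs_Qi_le h0 h1 hc'
  have hF := Fc_Qi h0 h1 hc
  have hF' := Fc_Qi h0 h1 hc'
  set y := Qi u c
  set y' := Qi u c'
  unfold Fc at hF hF'
  have e : (y - y') * (1 / 2 + c * (y + y') / 4) = (c - c') * ((1 - y' ^ 2) / 4) := by
    linear_combination hF - hF'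
  have h3 : 3 / 8 ≤ 1 / 2 + c * (y + y') / 4 := by
    have : |c * (y + y')| ≤ 1 / 2 := by
      rw [abs_mul]
      have := abs_add_le y y'
      nlinarith [abs_nonneg c, abs_nonneg (y + y')]
    linarith [(abs_le.1 this).1]
  have h4 : y' ^ 2 ≤ 1 := by
    rw [← sq_abs]; nlinarith [abs_nonneg y']
  have e2 := congrArg abs e
  rw [abs_mul, abs_mul, abs_of_nonneg (by linarith : 0 ≤ 1 / 2 + c * (y + y') / 4),
    abs_of_nonneg (by linarith : 0 ≤ (1 - y' ^ 2) / 4)] at e2
  nlinarith [abs_nonneg (y - y'), abs_nonneg (c - c'), sq_nonneg y']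

lemma abs_integral_unit_le {g : unitInterval → ℝ} {K : ℝ} (h : ∀ u, |g u| ≤ K) :
    |∫ u, g u| ≤ K := by
  have := norm_integral_le_of_norm_le_const (μ := (volume : Measure unitInterval)) (f := g) (C := K)
    (Filter.Eventually.of_forall h)
  simpa using this

lemma integral_unit (g : ℝ → ℝ) : ∫ t : unitInterval, g t = ∫ t in Set.Icc (0 : ℝ) 1, g t :=
  integral_subtype measurableSet_Icc g

lemma integral_Icc_comp_neg (g : ℝ → ℝ) :
    ∫ y in Set.Icc (-1 : ℝ) 1, g (-y) = ∫ y in Set.Icc (-1 : ℝ) 1, g y := by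
  rw [integral_Icc_eq_integral_Ioc, integral_Icc_eq_integral_Ioc,
    ← intervalIntegral.integral_of_le (by norm_num),
    ← intervalIntegral.integral_of_le (by norm_num), intervalIntegral.integral_comp_neg]
  simp

lemma integral_Qi' {c : ℝ} (hc : |c| ≤ 1 / 4) (z : ℝ → ℝ) :
    ∫ u : unitInterval, z (Qi u c) = ∫ y in Set.Icc (-1 : ℝ) 1, z y * ((1 + c * y) / 2) := by
  rw [integral_unit (fun u => z (Qi u c))]
  have himg : Set.Icc (0 : ℝ) 1 = (fun y => Fc y c) '' Set.Icc (-1 : ℝ) 1 := by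
    ext u
    constructor
    · intro hu
      exact ⟨Qi u c, abs_le.1 (abs_Qi_le hu.1 hu.2 hc), Fc_Qi hu.1 hu.2 hc⟩
    · rintro ⟨y, hy, rfl⟩
      exact ⟨Fc_nonneg (abs_le.2 hy) hc, Fc_le_one (abs_le.2 hy) hc⟩
  have hder : ∀ y ∈ Set.Icc (-1 : ℝ) 1,
      HasDerivWithinAt (fun y => Fc y c) ((1 + c * y) / 2) (Set.Icc (-1 : ℝ) 1) y := by
    intro y _
    refine HasDerivAt.hasDerivWithinAt ?_
    unfold Fc
    have h1 := ((hasDerivAt_id y).add_const 1).div_const 2
    have h2 := ((((hasDerivAt_id y).pow 2).sub_const 1).const_mul c).div_const 4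
    refine (h1.fun_add h2).congr_deriv ?_
    simp
    ring
  have hinj : Set.InjOn (fun y => Fc y c) (Set.Icc (-1 : ℝ) 1) := by
    intro y hy y' hy' h
    have := congrArg (fun u => Qi u c) h
    simpa only [Qi_Fc (abs_le.2 hy) hc, Qi_Fc (abs_le.2 hy') hc] using this
  rw [himg, integral_image_eq_integral_abs_deriv_smul measurableSet_Icc hder hinj]
  refine setIntegral_congr_fun measurableSet_Icc fun y hy => ?_
  have hp : 0 ≤ (1 + c * y) / 2 := by
    rw [abs_le] at hc
    nlinarith [hy.1, hy.2]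
  simp only [Qi_Fc (abs_le.2 hy) hc, abs_of_nonneg hp, smul_eq_mul]
  ring

lemma abs_jj_le {y a m : ℝ} (hy : |y| ≤ 1) (ha0 : 0 ≤ a) (ha : a ≤ 1 / 4) (hm : |m| ≤ 1) :
    |jj y a m| ≤ 2 * a := by
  have hden := one_add_ge hy ha0 ha hm
  unfold jj
  rw [abs_div, abs_of_pos (by linarith : 0 < 1 + a * m * y), div_le_iff₀ (by linarith), abs_mul,
    abs_of_nonneg ha0]
  nlinarith

lemma abs_jh_le {u a m : ℝ} (h0 : 0 ≤ u) (h1 : u ≤ 1) (ha0 : 0 ≤ a) (ha : a ≤ 1 / 4)
    (hm : |m| ≤ 1) : |jh u a m| ≤ 2 * a := by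
  exact abs_jj_le (abs_Qi_le h0 h1 (abs_mul_le_quarter ha0 ha hm)) ha0 ha hm

lemma abs_jh_sub_le {u a m m' : ℝ} (h0 : 0 ≤ u) (h1 : u ≤ 1) (ha0 : 0 ≤ a) (ha : a ≤ 1 / 4)
    (hm : |m| ≤ 1) (hm' : |m'| ≤ 1) : |jh u a m - jh u a m'| ≤ 2 * a * |m - m'| := by
  have hc := abs_mul_le_quarter ha0 ha hm
  have hc' := abs_mul_le_quarter ha0 ha hm'
  have hy := abs_Qi_le h0 h1 hc
  have hy' := abs_Qi_le h0 h1 hc'
  have hL := abs_Qi_sub_le h0 h1 hc hc'
  unfold jh jj
  set y := Qi u (a * m)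
  set y' := Qi u (a * m')
  have hd := one_add_ge hy ha0 ha hm
  have hd' := one_add_ge hy' ha0 ha hm'
  have he : a * y / (1 + a * m * y) - a * y' / (1 + a * m' * y') =
      a * ((y - y') + y * y' * (a * m' - a * m)) / ((1 + a * m * y) * (1 + a * m' * y')) := by
    rw [div_sub_div _ _ (by linarith) (by linarith)]
    congr 1
    ring
  have hdd : 9 / 16 ≤ (1 + a * m * y) * (1 + a * m' * y') := by nlinarith
  rw [he, abs_div, abs_of_pos (by linarith : 0 < (1 + a * m * y) * (1 + a * m' * y')),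
    div_le_iff₀ (by linarith), abs_mul, abs_of_nonneg ha0]
  have hcc : |a * m - a * m'| = a * |m - m'| := by
    rw [← mul_sub, abs_mul, abs_of_nonneg ha0]
  have h5 : |y - y' + y * y' * (a * m' - a * m)| ≤ 5 / 3 * (a * |m - m'|) := by
    refine (abs_add_le _ _).trans ?_
    rw [abs_mul, abs_mul, abs_sub_comm (a * m'), hcc]
    rw [hcc] at hL
    have h6 : |y| * |y'| ≤ 1 := mul_le_one₀ hy (abs_nonneg _) hy'
    have h7 : 0 ≤ a * |m - m'| := mul_nonneg ha0 (abs_nonneg _)
    nlinarith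
  have h7 : 0 ≤ a * |m - m'| := mul_nonneg ha0 (abs_nonneg _)
  calc a * |y - y' + y * y' * (a * m' - a * m)| ≤ a * (5 / 3 * (a * |m - m'|)) :=
        mul_le_mul_of_nonneg_left h5 ha0
    _ ≤ 1 / 4 * (5 / 3 * (a * |m - m'|)) := mul_le_mul_of_nonneg_right ha (by linarith)
    _ ≤ 2 * (a * |m - m'|) * (9 / 16) := by linarith
    _ ≤ 2 * (a * |m - m'|) * ((1 + a * m * y) * (1 + a * m' * y')) :=
        mul_le_mul_of_nonneg_left hdd (by linarith)
    _ = _ := by ring

lemma abs_kap_le {a m m' : ℝ} (ha0 : 0 ≤ a) (ha : a ≤ 1 / 4) (hm : |m| ≤ 1) (hm' : |m'| ≤ 1) :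
    |kap a m m'| ≤ 4 * a ^ 2 := by
  unfold kap
  refine abs_integral_unit_le fun u => ?_
  rw [abs_mul]
  have h1 := abs_jh_le u.2.1 u.2.2 ha0 ha hm
  have h2 := abs_jh_le u.2.1 u.2.2 ha0 ha hm'
  calc _ ≤ (2 * a) * (2 * a) := mul_le_mul h1 h2 (abs_nonneg _) (by linarith)
    _ = _ := by ring

lemma abs_kap_sub_le {a m₁ m₂ m₃ m₄ : ℝ} (ha0 : 0 ≤ a) (ha : a ≤ 1 / 4) (h₁ : |m₁| ≤ 1)
    (h₂ : |m₂| ≤ 1) (h₃ : |m₃| ≤ 1) (h₄ : |m₄| ≤ 1) :
    |kap a m₁ m₂ - kap a m₃ m₄| ≤ 4 * a ^ 2 * (|m₁ - m₃| + |m₂ - m₄|) := by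
  unfold kap
  have hint : ∀ m m' : ℝ, |m| ≤ 1 → |m'| ≤ 1 →
      Integrable (fun u : unitInterval => jh u a m * jh u a m') := by
    intro m m' hm hm'
    refine Integrable.of_bound (Measurable.aestronglyMeasurable ?_) (2 * a * (2 * a))
      (Filter.Eventually.of_forall fun u => ?_)
    · exact (Measurable.jh' measurable_subtype_coe measurable_const measurable_const).mul
        (Measurable.jh' measurable_subtype_coe measurable_const measurable_const)
    · rw [Real.norm_eq_abs, abs_mul]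
      exact mul_le_mul (abs_jh_le u.2.1 u.2.2 ha0 ha hm) (abs_jh_le u.2.1 u.2.2 ha0 ha hm')
        (abs_nonneg _) (by linarith)
  rw [← integral_sub (hint _ _ h₁ h₂) (hint _ _ h₃ h₄)]
  refine abs_integral_unit_le fun u => ?_
  have e : jh u a m₁ * jh u a m₂ - jh u a m₃ * jh u a m₄ =
      (jh u a m₁ - jh u a m₃) * jh u a m₂ + jh u a m₃ * (jh u a m₂ - jh u a m₄) := by ring
  rw [e]
  refine (abs_add_le _ _).trans ?_
  rw [abs_mul, abs_mul]
  have g1 := mul_le_mul (abs_jh_sub_le u.2.1 u.2.2 ha0 ha h₁ h₃) (abs_jh_le u.2.1 u.2.2 ha0 ha h₂)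
    (abs_nonneg _) (by positivity)
  have g2 := mul_le_mul (abs_jh_le u.2.1 u.2.2 ha0 ha h₃) (abs_jh_sub_le u.2.1 u.2.2 ha0 ha h₂ h₄)
    (abs_nonneg _) (by positivity)
  nlinarith

/-- Change of variables: the quantile function pushes the uniform law to `(1 + c y)/2 dy`. -/
lemma integral_Qi {c : ℝ} (hc : |c| ≤ 1 / 4) {z : ℝ → ℝ} (hz : Measurable z) {K : ℝ}
    (hK : ∀ y, |z y| ≤ K) :
    ∫ u : unitInterval, z (Qi u c) = ∫ y in Set.Icc (-1 : ℝ) 1, z y * ((1 + c * y) / 2) := by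
  exact integral_Qi' hc z

/-- The key scalar identity: the law of the observation given the spin `ε`, written against the
law with prior mean `m`. -/
lemma integral_spin_Qi {ε a m : ℝ} (hε : ε = 1 ∨ ε = -1) (ha0 : 0 ≤ a) (ha : a ≤ 1 / 4)
    (hm : |m| ≤ 1) {z : ℝ → ℝ} (hz : Measurable z) {K : ℝ} (hK : ∀ y, |z y| ≤ K) :
    ∫ η : unitInterval, z (ε * Qi η a) =
      (∫ u : unitInterval, z (Qi u (a * m))) +
        (ε - m) * ∫ u : unitInterval, z (Qi u (a * m)) * jh u a m := by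
  have hc := abs_mul_le_quarter ha0 ha hm
  have ha' : |a| ≤ 1 / 4 := by rw [abs_of_nonneg ha0]; exact ha
  have hL : ∫ η : unitInterval, z (ε * Qi η a) =
      ∫ y in Set.Icc (-1 : ℝ) 1, z y * ((1 + ε * a * y) / 2) := by
    rw [integral_Qi' ha' (fun y => z (ε * y))]
    rcases hε with rfl | rfl
    · simp
    · rw [← integral_Icc_comp_neg]
      congr 1
      ext y
      simp
  have hR : ∫ u : unitInterval, z (Qi u (a * m)) * jh u a m =
      ∫ y in Set.Icc (-1 : ℝ) 1, z y * (a * y / 2) := by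
    unfold jh
    rw [integral_Qi' hc (fun y => z y * jj y a m)]
    refine setIntegral_congr_fun measurableSet_Icc fun y hy => ?_
    have hd := one_add_ge (abs_le.2 hy) ha0 ha hm
    have hd' : 1 + a * m * y ≠ 0 := by linarith
    simp only [jj]
    generalize 1 + a * m * y = D at hd' ⊢
    field_simp
  have hint : ∀ g : ℝ → ℝ, Continuous g →
      IntegrableOn (fun y => z y * g y) (Set.Icc (-1 : ℝ) 1) := by
    intro g hg
    exact Integrable.bdd_mul hg.integrableOn_Icc hz.aestronglyMeasurable (c := K)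
      (Filter.Eventually.of_forall fun y => hK y)
  rw [hL, hR, integral_Qi' hc z, ← integral_const_mul,
    ← integral_add (hint _ (by fun_prop)) ((hint _ (by fun_prop)).const_mul _)]
  congr 1
  ext y
  ring

lemma integral_jh {a m : ℝ} (ha0 : 0 ≤ a) (ha : a ≤ 1 / 4) (hm : |m| ≤ 1) :
    ∫ u : unitInterval, jh u a m = 0 := by
  have hc := abs_mul_le_quarter ha0 ha hm
  unfold jh
  rw [integral_Qi' hc (fun y => jj y a m)]
  have : ∫ y in Set.Icc (-1 : ℝ) 1, jj y a m * ((1 + a * m * y) / 2) =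
      ∫ y in Set.Icc (-1 : ℝ) 1, a / 2 * y := by
    refine setIntegral_congr_fun measurableSet_Icc fun y hy => ?_
    have hd := one_add_ge (abs_le.2 hy) ha0 ha hm
    have hd' : 1 + a * m * y ≠ 0 := by linarith
    simp only [jj]
    generalize 1 + a * m * y = D at hd' ⊢
    field_simp
  rw [this, integral_Icc_eq_integral_Ioc, ← intervalIntegral.integral_of_le (by norm_num),
    intervalIntegral.integral_const_mul, integral_id]
  simp

lemma integral_Qi_one {a : ℝ} (ha : |a| ≤ 1 / 4) : ∫ η : unitInterval, Qi η a = a / 3 := by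
  rw [integral_Qi' ha (fun y => y), integral_Icc_eq_integral_Ioc,
    ← intervalIntegral.integral_of_le (by norm_num)]
  have : ∀ y : ℝ, y * ((1 + a * y) / 2) = 1 / 2 * y + a / 2 * y ^ 2 := fun y => by ring
  simp only [this]
  rw [intervalIntegral.integral_add (by apply Continuous.intervalIntegrable; fun_prop)
    (by apply Continuous.intervalIntegrable; fun_prop), intervalIntegral.integral_const_mul,
    integral_id]
  simp
  ring

lemma integral_Qi_sq {a : ℝ} (ha : |a| ≤ 1 / 4) : ∫ η : unitInterval, Qi η a ^ 2 = 1 / 3 := by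
  rw [integral_Qi' ha (fun y => y ^ 2), integral_Icc_eq_integral_Ioc,
    ← intervalIntegral.integral_of_le (by norm_num)]
  have : ∀ y : ℝ, y ^ 2 * ((1 + a * y) / 2) = 1 / 2 * y ^ 2 + a / 2 * y ^ 3 := fun y => by ring
  simp only [this]
  rw [intervalIntegral.integral_add (by apply Continuous.intervalIntegrable; fun_prop)
    (by apply Continuous.intervalIntegrable; fun_prop)]
  simp
  norm_num

lemma integral_aa : ∫ t : unitInterval, aa t = 1 / 6 := by
  rw [integral_unit aa, integral_Icc_eq_integral_Ioc,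
    ← intervalIntegral.integral_of_le (by norm_num)]
  have : ∀ y : ℝ, aa y = y - y ^ 2 := fun y => by unfold aa; ring
  simp only [this]
  rw [intervalIntegral.integral_sub (by apply Continuous.intervalIntegrable; fun_prop)
    (by apply Continuous.intervalIntegrable; fun_prop)]
  simp
  norm_num

/-- Indices of another round carry no signal in the time window `[s, s+δ) ⊆ [r, r+1]`. -/
lemma aa_eq_zero_of_ne {i r : ℕ} (hir : i ≠ r) {s δ t : ℝ} (hs : (r : ℝ) ≤ s)
    (hsδ : s + δ ≤ r + 1) (h0 : 0 ≤ t) (h1 : t ≤ 1) (h2 : s ≤ i + t) (h3 : i + t < s + δ) :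
    aa t = 0 := by
  rcases lt_or_gt_of_ne hir with h | h
  · have : (i : ℝ) + 1 ≤ r := by exact_mod_cast h
    have ht : t = 1 := by linarith
    simp [aa, ht]
  · have : (r : ℝ) + 1 ≤ i := by exact_mod_cast h
    linarith

lemma integral_window_le (r : ℕ) (s : ℝ) {δ : ℝ} (hδ : 0 ≤ δ) :
    ∫ t : unitInterval, (if s ≤ r + (t : ℝ) ∧ r + (t : ℝ) < s + δ then (1 : ℝ) else 0) ≤ δ := by
  rw [integral_unit (fun t => if s ≤ r + t ∧ r + t < s + δ then (1 : ℝ) else 0)]
  have : (fun t : ℝ => if s ≤ r + t ∧ r + t < s + δ then (1 : ℝ) else 0) =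
      (Set.Ico (s - r) (s - r + δ)).indicator fun _ => (1 : ℝ) := by
    ext t
    simp only [Set.indicator, Set.mem_Ico]
    congr 1
    apply propext
    constructor <;> rintro ⟨h1, h2⟩ <;> constructor <;> linarith
  rw [this, integral_indicator measurableSet_Ico]
  simp only [integral_const, MeasurableSet.univ, measureReal_restrict_apply, Set.univ_inter,
    smul_eq_mul, mul_one]
  rw [measureReal_restrict_apply measurableSet_Ico]
  refine (measureReal_mono Set.inter_subset_left (by simp)).trans ?_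
  simp [hδ]

lemma integral_window_bound (r : ℕ) (s δ : ℝ) {M : ℝ} (hM : 0 ≤ M) (g : ℝ → ℝ)
    (hg0 : ∀ t, 0 ≤ g t)
    (hg : ∀ t, 0 ≤ t → t ≤ 1 → s ≤ r + t → r + t < s + δ → g t ≤ M) :
    ∫ t : unitInterval, (if s ≤ r + (t : ℝ) ∧ r + (t : ℝ) < s + δ then g t else 0) ≤
      M * ∫ t : unitInterval, (if s ≤ r + (t : ℝ) ∧ r + (t : ℝ) < s + δ then (1 : ℝ) else 0) := by
  rw [← integral_const_mul]
  refine integral_mono_of_nonneg (Filter.Eventually.of_forall fun t => ?_) ?_
    (Filter.Eventually.of_forall fun t => ?_)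
  · dsimp only
    split_ifs
    · exact hg0 _
    · exact le_rfl
  · refine Integrable.const_mul (Integrable.of_bound (Measurable.aestronglyMeasurable ?_) 1
      (Filter.Eventually.of_forall fun t => ?_)) _
    · refine Measurable.ite ?_ measurable_const measurable_const
      have hmeas : Measurable fun t : unitInterval => (r : ℝ) + (t : ℝ) := by fun_prop
      exact (measurableSet_le measurable_const hmeas).inter
        (measurableSet_lt hmeas measurable_const)
    · split_ifs <;> simp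
  · dsimp only
    split_ifs with h
    · simpa using hg t t.2.1 t.2.2 h.1 h.2
    · simp

/-- Signal mass of the window compared with the probability of not yet being revealed. -/
lemma integral_window_aa_le {r : ℕ} {s δ : ℝ} (hδ : 0 ≤ δ) (hs : (r : ℝ) ≤ s)
    (hsδ : s + δ ≤ r + 1) :
    ∫ t : unitInterval, (if s ≤ r + (t : ℝ) ∧ r + (t : ℝ) < s + δ then aa t ^ 2 else 0) ≤
      δ * min 1 (s + δ) ^ 2 * ∫ t : unitInterval, (if s ≤ r + (t : ℝ) then (1 : ℝ) else 0) := by
  have hr : (0 : ℝ) ≤ r := Nat.cast_nonneg r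
  have h1 : ∫ t : unitInterval, (if s ≤ r + (t : ℝ) then (1 : ℝ) else 0) = 1 - (s - r) := by
    rw [integral_unit (fun t => if s ≤ r + t then (1 : ℝ) else 0)]
    have : (fun t : ℝ => if s ≤ r + t then (1 : ℝ) else 0) =
        (Set.Ici (s - r)).indicator fun _ => (1 : ℝ) := by
      ext t
      simp only [Set.indicator, Set.mem_Ici]
      congr 1
      apply propext
      constructor <;> intro h <;> linarith
    rw [this, integral_indicator measurableSet_Ici]
    simp only [integral_const, MeasurableSet.univ, measureReal_restrict_apply, Set.univ_inter,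
      smul_eq_mul, mul_one]
    rw [measureReal_restrict_apply measurableSet_Ici]
    have : Set.Ici (s - r) ∩ Set.Icc (0 : ℝ) 1 = Set.Icc (s - r) 1 := by
      ext t
      simp only [Set.mem_inter_iff, Set.mem_Ici, Set.mem_Icc]
      constructor
      · rintro ⟨a, b, c⟩; exact ⟨a, c⟩
      · rintro ⟨a, b⟩; exact ⟨a, by linarith, b⟩
    rw [this, Real.volume_real_Icc_of_le (by linarith)]
  rw [h1]
  have hM : 0 ≤ min 1 (s + δ) ^ 2 * (1 - (s - r)) := mul_nonneg (sq_nonneg _) (by linarith)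
  refine (integral_window_bound r s δ hM (fun t => aa t ^ 2) (fun t => sq_nonneg _) ?_).trans ?_
  · intro t h0 h1 h2 h3
    have h4 : t ≤ min 1 (s + δ) := le_min h1 (by linarith)
    have h5 : (1 - t) ^ 2 ≤ 1 - (s - r) := by nlinarith
    unfold aa
    rw [mul_pow]
    exact mul_le_mul (pow_le_pow_left₀ h0 h4 2) h5 (sq_nonneg _) (sq_nonneg _)
  · have := mul_le_mul_of_nonneg_left (integral_window_le r s hδ) hM
    linarith

lemma integral_obs_le {s : ℝ} (hs : 0 ≤ s) :
    ∫ t : unitInterval, (if (t : ℝ) < s then aa t ^ 2 else 0) ≤ s ^ 3 := by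
  have h1 := integral_window_bound 0 0 s (sq_nonneg s) (fun t => aa t ^ 2) (fun t => sq_nonneg _)
    (fun t h0 h1 _ h3 => pow_le_pow_left₀ (aa_nonneg h0 h1)
      ((aa_le_self h0).trans (by simpa using h3.le)) 2)
  have h2 := mul_le_mul_of_nonneg_left (integral_window_le 0 0 hs) (sq_nonneg s)
  have h3 : ∫ t : unitInterval, (if (t : ℝ) < s then aa t ^ 2 else 0) =
      ∫ t : unitInterval, (if (0 : ℝ) ≤ (0 : ℕ) + (t : ℝ) ∧ (0 : ℕ) + (t : ℝ) < 0 + s
        then aa t ^ 2 else 0) := by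
    congr 1
    ext t
    simp [t.2.1]
  rw [h3]
  nlinarith

lemma le_integral_obs {s : ℝ} (hs : 0 ≤ s) (hs' : s ≤ 1 / 2) :
    s ^ 3 / 12 ≤ ∫ t : unitInterval, (if (t : ℝ) < s then aa t ^ 2 else 0) := by
  rw [integral_unit (fun t => if t < s then aa t ^ 2 else 0)]
  have : (fun t : ℝ => if t < s then aa t ^ 2 else 0) =
      (Set.Iio s).indicator fun t => aa t ^ 2 := by
    ext t
    simp only [Set.indicator, Set.mem_Iio]
  rw [this, integral_indicator measurableSet_Iio, Measure.restrict_restrict measurableSet_Iio]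
  have : Set.Iio s ∩ Set.Icc (0 : ℝ) 1 = Set.Ico 0 s := by
    ext t
    simp only [Set.mem_inter_iff, Set.mem_Iio, Set.mem_Icc, Set.mem_Ico]
    constructor
    · rintro ⟨a, b, c⟩; exact ⟨b, a⟩
    · rintro ⟨a, b⟩; exact ⟨b, a, by linarith⟩
  rw [this, integral_Ico_eq_integral_Ioc, ← intervalIntegral.integral_of_le hs]
  have h2 : ∫ t in (0 : ℝ)..s, 1 / 4 * t ^ 2 = s ^ 3 / 12 := by
    simp
    ring
  rw [← h2]
  refine intervalIntegral.integral_mono_on hs (by apply Continuous.intervalIntegrable; fun_prop)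
    (by apply Continuous.intervalIntegrable; unfold aa; fun_prop) fun t ht => ?_
  unfold aa
  have h3 : 1 / 4 ≤ (1 - t) ^ 2 := by nlinarith [ht.1, ht.2]
  nlinarith [sq_nonneg t]

end Crest.Agent.R160

end
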