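import Mathlib

/-! Row 160: scalar functions, definitions only. -/

noncomputable section

namespace Crest.Agent.R160

open MeasureTheory

/-- Signal strength of an observation made at (fractional) time `t`. -/
def aa (t : ℝ) : ℝ := t * (1 - t)

/-- Distribution function of the density `(1 + c y)/2` on `[-1,1]`. -/
def Fc (y c : ℝ) : ℝ := (y + 1) / 2 + c * (y ^ 2 - 1) / 4

/-- Quantile function of the density `(1 + c y)/2` on `[-1,1]`. -/
def Qi (u c : ℝ) : ℝ :=
  2 * (u - 1 / 2 + c / 4) / (1 / 2 + Real.sqrt (1 / 4 + c * (u - 1 / 2 + c / 4)))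

/-- Normalised Bayes jump. -/
def jj (y a m : ℝ) : ℝ := a * y / (1 + a * m * y)

/-- Normalised Bayes jump as a function of the innovation. -/
def jh (u a m : ℝ) : ℝ := jj (Qi u (a * m)) a m

/-- Covariance of two normalised jumps driven by the same innovation. -/
def kap (a m m' : ℝ) : ℝ := ∫ u : unitInterval, jh u a m * jh u a m'

/-- Addition of magnetisations. -/
def op (x y : ℝ) : ℝ := (x + y) / (1 + x * y)

/-- Normalised regression coefficient across an edge with cavity magnetisation `n`. -/
def rho (θ n : ℝ) : ℝ := (1 - n ^ 2) / (1 - θ ^ 2 * n ^ 2)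

/-- Clipping to `[-K, K]`. -/
def clip (K x : ℝ) : ℝ := max (-K) (min K x)

end Crest.Agent.R160

end
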