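import Crest.Agent.R160.Ind
import Crest.Agent.R160.GeoTrans

/-! Row 160: symmetries (tree automorphisms and the global spin flip). -/

noncomputable section

namespace Crest.Agent.R160

open Classical MeasureTheory ProbabilityTheory

universe u

namespace Setup

variable {V : Type u} (S : Setup V)

/-- The action on (vertex, round) pairs. -/
def gw (g : S.G ≃g S.G) (w : V × ℕ) : V × ℕ := (g w.1, w.2)

private lemma sym_comap_eq {Ω β β' : Type*} [mβ : MeasurableSpace β] [mβ' : MeasurableSpace β']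
    {X : Ω → β} {X' : Ω → β'} {κ : β' → β} {κ' : β → β'} (hκ : Measurable κ)
    (hκ' : Measurable κ') (h : ∀ ω, X ω = κ (X' ω)) (h' : ∀ ω, X' ω = κ' (X ω)) :
    mβ.comap X = mβ'.comap X' := by
  apply le_antisymm
  · have e : X = κ ∘ X' := funext h
    rw [e, ← MeasurableSpace.comap_comp]
    exact MeasurableSpace.comap_mono hκ.comap_le
  · have e : X' = κ' ∘ X := funext h'
    rw [e, ← MeasurableSpace.comap_comp]
    exact MeasurableSpace.comap_mono hκ'.comap_le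

/-- Reindexing a record. -/
private def reix (g : S.G ≃g S.G) (d : Data V) : Data V := fun w => d (S.gw g w)

private lemma measurable_reix (g : S.G ≃g S.G) : Measurable (S.reix g) :=
  measurable_pi_lambda _ fun w => measurable_pi_apply (S.gw g w)

private lemma reix_symm (g : S.G ≃g S.G) (d : Data V) : S.reix g.symm (S.reix g d) = d := by
  funext w
  simp [reix, gw]

private lemma sgn_decide {x : ℝ} (h : x = 1 ∨ x = -1) : sgn (decide (0 < x)) = x := by
  rcases h with rfl | rfl <;> simp [sgn]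

private lemma act_neg_neg (d : Data V) : act (-1) (act (-1) d) = d := by
  rw [act_act]; simp

lemma mp_Θ (g : S.G ≃g S.G) : MeasurePreserving (S.Θ g) S.P S.P := by
  have h1 : MeasurePreserving (fun (x : S.Idx → unitInterval) i => x (S.idxMap g i))
      S.lab S.lab :=
    ⟨measurable_pi_lambda _ fun i => measurable_pi_apply _,
      Measure.map_infinitePi_infinitePi_of_inj
        (P := fun _ : S.Idx => (volume : Measure unitInterval)) (S.idxMap g).injective⟩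
  exact ((MeasurePreserving.id coin).prod h1).comp (S.mp_skew (g S.o))

lemma mp_flip : MeasurePreserving S.flip S.P S.P := by
  have h1 : MeasurePreserving (fun b : Bool => !b) coin coin := by
    refine ⟨measurable_of_countable _, ?_⟩
    unfold coin
    rw [Measure.map_add _ _ (measurable_of_countable _), Measure.map_smul, Measure.map_smul,
      Measure.map_dirac' (measurable_of_countable _), Measure.map_dirac' (measurable_of_countable _),
      add_comm]
    rfl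
  exact h1.prod (MeasurePreserving.id S.lab)

lemma idxMap_iT (g : S.G ≃g S.G) (w : V × ℕ) : S.idxMap g (S.iT w) = S.iT (S.gw g w) := rfl

lemma idxMap_iN (g : S.G ≃g S.G) (w : V × ℕ) : S.idxMap g (S.iN w) = S.iN (S.gw g w) := rfl

lemma I1_comap_Θ (g : S.G ≃g S.G) (i : S.Idx) :
    (S.I1 i).comap (S.Θ g) = S.I1 (S.idxMap g i) := by
  unfold I1
  rw [MeasurableSpace.comap_comp]
  rfl

lemma idxMap_image_reg (g : S.G ≃g S.G) (x y : V) :
    S.idxMap g '' S.reg (S.sub x y) = S.reg (S.sub (g x) (g y)) := by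
  have key : ∀ i : S.Idx, S.idxMap g i ∈ S.reg (S.sub (g x) (g y)) ↔ i ∈ S.reg (S.sub x y) := by
    rintro (⟨e, he⟩ | w | w)
    · induction e using Sym2.ind with
      | h p q =>
        have h1 : S.G.Adj p q := he
        have h2 : S.G.Adj (g p) (g q) := g.map_rel_iff.2 h1
        have e1 : S.idxMap g (Sum.inl ⟨s(p, q), he⟩) = S.iE ⟨s(g p, g q), h2⟩ := rfl
        rw [e1, S.iE_mem_reg h2, S.mem_sub_map, S.mem_sub_map]
        exact (S.iE_mem_reg h1).symm
    · exact S.mem_sub_map g x y w.1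
    · exact S.mem_sub_map g x y w.1
  ext j
  obtain ⟨i, rfl⟩ := (S.idxMap g).surjective j
  rw [key, (S.idxMap g).injective.mem_set_image]

lemma tau_Θ (g : S.G ≃g S.G) (x y : V) (ω : S.Om) :
    S.tau x y (S.Θ g ω) = S.tau (g x) (g y) ω := by
  unfold tau
  by_cases h : S.G.Adj x y
  · have h2 : S.G.Adj (g x) (g y) := g.map_rel_iff.2 h
    rw [dif_pos h, dif_pos h2]
    rfl
  · have h2 : ¬ S.G.Adj (g x) (g y) := fun h' => h (g.map_rel_iff.1 h')
    rw [dif_neg h, dif_neg h2]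

lemma σ_Θ (g : S.G ≃g S.G) (v : V) (ω : S.Om) : S.σ v (S.Θ g ω) = S.σ (g v) ω := by
  have h1 : S.σ v (S.Θ g ω) = S.σ (g S.o) ω * (S.σ (g S.o) ω * S.σ (g v) ω) := by
    rw [S.σ_mul (g S.o) (g v), S.Pi_map]
    conv_lhs => unfold σ
    simp only [S.tau_Θ]
    congr 1
    exact sgn_decide (S.σ_cases _ _)
  rw [h1, ← mul_assoc, S.σ_mul_self, one_mul]

lemma σ_flip (v : V) (ω : S.Om) : S.σ v (S.flip ω) = -S.σ v ω := by
  have h1 : sgn (S.flip ω).1 = -sgn ω.1 := by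
    unfold flip
    cases ω.1 <;> simp [sgn]
  unfold σ
  rw [h1, neg_mul]
  rfl

lemma tm_Θ (g : S.G ≃g S.G) (w : V × ℕ) (ω : S.Om) : S.tm w (S.Θ g ω) = S.tm (S.gw g w) ω := by
  rfl

lemma a_Θ (g : S.G ≃g S.G) (w : V × ℕ) (ω : S.Om) : S.a w (S.Θ g ω) = S.a (S.gw g w) ω := by
  rfl

lemma Y_Θ (g : S.G ≃g S.G) (w : V × ℕ) (ω : S.Om) : S.Y w (S.Θ g ω) = S.Y (S.gw g w) ω := by
  unfold Y
  rw [S.σ_Θ]
  rfl

lemma D_Θ (g : S.G ≃g S.G) (th : V × ℕ → ℝ) (ω : S.Om) (w : V × ℕ) :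
    S.D th (S.Θ g ω) w = S.D (S.push g th) ω (S.gw g w) := by
  unfold D
  rw [S.tm_Θ, S.Y_Θ]
  have : S.push g th (S.gw g w) = th w := by simp [push, gw]
  rw [this]

lemma D_flip (th : V × ℕ → ℝ) (ω : S.Om) : S.D th (S.flip ω) = act (-1) (S.D th ω) := by
  funext w
  have h1 : S.tm w (S.flip ω) = S.tm w ω := rfl
  have h2 : S.Y w (S.flip ω) = -S.Y w ω := by
    unfold Y
    rw [S.σ_flip, neg_mul]
    rfl
  unfold D act
  rw [h1, h2]
  by_cases h : S.tm w ω < th w <;> simp [h]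

lemma F_comap_Θ (g : S.G ≃g S.G) (th : V × ℕ → ℝ) :
    (S.F th).comap (S.Θ g) = S.F (S.push g th) := by
  unfold F
  rw [MeasurableSpace.comap_comp]
  have h : ∀ ω, (S.D th ∘ S.Θ g) ω = S.reix g (S.D (S.push g th) ω) := fun ω =>
    funext fun w => S.D_Θ g th ω w
  exact sym_comap_eq (S.measurable_reix g) (S.measurable_reix g.symm) h
    (fun ω => by rw [h, S.reix_symm])

lemma F_comap_flip (th : V × ℕ → ℝ) : (S.F th).comap S.flip = S.F th := by
  unfold F
  rw [MeasurableSpace.comap_comp]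
  have h : ∀ ω, (S.D th ∘ S.flip) ω = act (-1) (S.D th ω) := fun ω => S.D_flip th ω
  exact sym_comap_eq (measurable_act _) (measurable_act _) h (fun ω => by rw [h, act_neg_neg])

lemma Flt_comap_Θ (g : S.G ≃g S.G) (w : V × ℕ) :
    (S.Flt w).comap (S.Θ g) = S.Flt (S.gw g w) := by
  unfold Flt
  rw [MeasurableSpace.comap_comp]
  have h : ∀ ω, (S.Dlt w ∘ S.Θ g) ω = Prod.map id (S.reix g) (S.Dlt (S.gw g w) ω) := fun ω =>
    Prod.ext rfl (funext fun w' => S.D_Θ g _ ω w')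
  exact sym_comap_eq (measurable_id.prodMap (S.measurable_reix g))
    (measurable_id.prodMap (S.measurable_reix g.symm)) h
    (fun ω => by rw [h]; exact Prod.ext rfl (S.reix_symm g _).symm)

lemma Flt_comap_flip (w : V × ℕ) : (S.Flt w).comap S.flip = S.Flt w := by
  unfold Flt
  rw [MeasurableSpace.comap_comp]
  have h : ∀ ω, (S.Dlt w ∘ S.flip) ω = Prod.map id (act (-1)) (S.Dlt w ω) := fun ω =>
    Prod.ext rfl (S.D_flip _ ω)
  exact sym_comap_eq (measurable_id.prodMap (measurable_act _))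
    (measurable_id.prodMap (measurable_act _)) h
    (fun ω => by rw [h]; exact Prod.ext rfl (act_neg_neg _).symm)

@[simp] lemma push_cst (g : S.G ≃g S.G) (s : ℝ) : S.push g (cst s) = cst s := rfl

lemma push_res_sub (g : S.G ≃g S.G) (th : V × ℕ → ℝ) (x y : V) :
    S.push g (res th (S.sub x y)) = res (S.push g th) (S.sub (g x) (g y)) := by
  funext w
  have h : g.symm w.1 ∈ S.sub x y ↔ w.1 ∈ S.sub (g x) (g y) := by
    rw [← S.mem_sub_map g]
    simp
  simp only [push, res, h]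

lemma m_Θ (g : S.G ≃g S.G) (th : V × ℕ → ℝ) (v : V) :
    (fun ω => S.m th v (S.Θ g ω)) =ᵐ[S.P] S.m (S.push g th) (g v) := by
  have h1 := (S.mp_Θ g).quasiMeasurePreserving.ae (S.m_ae_eq th v)
  have h2 := condExp_comp_mp (S.mp_Θ g) (S.F_le th) (S.bdd_σ v).integrable
  rw [S.F_comap_Θ] at h2
  simp only [S.σ_Θ] at h2
  filter_upwards [h1, h2, S.m_ae_eq (S.push g th) (g v)] with ω a b c
  rw [a, b, c]

lemma m_flip (th : V × ℕ → ℝ) (v : V) :
    (fun ω => S.m th v (S.flip ω)) =ᵐ[S.P] fun ω => -S.m th v ω := by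
  have h1 := S.mp_flip.quasiMeasurePreserving.ae (S.m_ae_eq th v)
  have h2 := condExp_comp_mp S.mp_flip (S.F_le th) (S.bdd_σ v).integrable
  rw [S.F_comap_flip] at h2
  simp only [S.σ_flip] at h2
  have h3 := condExp_neg (μ := S.P) (S.σ v) (S.F th)
  filter_upwards [h1, h2, h3, S.m_ae_eq th v] with ω a b c d
  rw [a, b, d]
  exact c

/-- The relative version of the magnetisation. -/
lemma mh_ae_eq (th : V × ℕ → ℝ) (y : V) :
    S.mh th y =ᵐ[S.P] fun ω => S.σ y ω * S.m th y ω := by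
  filter_upwards [S.m_flip th y] with ω h
  rw [S.m_eq_mfun, S.m_eq_mfun, S.D_flip] at h
  unfold mh Dh
  rw [S.m_eq_mfun]
  rcases S.σ_cases y ω with h1 | h1
  · rw [h1, act_one, h]; ring
  · rw [h1, act_neg_neg, h]; ring

lemma nh_ae_eq (th : V × ℕ → ℝ) (x y : V) :
    S.nh th x y =ᵐ[S.P] fun ω => S.σ y ω * S.n th x y ω := S.mh_ae_eq _ _

lemma rh_ae_eq (th : V × ℕ → ℝ) (x y : V) :
    S.rh th x y =ᵐ[S.P] fun ω => rho S.θ (S.n th x y ω) := by
  filter_upwards [S.nh_ae_eq th x y] with ω h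
  unfold rh
  rw [h, rho_spin (S.σ_cases y ω)]

lemma n_Θ (g : S.G ≃g S.G) (th : V × ℕ → ℝ) (x y : V) :
    (fun ω => S.n th x y (S.Θ g ω)) =ᵐ[S.P] S.n (S.push g th) (g x) (g y) := by
  unfold n
  rw [← S.push_res_sub]
  exact S.m_Θ g _ y

lemma rh_Θ (g : S.G ≃g S.G) (th : V × ℕ → ℝ) (x y : V) :
    (fun ω => S.rh th x y (S.Θ g ω)) =ᵐ[S.P] S.rh (S.push g th) (g x) (g y) := by
  filter_upwards [(S.mp_Θ g).quasiMeasurePreserving.ae (S.rh_ae_eq th x y), S.n_Θ g th x y,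
    S.rh_ae_eq (S.push g th) (g x) (g y)] with ω a b c
  rw [a, b, c]

lemma rh_flip (th : V × ℕ → ℝ) (x y : V) :
    (fun ω => S.rh th x y (S.flip ω)) =ᵐ[S.P] S.rh th x y := by
  filter_upwards [S.mp_flip.quasiMeasurePreserving.ae (S.rh_ae_eq th x y),
    S.m_flip (res th (S.sub x y)) y, S.rh_ae_eq th x y] with ω a b c
  rw [a, c]
  unfold n
  rw [b]
  simp [rho]

lemma Pr_Θ (g : S.G ≃g S.G) (th : V × ℕ → ℝ) (x y : V) :
    (fun ω => S.Pr th x y (S.Θ g ω)) =ᵐ[S.P] S.Pr (S.push g th) (g x) (g y) := by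
  have : Countable V := S.countable
  have h : ∀ᵐ ω ∂S.P, ∀ p q : V,
      S.rh th p q (S.Θ g ω) = S.rh (S.push g th) (g p) (g q) ω :=
    ae_all_iff.2 fun p => ae_all_iff.2 fun q => S.rh_Θ g th p q
  filter_upwards [h] with ω h
  unfold Pr
  rw [S.Pi_map]
  simp only [h]

lemma av_Θ (g : S.G ≃g S.G) (s : ℝ) (x y : V) :
    (fun ω => S.av s x y (S.Θ g ω)) =ᵐ[S.P] S.av s (g x) (g y) := by
  filter_upwards [S.rh_Θ g (cst s) x y] with ω h
  unfold av
  rw [h]
  rfl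

lemma av_flip (s : ℝ) (x y : V) : (fun ω => S.av s x y (S.flip ω)) =ᵐ[S.P] S.av s x y := by
  filter_upwards [S.rh_flip (cst s) x y] with ω h
  unfold av
  rw [h]

lemma a0_Θ (g : S.G ≃g S.G) (s : ℝ) (x : V) :
    (fun ω => S.a0 s x (S.Θ g ω)) =ᵐ[S.P] S.a0 s (g x) := by
  filter_upwards [S.m_Θ g (cst s) x] with ω h
  unfold a0
  rw [h]
  rfl

lemma M_Θ (g : S.G ≃g S.G) (w : V × ℕ) :
    (fun ω => S.M w (S.Θ g ω)) =ᵐ[S.P] S.M (S.gw g w) := by
  have h1 := (S.mp_Θ g).quasiMeasurePreserving.ae (S.M_ae_eq w)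
  have h2 := condExp_comp_mp (S.mp_Θ g) (S.Flt_le w) (S.bdd_σ w.1).integrable
  rw [S.Flt_comap_Θ] at h2
  simp only [S.σ_Θ] at h2
  filter_upwards [h1, h2, S.M_ae_eq (S.gw g w)] with ω a b c
  rw [a, b, c]
  rfl

lemma M_flip (w : V × ℕ) : (fun ω => S.M w (S.flip ω)) =ᵐ[S.P] fun ω => -S.M w ω := by
  have h1 := S.mp_flip.quasiMeasurePreserving.ae (S.M_ae_eq w)
  have h2 := condExp_comp_mp S.mp_flip (S.Flt_le w) (S.bdd_σ w.1).integrable
  rw [S.Flt_comap_flip] at h2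
  simp only [S.σ_flip] at h2
  have h3 := condExp_neg (μ := S.P) (S.σ w.1) (S.Flt w)
  filter_upwards [h1, h2, h3, S.M_ae_eq w] with ω a b c d
  rw [a, b, d]
  exact c

lemma U_Θ (g : S.G ≃g S.G) (w : V × ℕ) :
    (fun ω => S.U w (S.Θ g ω)) =ᵐ[S.P] S.U (S.gw g w) := by
  filter_upwards [S.M_Θ g w] with ω h
  unfold U
  rw [h, S.Y_Θ, S.a_Θ]

lemma U_flip (w : V × ℕ) : (fun ω => S.U w (S.flip ω)) =ᵐ[S.P] fun ω => 1 - S.U w ω := by
  filter_upwards [S.M_flip w] with ω h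
  have h1 : S.a w (S.flip ω) = S.a w ω := rfl
  have h2 : S.Y w (S.flip ω) = -S.Y w ω := by
    unfold Y
    rw [S.σ_flip, neg_mul]
    rfl
  unfold U
  rw [h, h1, h2, mul_neg, Fc_neg]

lemma Xi_Θ (g : S.G ≃g S.G) : ∀ᵐ ω ∂S.P, S.Xi (S.Θ g ω) = S.Xi ω ∘ g := by
  have : Countable V := S.countable
  filter_upwards [ae_all_iff.2 fun w => S.U_Θ g w] with ω h
  funext v i
  unfold Xi
  simp only [Function.comp]
  rw [h (v, i)]
  rfl

/-- Conditioning on the innovations commutes with the automorphisms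
(`condExp_comp_mp`, `condExp_comap_congr`). -/
lemma condExp_Gs_Θ (g : S.G ≃g S.G) (s : ℝ) {f : S.Om → ℝ} (hf : Bdd S.P f) :
    (fun ω => S.P[f | S.Gs s] (S.Θ g ω)) =ᵐ[S.P] S.P[fun ω => f (S.Θ g ω) | S.Gs s] := by
  have : Countable V := S.countable
  refine (condExp_comp_mp (S.mp_Θ g) (S.Gs_le s) hf.integrable).trans ?_
  unfold Gs
  rw [MeasurableSpace.comap_comp]
  have h : ∀ᵐ ω ∂S.P, (S.Gam s ∘ S.Θ g) ω = S.reix g (S.Gam s ω) := by
    filter_upwards [ae_all_iff.2 fun w => S.U_Θ g w] with ω h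
    funext w
    simp only [Function.comp, Gam, reix]
    rw [h w, S.tm_Θ]
  refine condExp_comap_congr ((S.measurable_Gam s).comp (S.measurable_Θ g)) (S.measurable_Gam s)
    (S.measurable_reix g) (S.measurable_reix g.symm) h ?_ _
  filter_upwards [h] with ω h
  rw [h, S.reix_symm]

lemma condExp_Gs_flip (s : ℝ) {f : S.Om → ℝ} (hf : Bdd S.P f) :
    (fun ω => S.P[f | S.Gs s] (S.flip ω)) =ᵐ[S.P] S.P[fun ω => f (S.flip ω) | S.Gs s] := by
  have : Countable V := S.countable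
  refine (condExp_comp_mp S.mp_flip (S.Gs_le s) hf.integrable).trans ?_
  unfold Gs
  rw [MeasurableSpace.comap_comp]
  let κ : Data V → Data V := fun d w => if 0 ≤ (d w).1 then ((d w).1, 1 - (d w).2) else d w
  have hκ : Measurable κ := by
    refine measurable_pi_lambda _ fun w => Measurable.ite ?_ ?_ (measurable_pi_apply w)
    · exact measurableSet_le measurable_const (measurable_pi_apply w).fst
    · exact (measurable_pi_apply w).fst.prodMk (measurable_const.sub (measurable_pi_apply w).snd)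
  have hκκ : ∀ d, κ (κ d) = d := by
    intro d
    funext w
    by_cases h : 0 ≤ (d w).1 <;> simp [κ, h]
  have h : ∀ᵐ ω ∂S.P, (S.Gam s ∘ S.flip) ω = κ (S.Gam s ω) := by
    filter_upwards [ae_all_iff.2 fun w => S.U_flip w] with ω h
    funext w
    have h1 : S.tm w (S.flip ω) = S.tm w ω := rfl
    simp only [Function.comp, Gam, κ]
    rw [h w, h1]
    by_cases h2 : S.tm w ω < s
    · simp [h2, S.tm_nonneg]
    · simp [h2]
  refine condExp_comap_congr ((S.measurable_Gam s).comp S.measurable_flip) (S.measurable_Gam s)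
    hκ hκ h ?_ _
  filter_upwards [h] with ω h
  rw [h, hκκ]

lemma condExp_Gs_Θ_of (g : S.G ≃g S.G) (s : ℝ) {f f' : S.Om → ℝ} (hf : Bdd S.P f)
    (h : (fun ω => f (S.Θ g ω)) =ᵐ[S.P] f') :
    (fun ω => S.P[f | S.Gs s] (S.Θ g ω)) =ᵐ[S.P] S.P[f' | S.Gs s] := by
  exact (S.condExp_Gs_Θ g s hf).trans (condExp_congr_ae h)

lemma til_Θ (g : S.G ≃g S.G) (s : ℝ) {f f' : S.Om → ℝ} (hf : Bdd S.P f)
    (h : (fun ω => f (S.Θ g ω)) =ᵐ[S.P] f') :
    (fun ω => S.til s f (S.Θ g ω)) =ᵐ[S.P] S.til s f' := by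
  filter_upwards [h, S.condExp_Gs_Θ_of g s hf h] with ω a b
  unfold til
  rw [a, b]

lemma til_flip (s : ℝ) {f : S.Om → ℝ} (hf : Bdd S.P f)
    (h : (fun ω => f (S.flip ω)) =ᵐ[S.P] f) :
    (fun ω => S.til s f (S.flip ω)) =ᵐ[S.P] S.til s f := by
  filter_upwards [h, (S.condExp_Gs_flip s hf).trans (condExp_congr_ae h)] with ω a b
  unfold til
  rw [a, b]

/-- A flip-invariant variable is a function of the labels. -/
lemma aesm_of_flip {f : S.Om → ℝ} (hf : AEStronglyMeasurable f S.P)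
    (h : (fun ω => f (S.flip ω)) =ᵐ[S.P] f) : AEStronglyMeasurable[⨆ i, S.I1 i] f S.P := by
  have hm := hf.stronglyMeasurable_mk
  have h2 : Measurable[⨆ i, S.I1 i] (fun ω : S.Om => ω.2) := by
    refine @measurable_pi_lambda _ _ _ (⨆ i, S.I1 i) _ _ fun i => ?_
    exact Measurable.of_comap_le (le_iSup S.I1 i)
  have h3 : ∀ b : Bool, StronglyMeasurable[⨆ i, S.I1 i] (fun ω : S.Om => hf.mk f (b, ω.2)) :=
    fun b => hm.comp_measurable (measurable_const.prodMk h2)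
  refine ⟨fun ω => (hf.mk f (true, ω.2) + hf.mk f (false, ω.2)) * (1 / 2),
    ((h3 true).add (h3 false)).mul_const _, ?_⟩
  filter_upwards [h, hf.ae_eq_mk, S.mp_flip.quasiMeasurePreserving.ae hf.ae_eq_mk] with ω a b c
  obtain ⟨β, x⟩ := ω
  have a' : f (!β, x) = f (β, x) := a
  have c' : f (!β, x) = hf.mk f (!β, x) := c
  cases β
  · simp only [Bool.not_false] at a' c'
    simp only
    rw [← c', ← b, a']; ring
  · simp only [Bool.not_true] at a' c'
    simp only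
    rw [← c', ← b, a']; ring

private lemma integral_Θ (g : S.G ≃g S.G) {f f' : S.Om → ℝ} (hf : AEStronglyMeasurable f S.P)
    (h : (fun ω => f (S.Θ g ω)) =ᵐ[S.P] f') : ∫ ω, f' ω ∂S.P = ∫ ω, f ω ∂S.P := by
  rw [← integral_congr_ae h]
  have := integral_map (μ := S.P) (S.measurable_Θ g).aemeasurable
    (f := f) (by rw [(S.mp_Θ g).map_eq]; exact hf)
  rw [(S.mp_Θ g).map_eq] at this
  exact this.symm

lemma integral_til_m_sq (s : ℝ) (v : V) :
    ∫ ω, S.til s (S.m (cst s) v) ω ^ 2 ∂S.P = S.phi s := by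
  obtain ⟨g, hg, -⟩ := S.exists_iso (x := S.o) (v := S.o) (x' := v) (v' := v)
    (by rw [S.ds, S.ds])
  refine S.integral_Θ g ((S.bdd_til s (S.bdd_m _ _)).pow 2).1 ?_
  filter_upwards [S.til_Θ g s (S.bdd_m (cst s) S.o) (S.m_Θ g (cst s) S.o)] with ω h
  rw [h, hg]
  rfl

lemma integral_m_sq_eq (s : ℝ) (v v' : V) :
    ∫ ω, S.m (cst s) v ω ^ 2 ∂S.P = ∫ ω, S.m (cst s) v' ω ^ 2 ∂S.P := by
  obtain ⟨g, hg, -⟩ := S.exists_iso (x := v') (v := v') (x' := v) (v' := v)
    (by rw [S.ds, S.ds])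
  refine S.integral_Θ g ((S.bdd_m _ _).pow 2).1 ?_
  filter_upwards [S.m_Θ g (cst s) v'] with ω h
  rw [h, hg]
  rfl

/-- All cavity magnetisations have the same law. -/
lemma integral_n_eq (s : ℝ) {x y x' y' : V} (h : S.G.Adj x y) (h' : S.G.Adj x' y') {Φ : ℝ → ℝ}
    (hΦ : Measurable Φ) :
    ∫ ω, Φ (S.n (cst s) x y ω) ∂S.P = ∫ ω, Φ (S.n (cst s) x' y' ω) ∂S.P := by
  obtain ⟨g, hg, hg'⟩ := S.exists_iso (x := x') (v := y') (x' := x) (v' := y)
    (by rw [S.adj_dist h, S.adj_dist h'])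
  refine S.integral_Θ g (hΦ.comp (S.measurable_n _ _ _)).aestronglyMeasurable ?_
  filter_upwards [S.n_Θ g (cst s) x' y'] with ω h
  rw [h, hg, hg']
  rfl

lemma integral_n_sq (s : ℝ) {x y : V} (h : S.G.Adj x y) :
    ∫ ω, S.n (cst s) x y ω ^ 2 ∂S.P = S.q s :=
  S.integral_n_eq s h S.adj_o' (Φ := fun t => t ^ 2) (by fun_prop)

end Setup

end Crest.Agent.R160

end
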